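import Vale.Agent.P014W.Ky0
import Vale.Agent.P014T.Lk.Ell

/-! # P014W, row KEY: the polynomial end -/

set_option autoImplicit false
set_option linter.all false

open scoped Classical
open Polynomial

noncomputable section

namespace Vale.Agent.P014W

open Vale.Agent.P022 (Qb)

theorem Br.int {N : ℕ} {a : ℕ → ℤ} {e κ δ : ℤ} (h : Br N a e κ)
    (d : δ = if 2 ∣ N then 0 else 1) : ∃ (s : ℤ) (t : ℕ), (s = 1 ∨ s = -1) ∧ ∀ x : ℤ,
    s * x ^ t * (1 - e * x + κ * x ^ 2) * (2 - a 2 * x + δ * x ^ 2) * (2 * x ^ 2 - e * x + κ) =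
      (x ^ 2 - e * x + κ) * (2 * x ^ 2 - a 2 * x + δ) * (2 - e * x + κ * x ^ 2) := by
  obtain ⟨s, t, hs, h⟩ := h
  refine ⟨s, t, hs, fun x => ?_⟩
  have pf : ∀ y, Pf N a y = 2 - a 2 * y + δ * y ^ 2 := fun y => by
    rw [Pf, d]; split_ifs <;> simp
  let Z : Qb[X] := X
  let q := s * Z ^ t * (1 - e * Z + κ * Z ^ 2) * (2 - a 2 * Z + δ * Z ^ 2) *
    (2 * Z ^ 2 - e * Z + κ) -
      (Z ^ 2 - e * Z + κ) * (2 * Z ^ 2 - a 2 * Z + δ) * (2 - e * Z + κ * Z ^ 2)
  have q0 : q = 0 := by_contra fun n => by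
    obtain ⟨y, m, y0, k⟩ := h q.roots.toFinset
    refine m (Multiset.mem_toFinset.2 ((mem_roots n).2 ?_))
    rw [pf, pf] at k
    simp only [IsRoot, q, Z, eval_sub, eval_mul, eval_add, eval_pow, eval_X, eval_intCast, eval_one,
      eval_ofNat]
    field_simp at k
    linear_combination -k
  have := congrArg (eval (x : Qb)) q0
  simp only [q, Z, eval_sub, eval_mul, eval_add, eval_pow, eval_X, eval_intCast, eval_one,
    eval_ofNat, eval_zero, sub_eq_zero] at this
  exact Int.cast_injective (α := Qb) (by push_cast; exact this)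

theorem brf : BRF := fun N G a e κ h c b => by
  have C := P004N.H461.pfCf N G a h
  have l : |a 2| ≤ 2 := by exact_mod_cast P014T.Lk.rn_le h Nat.prime_two
  obtain ⟨s, t, hs, k⟩ := b.int rfl
  rw [abs_le] at l
  have g := fun n => C.good 2 Nat.prime_two n 0
  have d := fun n => C.bad 2 Nat.prime_two n 1
  simp only [zero_add, pow_one, pow_zero, C.one] at g d
  rcases c with ⟨rfl, c⟩ | ⟨rfl, c⟩
  · have k0 := k 0
    have k2 := k 2
    have e1 : -3 < e := by nlinarith
    have e2 : e < 3 := by nlinarith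
    obtain ⟨l1, l2⟩ := l
    have u : a 2 = e ∧ ¬ 2 ∣ N := by
      generalize a 2 = z at *
      cases t with
      | zero =>
        split_ifs at k0 k2 with n <;> rcases hs with rfl | rfl <;> interval_cases e <;> omega
      | succ t =>
        rw [pow_succ] at k0 k2
        generalize (2 : ℤ) ^ t = y at k2
        split_ifs at k0 k2 with n
        · rcases hs with rfl | rfl <;> interval_cases e <;> interval_cases z <;> omega
        · simp at k0
    exact ⟨u.1, by rw [g u.2, u.1]; push_cast; ring⟩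
  · have k2 := k (2 * e)
    have u : a 2 = e ∧ 2 ∣ N := by
      generalize a 2 = z at *
      generalize w : (2 * e) ^ t = y at k2
      have y0 : y ≠ 0 := w ▸ pow_ne_zero _ (by rintro n; nlinarith)
      obtain ⟨l1, l2⟩ := l
      split_ifs at k2 with n <;> rcases hs with rfl | rfl <;>
        rcases sq_eq_one_iff.1 c with rfl | rfl <;> interval_cases z <;> omega
    exact ⟨u.1, by rw [d u.2, u.1]; ring⟩

end Vale.Agent.P014W
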