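import Vale.Agent.P014W.Ky0
import Vale.Agent.P014T.Rk.Lwc

/-! # P014W, row HEC: shifts and Hecke operators on the twisted values (helper48) -/

set_option autoImplicit false
set_option linter.all false

open scoped Classical

noncomputable section

namespace Vale.Agent.P014W

open Vale.Agent.P014T
open Vale.Agent.P022 (Qb)
open P004N (RN)
open Vale.Agent.P027M.M (io)
open Vale.Agent.P022K.QT.Cu (E E_add E_int E_eq_one E_ne E_nat)
open Rk (Lw Lw_eq Lw_smul gw)
open An (Pw V V_mul M0 M0_V M0_smul cp)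

namespace He

variable {N m S p : ℕ} {G : UpperHalfPlane → ℂ} {a : ℕ → ℤ} {ψ : DirichletCharacter Qb m} {r : ℚ}
  {Y : Qb} {s y : ℂ}

theorem E_sh (x : ℚ) (k : ℤ) : E (x + k) = E x := by rw [E_add, E_int, mul_one]

theorem E_half {n : ℤ} (h : Odd n) : E (n * (1 / 2)) = -1 := by
  obtain ⟨k, rfl⟩ := h
  have e : E (1 / 2) ^ 2 = 1 := by rw [← E_nat]; exact E_eq_one.2 ⟨1, by norm_num⟩
  rw [show ((2 * k + 1 : ℤ) : ℚ) * (1 / 2) = 1 / 2 + k by push_cast; ring, E_sh]
  refine (mul_self_eq_one_iff.1 ((sq _).symm.trans e)).resolve_left fun z => ?_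
  obtain ⟨j, z⟩ := E_eq_one.1 z
  have : (1 : ℤ) = 2 * j := by exact_mod_cast (by linarith : (1 : ℚ) = 2 * j)
  omega

/-- the Gauss sum -/
def gs (ψ : DirichletCharacter Qb m) (n : ℤ) : ℂ :=
  ∑ v ∈ Finset.range m, io (ψ v) * io (E (n * (v / m)))

theorem uw_eq (ψ : DirichletCharacter Qb m) (r : ℚ) (n : ℤ) :
    uw ψ r n = gs ψ n * io (E (n * r)) := by
  simp only [uw, gs, mul_add, E_add, map_mul, Finset.sum_mul, mul_assoc]

theorem gs_eq [NeZero m] (ψ : DirichletCharacter Qb m) (n : ℤ) :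
    gs ψ n = ∑ x : ZMod m, io (ψ x) * io (E (n * (x.val / m))) := by
  refine (Finset.sum_bij' (fun (x : ZMod m) _ => x.val) (fun (v : ℕ) _ => (v : ZMod m))
    (fun x _ => Finset.mem_range.2 x.val_lt) (fun _ _ => Finset.mem_univ _)
    (fun x _ => ZMod.natCast_zmod_val x) (fun v h => ZMod.val_cast_of_lt (Finset.mem_range.1 h))
    fun x _ => by rw [ZMod.natCast_zmod_val]).symm

theorem gs_dvd (hm : m ≠ 0) (h : ψ ≠ 1) {n : ℤ} (d : (m : ℤ) ∣ n) : gs ψ n = 0 := by
  obtain ⟨k, rfl⟩ := d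
  have := NeZero.mk hm
  have z : (m : ℚ) ≠ 0 := Nat.cast_ne_zero.2 hm
  have e (x : ZMod m) : E ((m * k : ℤ) * (x.val / m)) = 1 :=
    E_eq_one.2 ⟨k * x.val, by push_cast; field_simp⟩
  simp only [gs_eq, e, map_one, mul_one, ← map_sum, MulChar.sum_eq_zero_of_ne_one h, map_zero]

theorem gs_mul (hm : m ≠ 0) (h : ψ p * Y = 1) (n : ℤ) : gs ψ (p * n) = io Y * gs ψ n := by
  have := NeZero.mk hm
  have z : (m : ℚ) ≠ 0 := Nat.cast_ne_zero.2 hm
  obtain ⟨u, hu⟩ : IsUnit (p : ZMod m) := by_contra fun c => by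
    rw [ψ.map_nonunit c, zero_mul] at h; exact zero_ne_one h
  rw [gs_eq, gs_eq, Finset.mul_sum]
  refine Fintype.sum_equiv u.mulLeft _ _ fun x => ?_
  obtain ⟨k, e⟩ : ∃ k : ℤ, (p * x.val : ℤ) = ((p : ZMod m) * x).val + m * k :=
    ⟨(p * x.val / m : ℕ), by
      rw [show (p : ZMod m) * x = (p * x.val : ℕ) by simp, ZMod.val_natCast]
      exact_mod_cast (Nat.mod_add_div _ _).symm⟩
  have e' : (p * x.val : ℚ) = ((p : ZMod m) * x).val + m * k := by exact_mod_cast e
  rw [show u.mulLeft x = p * x from hu ▸ rfl, map_mul ψ, map_mul io, ← mul_assoc, ← mul_assoc, ← map_mul io Y,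
    mul_comm Y, h, map_one, one_mul, show ((p * n : ℤ) : ℚ) * (x.val / m) =
      n * (((p : ZMod m) * x).val / m) + (n * k : ℤ) by
        push_cast; field_simp; linear_combination n * e', E_sh]

/-- the weight -/
def W (ψ : DirichletCharacter Qb m) (S : ℕ) (r : ℚ) (n : ℤ) : ℂ :=
  if IsCoprime n (S : ℤ) then uw ψ r n else 0

theorem W_per (hm : m ≠ 0) (ψ : DirichletCharacter Qb m) (S : ℕ) (r : ℚ) :
    Function.Periodic (W ψ S r) ((S * (m * r.den) : ℕ) : ℤ) := fun n => by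
  have z : (m : ℚ) ≠ 0 := Nat.cast_ne_zero.2 hm
  refine if_congr (by push_cast; exact IsCoprime.add_mul_left_left_iff)
    (Finset.sum_congr rfl fun v _ => ?_) rfl
  rw [show ((n + (S * (m * r.den) : ℕ) : ℤ) : ℚ) * (v / m + r) =
    n * (v / m + r) + (S * (r.den * v + m * r.num) : ℤ) by
      push_cast; rw [← Rat.mul_den_eq_num]; field_simp, E_sh]

theorem W_pw (hm : m ≠ 0) (hS : S ≠ 0) (ψ : DirichletCharacter Qb m) (r : ℚ) :
    (Pw fun n => W ψ S r n) ∧ Pw fun n => W ψ S r (-n) :=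
  have z := mul_ne_zero hS (mul_ne_zero hm r.den_nz)
  ⟨⟨_, z, fun n => (congrArg _ (Nat.cast_add _ _)).trans (W_per hm ψ S r n)⟩,
    _, z, fun n => (congrArg _ (by push_cast; ring)).trans ((W_per hm ψ S r).sub_eq _)⟩

theorem W_mul (hm : m ≠ 0) (hp : p.Prime) (hS : ¬ p ∣ S) (h : ψ p * Y = 1) (r : ℚ) (n : ℤ) :
    W ψ S r (p * n) = io Y * W ψ S (p * r) n := by
  have c : IsCoprime (p : ℤ) S := Nat.isCoprime_iff_coprime.2 (hp.coprime_iff_not_dvd.2 hS)
  simp only [W, IsCoprime.mul_left_iff, c, true_and, uw_eq, gs_mul hm h, mul_ite, mul_zero,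
    Int.cast_mul, Int.cast_natCast, mul_assoc, mul_left_comm (p : ℚ)]

theorem W_cp (ψ : DirichletCharacter Qb m) (r : ℚ) (n : ℤ) :
    W ψ (p * S) r n = if IsCoprime n p then W ψ S r n else 0 := by
  simp only [W, Nat.cast_mul, IsCoprime.mul_right_iff, ite_and]

/-- **one Euler factor, on weights which are not multiplicative** -/
theorem eul (h : RN N G a) (hp : p.Prime) {w0 w1 w2 : ℕ → ℂ} (k0 : Pw w0) (k1 : Pw w1)
    (k2 : Pw w2) (e1 : ∀ n, w0 (p * n) = y * w1 n) (e2 : ∀ n, w1 (p * n) = y * w2 n) :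
    Lw a (cp p w0) = Lw a w0 - a p / p * y * Lw a w1 +
      if p ∣ N then 0 else y ^ 2 / p * Lw a w2 := by
  have z : (p : ℂ) ≠ 0 := Nat.cast_ne_zero.2 hp.ne_zero
  have R := Rk.rl (w := fun _ => 1) h hp fun _ => (mul_one _).symm
  simp only [An.Rl, one_mul, one_pow, mul_one] at R
  have e : (fun n => cp p w0 n * a n) = (fun n => w0 n * a n) +
      (-(a p * y)) • V p (fun n => w1 n * a n) +
      ((if p ∣ N then 0 else (p : ℂ)) * y ^ 2) • V p (V p fun n => w2 n * a n) := by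
    funext n
    simp only [cp, Nat.coprime_comm (n := n), hp.coprime_iff_not_dvd, Pi.add_apply, Pi.smul_apply,
      smul_eq_mul]
    by_cases d : p ∣ n
    · obtain ⟨n, rfl⟩ := d
      rw [if_neg (not_not.2 (dvd_mul_right _ _)), V_mul hp.pos, V_mul hp.pos, R, e1, V]
      by_cases d : p ∣ n
      · obtain ⟨n, rfl⟩ := d
        rw [if_pos (dvd_mul_right _ _), if_pos (dvd_mul_right _ _), e2,
          Nat.mul_div_cancel_left _ hp.pos]
        ring
      · rw [if_neg d, if_neg d]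
        ring
    · simp [V, d]
  have g1 := (gw h k1).V hp.pos
  have g2 := ((gw h k2).V hp.pos).V hp.pos
  rw [Lw_eq, e, ((gw h k0).add (g1.smul _)).M0_add (g2.smul _), (gw h k0).M0_add (g1.smul _)]
  simp only [M0_smul, M0_V hp.pos, ← Lw_eq]
  split_ifs <;> field_simp <;> ring

theorem Ls_smul (a : ℕ → ℤ) (s x : ℂ) (w : ℤ → ℂ) : Ls a s (fun n => x * w n) = x * Ls a s w := by
  simp only [Ls, Lw_smul]
  ring

theorem Ph_eq (a : ℕ → ℤ) (s : ℂ) (ψ : DirichletCharacter Qb m) (S : ℕ) (r : ℚ) :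
    Ph a s ψ S r = Ls a s (W ψ S r) := rfl

end He

open He in
/-- **row HEC** -/
theorem hec : HEC := fun N G a s m ψ S r h hm hS => by
  have z := hm.ne_zero
  refine ⟨fun k => ?_, fun d => ?_, fun n => ?_, fun p Y hp d e => ?_⟩
  · refine congrArg (Ls a s) (funext fun n => if_congr .rfl ?_ rfl)
    rw [uw_eq, uw_eq, mul_add, ← Int.cast_mul, E_sh]
  · rw [← neg_one_mul, Ph_eq, Ph_eq, ← Ls_smul]
    refine congrArg (Ls a s) (funext fun n => ?_)
    simp only [W]
    split_ifs with c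
    · rw [uw_eq, uw_eq, mul_add, E_add, E_half (Int.isCoprime_two_right.1
        (c.of_isCoprime_of_dvd_right (Int.natCast_dvd_natCast.2 d)))]
      simp
    · simp
  · rw [mul_comm, Ph_eq, Ph_eq]
    refine congrArg (Ls a s) (funext fun k => ?_)
    rw [W_cp]
    split_ifs with c
    · rfl
    · rw [W, uw_eq, gs_dvd z n (by_contra fun q => c
        ((Nat.prime_iff_prime_int.1 hm).coprime_iff_not_dvd.2 q).symm)]
      simp
  · have k (x : ℚ) := W_pw z hS ψ x
    have q : (p : ℚ) ^ 2 * r = p * (p * r) := by ring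
    have c (f : ℕ → ℤ) (t : ∀ n, IsCoprime (f n) p ↔ n.Coprime p) :
        (fun n => W ψ (p * S) r (f n)) = cp p fun n => W ψ S r (f n) :=
      funext fun n => (W_cp ψ r _).trans (if_congr (t n) rfl rfl)
    simp only [Ph_eq, Ls, q]
    rw [c _ fun n => Nat.isCoprime_iff_coprime,
      c _ fun n => (IsCoprime.neg_left_iff _ _).trans Nat.isCoprime_iff_coprime,
      eul h hp (k r).1 (k (p * r)).1 (k (p * (p * r))).1
        (fun n => by rw [Nat.cast_mul, W_mul z hp d e]) fun n => by rw [Nat.cast_mul, W_mul z hp d e],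
      eul h hp (k r).2 (k (p * r)).2 (k (p * (p * r))).2
        (fun n => by rw [Nat.cast_mul, ← mul_neg, W_mul z hp d e])
        fun n => by rw [Nat.cast_mul, ← mul_neg, W_mul z hp d e]]
    split_ifs <;> ring

end Vale.Agent.P014W
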