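import Vale.Agent.P014W.Ky0

/-! # P014W, row KEY: the bracket -/

set_option autoImplicit false
set_option linter.all false

open scoped Classical
open Polynomial

noncomputable section

namespace Vale.Agent.P014W.Tw

open Vale.Agent.P014T
open Vale.Agent.P022 (Qb)

theorem ex_ab (ι : Qb →+* ℂ_[2]) (e : ℤ) :
    ∃ α β : Qb, ‖(2 : ℂ_[2])‖ < ‖ι α‖ ∧ α + β = e ∧ α * β = 2 := by
  obtain ⟨d, hd⟩ := IsAlgClosed.exists_eq_mul_self ((e : Qb) ^ 2 - 8)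
  have s : (e + d) / 2 + (e - d) / 2 = (e : Qb) := by ring
  have p : (e + d) / 2 * ((e - d) / 2) = (2 : Qb) := by linear_combination (1 / 4 : Qb) * hd
  by_cases h : ‖(2 : ℂ_[2])‖ < ‖ι ((e + d) / 2)‖
  · exact ⟨_, _, h, s, p⟩
  refine ⟨_, _, ?_, (add_comm _ _).trans s, (mul_comm _ _).trans p⟩
  have q := congrArg (fun t => ‖ι t‖) p
  simp only [map_mul, norm_mul, map_ofNat] at q
  rw [Ah.two_C] at *
  by_contra h'
  nlinarith [norm_nonneg (ι ((e + d) / 2)), norm_nonneg (ι ((e - d) / 2))]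

theorem ex_fin (a b c : Qb) (h : a ≠ 0) : ∃ S : Finset Qb, ∀ x ∉ S, a + b * x + c * x ^ 2 ≠ 0 := by
  have n : (C a + C b * X + C c * X ^ 2 : Qb[X]) ≠ 0 := fun e => h (by
    simpa using congrArg (eval 0) e)
  refine ⟨(C a + C b * X + C c * X ^ 2 : Qb[X]).roots.toFinset, fun x hx e => hx ?_⟩
  rw [Multiset.mem_toFinset, mem_roots n]
  simpa using e

theorem kfin (ι : Qb →+* ℂ_[2]) {N : ℕ} {a : ℕ → ℤ} {e κ s : ℤ} {t : ℕ} (c : Cs e κ)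
    (hs : s = 1 ∨ s = -1)
    (H : ∀ α β : Qb, ‖(2 : ℂ_[2])‖ < ‖ι α‖ → α + β = e → α * β = 2 * κ → ∀ Xs : Finset Qb,
      ∃ x ∉ Xs, x ≠ 0 ∧ (2 - e * x + κ * x ^ 2 ≠ 0 → 2 - e * x⁻¹ + κ * x⁻¹ ^ 2 ≠ 0 →
        s * x ^ t * (2 * (e - κ * x - x⁻¹) - β) * Pf N a x * (2 - e * x⁻¹ + κ * x⁻¹ ^ 2) =
          (2 * (e - κ * x⁻¹ - x) - β) * Pf N a x⁻¹ * (2 - e * x + κ * x ^ 2))) :
    Br N a e κ := by
  refine ⟨s, t, hs, fun Xs => ?_⟩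
  obtain ⟨S, hS⟩ := ex_fin 2 (-e) κ two_ne_zero
  have k : ∀ (T : Finset Qb) (x : Qb), x ∉ Xs ∪ S ∪ S.image (·⁻¹) ∪ T → x ∉ Xs ∧ x ∉ T ∧
      2 - e * x + κ * x ^ 2 ≠ 0 ∧ 2 - e * x⁻¹ + κ * x⁻¹ ^ 2 ≠ 0 := fun T x hx => by
    simp only [Finset.mem_union, not_or, Finset.mem_image, not_exists, not_and] at hx
    refine ⟨hx.1.1.1, hx.2, fun q => hS x hx.1.1.2 (by linear_combination q),
      fun q => hS x⁻¹ (fun m => hx.1.2 _ m (inv_inv x)) (by linear_combination q)⟩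
  rcases c with ⟨rfl, -⟩ | ⟨rfl, he⟩
  · obtain ⟨α, β, h1, h2, h3⟩ := ex_ab ι e
    obtain ⟨T, hT⟩ := ex_fin 2 (β - 2 * e) 2 two_ne_zero
    obtain ⟨x, hx, x0, h⟩ := H α β h1 h2 (by simpa using h3) (Xs ∪ S ∪ S.image (·⁻¹) ∪ T)
    obtain ⟨k1, k2, k3, k4⟩ := k T x hx
    have i := mul_inv_cancel₀ x0
    have r : 2 * (e - x - x⁻¹) - β ≠ 0 := fun q => hT x k2 (by
      linear_combination (-x) * q - 2 * i)
    refine ⟨x, k1, x0, mul_left_cancel₀ r ?_⟩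
    have := h k3 k4
    push_cast at this ⊢
    linear_combination (e - x - x⁻¹) * this
  · have n : ‖ι e‖ = 1 := by
      refine (pow_eq_one_iff_of_nonneg (norm_nonneg _) two_ne_zero).1 ?_
      rw [← norm_pow, ← map_pow, ← Int.cast_pow, he, Int.cast_one, map_one, norm_one]
    obtain ⟨x, hx, x0, h⟩ := H e 0 (n ▸ Ah.two_lt) (add_zero _) (by simp)
      (Xs ∪ S ∪ S.image (·⁻¹) ∪ ∅)
    obtain ⟨k1, -, k3, k4⟩ := k ∅ x hx
    refine ⟨x, k1, x0, mul_left_cancel₀ (two_ne_zero (α := Qb)) ?_⟩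
    linear_combination h k3 k4

end Vale.Agent.P014W.Tw
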