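import Vale.Agent.P014W.Ky0
import Vale.Agent.P014T.Pl.Lwr

/-! # P014W, row ALS: the involutions of Atkin and Lehner on symbols -/

set_option autoImplicit false
set_option linter.all false

open Complex Set MeasureTheory
open scoped Classical Real ComplexConjugate UpperHalfPlane

noncomputable section

namespace Vale.Agent.P014W

open P014T P014T.An P014T.Rk P004N P004Z
open Vale.Agent.P022 (Qb)
open Vale.Agent.P027M.M (io)
open Vale.Agent.P022K.QT.Cu (E io_E)

namespace As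

variable {N Q m : ℕ} {G : ℍ → ℂ} {a : ℕ → ℤ} {ε : ℝ} {s : ℂ}

theorem qs_pt (q : QE G fun n => (a n : ℂ)) (x : ℝ) {t : ℝ} (k : 0 < t) :
    qs (fun n => ee (n * x) * a n) t = G (pt x t) := by
  rw [← (q _).tsum_eq, qs]
  simp only [ee_pt _ k]
  exact tsum_congr fun n => by ring

theorem al_pt (q : QE G fun n => (a n : ℂ)) (e : ALw N Q G ε) (Q0 : Q ≠ 0) {x y z w : ℤ}
    (d : (Q * x) * (Q * w) - y * (N * z) = (Q : ℤ)) (n : (N * z : ℤ) ≠ 0) {r r' : ℝ}
    (hr : r * (N * z) = Q * x) (hr' : r' * (N * z) = -(Q * w)) :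
    Lw a (fun n => ee (n * r)) = -ε * Lw a fun n => ee (n * r') := by
  have n' : (N * z : ℝ) ≠ 0 := by exact_mod_cast n
  have q0 : (0 : ℝ) < Q := by positivity
  obtain ⟨K, hK⟩ : ∃ K : ℝ, K = (N * z) ^ 2 / Q := ⟨_, rfl⟩
  have p : 0 < K := hK ▸ by positivity
  have k0 : (K : ℂ) ≠ 0 := ofReal_ne_zero.2 p.ne'
  have h : mellin (qs fun n => ee (n * r) * a n) 1 = mellin (fun t : ℝ => (-ε / K : ℂ) •
      (t : ℂ) ^ (-2 : ℂ) • (fun u : ℝ => qs (fun n => ee (n * r') * a n) u⁻¹) (K * t)) 1 :=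
    setIntegral_congr_fun measurableSet_Ioi fun t (k : 0 < t) => by
      have k' : 0 < (K * t)⁻¹ := by positivity
      have t0 : (t : ℂ) ≠ 0 := ofReal_ne_zero.2 k.ne'
      have a1 : (r : ℂ) * (N * z) = Q * x := by exact_mod_cast hr
      have a2 : (r' : ℂ) * (N * z) = -(Q * w) := by exact_mod_cast hr'
      have a3 : ((Q : ℂ) * x) * (Q * w) - y * (N * z) = Q := by exact_mod_cast d
      have a4 : (K : ℂ) * Q = (N * z) ^ 2 := by
        exact_mod_cast (eq_div_iff q0.ne').1 hK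
      have a5 : (N * z : ℂ) ≠ 0 := by exact_mod_cast n
      have a6 : (Q : ℂ) ≠ 0 := Nat.cast_ne_zero.2 Q0
      have b : (N * z * pt r' (K * t)⁻¹ + Q * w : ℂ) = Complex.I * (N * z) / (K * t) := by
        rw [coe_pt _ k']
        push_cast
        linear_combination a2
      have := e x y z w d (pt r' (K * t)⁻¹) (pt r t) (by
        rw [b, coe_pt _ k, coe_pt _ k', div_div_eq_mul_div, eq_div_iff (mul_ne_zero I_ne_zero a5)]
        push_cast
        refine mul_left_cancel₀ a5 ?_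
        have a7 : (K * t : ℂ)⁻¹ * (K * t) = 1 := inv_mul_cancel₀ (mul_ne_zero k0 t0)
        linear_combination Complex.I * (N * z) * a1 - Q * x * (K * t) * a2 + K * t * a3 + t * a4 -
          Q * x * Complex.I * (N * z) * a7 + t * (N * z) ^ 2 * I_mul_I)
      simp only [qs_pt q _ k, qs_pt q _ k', this, b, smul_eq_mul, cpow_neg, cpow_two]
      rw [div_pow, mul_pow Complex.I, ← a4, I_sq]
      field_simp
  rw [Lw_eq, Lw_eq, M0_eq, M0_eq, h, mellin_const_smul, mellin_cpow_smul,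
    mellin_comp_mul_left (fun u : ℝ => qs _ u⁻¹) _ p, mellin_comp_inv,
    show -((1 : ℂ) + -2) = 1 by ring, cpow_one, smul_eq_mul, smul_eq_mul, ← mul_assoc (_ / _),
    div_mul_cancel₀ _ k0, mul_left_comm]

/-- the symbol -/
def sg (a : ℕ → ℤ) (s : ℂ) (r : ℚ) : ℂ :=
  Lw a (fun n => ee (n * r)) * conj s - Lw a (fun n => ee (n * (-r : ℚ))) * s

theorem sg_al (h : RN N G a) (e : ALw N Q G ε) {R c : ℕ} (hN : Q * R = N) (hc : R ∣ c) (c0 : c ≠ 0)
    {u u' : ℤ} (d : (c : ℤ) ∣ Q * u * u' + 1) : sg a s (u / c) = -ε * sg a s (u' / c) := by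
  obtain ⟨z, rfl⟩ := hc
  obtain ⟨y, d⟩ := d
  have Q0 : Q ≠ 0 := left_ne_zero_of_mul (hN ▸ h.pos.ne')
  have n : (N * z : ℤ) ≠ 0 := by
    exact_mod_cast mul_ne_zero h.pos.ne' (right_ne_zero_of_mul c0)
  have c1 : (R : ℝ) ≠ 0 := Nat.cast_ne_zero.2 (left_ne_zero_of_mul c0)
  have c2 : (z : ℝ) ≠ 0 := Nat.cast_ne_zero.2 (right_ne_zero_of_mul c0)
  subst hN
  push_cast at d
  have k1 := al_pt h.qe e Q0 (x := u) (y := -y) (z := z) (w := -u')
    (by push_cast; linear_combination -Q * d) n (r := (u / (R * z : ℕ) : ℚ))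
    (r' := (u' / (R * z : ℕ) : ℚ)) (by push_cast; field_simp) (by push_cast; field_simp)
  have k2 := al_pt h.qe e Q0 (x := u) (y := y) (z := -z) (w := -u')
    (by push_cast; linear_combination -Q * d) (by simpa using n) (r := (-(u / (R * z : ℕ)) : ℚ))
    (r' := (-(u' / (R * z : ℕ)) : ℚ)) (by push_cast; field_simp) (by push_cast; field_simp)
  simp only [ofReal_ratCast] at k1 k2
  rw [sg, sg, k1, k2]
  ring

theorem ph_one [NeZero m] (h : RN N G a) (ψ : DirichletCharacter Qb m) (r : ℚ) :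
    Ph a s ψ 1 r = ∑ v, io (ψ v) * sg a s (v.val / m + r) := by
  have k : ∀ (t : ℚ → ℚ), Lw a (fun n => ∑ v : ZMod m, io (ψ v) * ee (n * t (v.val / m + r))) =
      ∑ v : ZMod m, io (ψ v) * Lw a fun n => ee (n * t (v.val / m + r)) := fun t => by
    rw [Lw_sum h _ fun v _ => (pw_const (io (ψ v))).op (pw_ee _) (· * ·)]
    simp only [Lw_smul]
  have k1 := k id
  have k2 := k Neg.neg
  simp only [Ph, Ls, Nat.cast_one, isCoprime_one_right, if_true, uw, Pl.Lw.sum_z,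
    ZMod.natCast_zmod_val, io_E, sg, mul_sub, ← mul_assoc, Finset.sum_sub_distrib, ← Finset.sum_mul]
  simp only [id, ee] at k1 k2 ⊢
  rw [← k1, ← k2]
  push_cast
  simp only [mul_assoc, neg_mul, mul_neg]

end As

open As in
/-- **row ALS** -/
theorem als : ALS := fun N G a s m ψ Q R D ε z z' Y h hm hN e hD D0 d hY => by
  have := Fact.mk hm
  obtain ⟨k, hk⟩ : ∃ k, k = ((-(Q * D ^ 2) : ℤ) : ZMod m) := ⟨_, rfl⟩
  rw [← hk] at hY
  have k0 : k ≠ 0 := fun z => by simp [z, MulChar.map_zero] at hY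
  have md : IsCoprime (m : ℤ) D := Nat.isCoprime_iff_coprime.2 (hm.coprime_iff_not_dvd.2 fun z =>
    k0 (by rw [hk]; push_cast; rw [(ZMod.natCast_eq_zero_iff _ _).2 z]; ring))
  rw [ph_one h, ph_one h, Finset.mul_sum,
    ← Equiv.sum_comp ((Equiv.mulLeft₀ k k0).trans (Equiv.inv _)) fun v => -ε * io Y * _]
  refine Finset.sum_congr rfl fun v _ => ?_
  simp only [Equiv.trans_apply, Equiv.mulLeft₀_apply, Equiv.inv_apply, MulChar.inv_apply', inv_inv]
  by_cases v0 : v = 0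
  · simp [v0, MulChar.map_zero]
  have m0 : (m : ℚ) ≠ 0 := Nat.cast_ne_zero.2 hm.ne_zero
  have D1 : (D : ℚ) ≠ 0 := Nat.cast_ne_zero.2 D0
  have f : ∀ (u : ZMod m) (x : ℤ), (u.val / m + x / D : ℚ) =
      (u.val * D + x * m : ℤ) / (m * D : ℕ) := fun u x => by
    push_cast
    field_simp
  rw [f, f, sg_al h e hN (hD.mul_left m) (mul_ne_zero hm.ne_zero D0)
    (u' := (k * v)⁻¹.val * D + z' * m), map_mul ψ, map_mul io]
  · have t : io (ψ k) * io Y = 1 := by rw [← map_mul, hY, map_one]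
    linear_combination ε * io (ψ v) *
      sg a s ((((k * v)⁻¹.val * D + z' * m : ℤ) : ℚ) / (m * D : ℕ)) * t
  · rw [Nat.cast_mul]
    refine md.mul_dvd ((ZMod.intCast_zmod_eq_zero_iff_dvd _ _).1 ?_) ?_
    · push_cast at hk ⊢
      rw [ZMod.natCast_self, ZMod.natCast_zmod_val, ZMod.natCast_zmod_val]
      linear_combination v * (k * v)⁻¹ * hk - mul_inv_cancel₀ (mul_ne_zero k0 v0)
    · obtain ⟨y, d⟩ := d
      exact ⟨y + Q * (v.val * (k * v)⁻¹.val * D + v.val * z' * m + z * m * (k * v)⁻¹.val),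
        by linear_combination d⟩

end Vale.Agent.P014W
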