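import Vale.Agent.P014W.Lev
import Vale.Agent.P014W.Als
import Vale.Agent.P014W.Hec
import Vale.Agent.P004N.H461.Al

/-! # P014W, row KEY: the symmetry of the tower -/

set_option autoImplicit false
set_option linter.all false

open scoped Classical UpperHalfPlane

noncomputable section

namespace Vale.Agent.P014W.Tw

open Vale.Agent.P022 (Qb)
open Vale.Agent.P027M.M (io)
open P004N (RN)

theorem sym {N : ℕ} {G : ℍ → ℂ} {a : ℕ → ℤ} (h : RN N G a) : ∃ (σ : ℤ) (t : ℕ), (σ = 1 ∨ σ = -1) ∧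
    ∀ (s : ℂ) (m : ℕ) (ψ : DirichletCharacter Qb m) (X : Qb), m.Prime → ¬ m ∣ 2 * N → ψ 2 * X = 1 →
      ∃ (η : Qb) (n : ℤ_[2]ˣ), η ≠ 0 ∧ Ph a s ψ 1 0 = io (σ * η * X ^ t) * Ph a s ψ⁻¹ 1 0 ∧
        ∀ i, t ≤ i → ∀ k : ℤ_[2]ˣ, io (ψ 2) ^ (i + 2) * lev (Ph a s ψ 2) (i + 2) k =
          io η * (io X ^ (i + 2) * lev (Ph a s ψ⁻¹ 2) (i + 2) (n * k⁻¹ : ℤ_[2]ˣ)) := by
  obtain ⟨t, Q, oQ, e⟩ := Nat.exists_eq_two_pow_mul_odd h.pos.ne'
  have z : ∀ ε : ℝ, ε = 1 ∨ ε = -1 → ∃ k : ℤ, (k = 1 ∨ k = -1) ∧ ε = k := by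
    rintro _ (rfl | rfl) <;> simp
  obtain ⟨ε, c', l⟩ := P004N.H461.pfAL N G a h Q (2 ^ t) (by rw [e, mul_comm])
    (oQ.coprime_two_right.pow_right t)
  obtain ⟨δ, d', l'⟩ := P004N.H461.pfAL N G a h N 1 (mul_one N) (Nat.coprime_one_right N)
  obtain ⟨ε, c, rfl⟩ := z ε c'
  obtain ⟨δ, d, rfl⟩ := z δ d'
  refine ⟨ε * δ, t, by rcases c with rfl | rfl <;> rcases d with rfl | rfl <;> simp,
    fun s m ψ X hm n hX => ?_⟩
  have := Fact.mk hm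
  have q0 : ψ (-Q) ≠ 0 := ((IsUnit.mk0 _ (neg_ne_zero.2 (mt (ZMod.natCast_eq_zero_iff _ _).1
    fun k => n ((e ▸ k.mul_left _ : m ∣ N).mul_left 2)))).map ψ).ne_zero
  have y : ∀ j : ℕ, ψ (-(Q * 2 ^ j)) * ((ψ (-Q))⁻¹ * X ^ j) = 1 := fun j => by
    rw [← neg_mul, map_mul, map_pow, mul_mul_mul_comm, mul_inv_cancel₀ q0, ← mul_pow, hX, one_pow,
      one_mul]
  have o : ¬ (2 : ℤ) ∣ Q * m ^ 2 := Int.two_dvd_ne_zero.2 (Int.odd_iff.1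
    (oQ.natCast.mul (hm.odd_of_ne_two fun k => n (k ▸ dvd_mul_right 2 N)).natCast.pow))
  refine ⟨-ε * (ψ (-Q))⁻¹, -(un (Q * m ^ 2))⁻¹, mul_ne_zero (by rcases c with rfl | rfl <;> simp)
    (inv_ne_zero q0), ?_, fun i ti k => ?_⟩
  · have := als N G a s m ψ N 1 1 δ 0 0 _ h hm (mul_one N) l' dvd_rfl one_ne_zero (by simp)
      (by rw [← y t, e]; push_cast; congr 2; ring)
    simp only [Int.cast_zero, zero_div] at this
    rw [this]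
    rcases c with rfl | rfl <;> simp [mul_assoc]
  have A : ∀ j, t ≤ j → lev (Ph a s ψ 1) j k = -ε * io ((ψ (-Q))⁻¹ * X ^ (2 * j)) *
      lev (Ph a s ψ⁻¹ 1) j (-(un (Q * m ^ 2))⁻¹ * k⁻¹ : ℤ_[2]ˣ) := fun j tj => by
    have := als N G a s m ψ Q (2 ^ t) (2 ^ j) ε ((k : ℤ_[2]).appr j)
      (PadicInt.appr (-(un (Q * m ^ 2))⁻¹ * k⁻¹ : ℤ_[2]ˣ).1 j) _ h hm (by rw [e, mul_comm]) l
      (pow_dvd_pow 2 tj) (by positivity) (by
        obtain ⟨u, f⟩ := ap j (k : ℤ_[2])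
        obtain ⟨v, g⟩ := ap j ((-(un (Q * m ^ 2))⁻¹ * k⁻¹ : ℤ_[2]ˣ) : ℤ_[2])
        have w : (Q * m ^ 2 : ℤ) * (k * (-(un (Q * m ^ 2))⁻¹ * k⁻¹ : ℤ_[2]ˣ) : ℤ_[2]) = -1 := by
          rw [← un_val o, ← Units.val_mul, ← Units.val_mul]
          simp [mul_left_comm k]
        rw [Nat.cast_pow]
        refine dv ⟨-(Q * m ^ 2) * (u * (-(un (Q * m ^ 2))⁻¹ * k⁻¹ : ℤ_[2]ˣ) + v * k - 2 ^ j * u * v), ?_⟩
        rw [Int.cast_add, Int.cast_mul, Int.cast_mul, eq_sub_of_add_eq' (eq_add_of_sub_eq f).symm,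
          eq_sub_of_add_eq' (eq_add_of_sub_eq g).symm]
        push_cast at w ⊢
        linear_combination w)
      (by rw [← y (2 * j)]; push_cast; congr 2; ring)
    simpa only [lev, Int.cast_natCast, Nat.cast_pow, Nat.cast_ofNat, Complex.ofReal_intCast] using this
  have B : ∀ (ψ : DirichletCharacter Qb m) (X : Qb) (k : ℤ_[2]), ψ 2 * X = 1 →
      lev (Ph a s ψ 2) (i + 2) k = lev (Ph a s ψ 1) (i + 2) k -
        a 2 / 2 * io X * lev (Ph a s ψ 1) (i + 1) k +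
          if 2 ∣ N then 0 else io X ^ 2 / 2 * lev (Ph a s ψ 1) i k := fun ψ X k hX => by
    have H := fun r => hec N G a s m ψ 1 r h hm one_ne_zero
    have P : Pe (Ph a s ψ 1) := fun r => (H r).1
    rw [← P.dbl (i := i + 1) (j := 1), ← P.dbl (i := i) (j := 2), pow_one]
    exact (H _).2.2.2 2 X Nat.prime_two (by simp) (by exact_mod_cast hX)
  have x0 : io X ≠ 0 := (map_ne_zero io).2 (right_ne_zero_of_mul_eq_one hX)
  rw [B ψ X k hX, B ψ⁻¹ (ψ 2) _ (by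
    rw [MulChar.inv_apply_eq_inv', inv_mul_cancel₀ (left_ne_zero_of_mul_eq_one hX)]),
    A _ (by omega), A _ (by omega), A i ti, eq_inv_of_mul_eq_one_left hX]
  simp only [map_mul, map_pow, map_inv₀ io X, map_neg, map_intCast, inv_pow]
  split_ifs <;> field_simp <;> ring

end Vale.Agent.P014W.Tw
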