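import Vale.Agent.P014W.Kside
import Vale.Agent.P014W.Kfin
import Vale.Agent.P014W.Ksym
import Vale.Agent.P014W.Hec
import Vale.Agent.P014W.Brf
import Vale.Agent.P014T.Rc.Even

/-! # P014W, row KEY -/

set_option autoImplicit false
set_option linter.all false

open scoped Classical UpperHalfPlane

noncomputable section

namespace Vale.Agent.P014W

open Vale.Agent.P022 (Qb)
open Vale.Agent.P027M.M (io)
open P004N (RN)
open P014T.Es (sy)
open Tw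

/-- **row KEY** -/
theorem key : KEY := fun N G a A B w I x y ι e κ r p cs gb nv => by
  obtain ⟨σ, t, hσ, sm⟩ := sym r
  refine brf N G a e κ r cs (kfin ι (t := t) cs hσ fun α β hα h1 h2 Xs => ?_)
  obtain ⟨-, -, c0, -, -, -, c0p, vol, -⟩ := P014T.Rc.gam r p
  obtain ⟨m, ψ, γ, hm, lt, ψ1, nx, gs, nz⟩ := nv (2 * N) (Xs.image (·⁻¹))
  have N0 := r.pos
  have n : ¬ m ∣ 2 * N := Nat.not_dvd_of_pos_of_lt (by omega) lt
  have p0 : ψ 2 ≠ 0 := by exact_mod_cast ne0 (ψ := ψ) hm fun z : m ∣ 2 => n (z.mul_right N)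
  refine ⟨(ψ 2)⁻¹, fun z => nx (Finset.mem_image.2 ⟨_, z, inv_inv _⟩), inv_ne_zero p0,
    fun n1 n2 => ?_⟩
  obtain ⟨c, hc⟩ : ∃ c, c = 1 + N * m * 24 := ⟨_, rfl⟩
  have md : ∀ k, k ∣ N * m * 24 → c ≡ 1 [MOD k] := fun k d =>
    hc ▸ Nat.ModEq.add_left 1 ((Nat.modEq_zero_iff_dvd).2 d)
  have sc : Sc N (2 * m) c := ⟨(md 24 (dvd_mul_left _ _)).pow 2,
    Nat.coprime_of_mul_modEq_one 1 (by rw [mul_one]; exact md _ ⟨12, by ring⟩),
    md _ ⟨m * 24, by ring⟩⟩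
  have cm := md m ⟨N * 24, by ring⟩
  have c1 : 1 < c := by have := Nat.mul_pos N0 hm.pos; omega
  have c2 : ¬ (2 : ℤ) ∣ c := by omega
  have i2 : ψ⁻¹ 2 = (ψ 2)⁻¹ := MulChar.inv_apply_eq_inv' ψ 2
  have x1 := mul_inv_cancel₀ p0
  have x2 : ψ⁻¹ 2 * (ψ 2)⁻¹⁻¹ = 1 := by rw [i2, mul_inv_cancel₀ (inv_ne_zero p0)]
  obtain ⟨C, g1⟩ := gb γ c0 m c ψ _ gs vol c0p.ne' hm n sc cm ψ1 x1 n1
  obtain ⟨C', g2⟩ := gb γ c0 m c ψ⁻¹ _ gs vol c0p.ne' hm n sc cm (inv_ne_one.2 ψ1) x2 n2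
  obtain ⟨D, L, l0, S⟩ := side hec r hm n ψ1 x1 n1 c1 c2 g1
  obtain ⟨D', L', l1, S'⟩ := side hec r hm n (inv_ne_one.2 ψ1) x2 n2 c1 c2 g2
  obtain ⟨η, k, η0, s0, s1⟩ := sm (sy I γ) m ψ _ hm n x1
  have z := tower (n := k) (η := η) (t := t) (β := β) S S' hα (by rw [h1, map_intCast])
    (by rw [h2, map_mul, map_intCast, map_ofNat]) (Complex.ofReal_ne_zero.2 c0p.ne') l0 l1
    fun i l => funext fun z => by
      change _ = io η * (_ * lev _ _ (k * z⁻¹ : ℤ_[2]ˣ))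
      rw [i2]
      linear_combination -Complex.I * c ^ 4 * s1 i l z
  have v : ∀ (ψ : DirichletCharacter Qb m) X, ψ 2 * X = 1 →
      Ph a (sy I γ) ψ 2 0 = io (Pf N a X) / 2 * Ph a (sy I γ) ψ 1 0 := fun ψ X h => by
    have := (hec N G a (sy I γ) m ψ 1 0 r hm one_ne_zero).2.2.2 2 X Nat.prime_two (by decide) h
    simp only [mul_zero, mul_one] at this
    rw [this, Pf]
    split_ifs <;> simp only [map_add, map_sub, map_mul, map_pow, map_intCast, map_ofNat, map_zero,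
      Nat.cast_ofNat] <;> ring
  have s2 : Ph a (sy I γ) ψ⁻¹ 1 0 ≠ 0 := fun h => nz (by
    rw [h, mul_zero, Ph] at s0
    simpa [isCoprime_one_right] using s0)
  rw [v _ _ x1, v _ _ x2, s0] at z
  refine (show Function.Injective io from (io : Qb →+* ℂ).injective) (mul_left_cancel₀ (mul_ne_zero (mul_ne_zero
    ((map_ne_zero io).2 η0) s2) (mul_ne_zero Complex.I_ne_zero (pow_ne_zero 4
      (Nat.cast_ne_zero.2 (by omega : c ≠ 0))))) ?_)
  simp only [map_add, map_sub, map_mul, map_pow, map_intCast, map_ofNat, map_inv₀, inv_inv] at z ⊢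
  linear_combination -2 * z

end Vale.Agent.P014W
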