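import Vale.Agent.P014W.All0
import Vale.Agent.P014W.Key

/-! # P014W: the closed form -/

namespace Vale.Agent.P014W

/-- **the formula holds up to an odd natural number, in analytic rank at most one** -/
theorem bsdn_all : BSDN := bsdn_of key

end Vale.Agent.P014W
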