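import Vale.Agent.P014W.Hn
import Vale.Agent.P014T.Sb.Cnt

/-! # P014W: the test points of the formal group -/

set_option autoImplicit false
set_option linter.all false

open scoped Classical
open NumberField

noncomputable section

namespace Vale.Agent.P014W.Gb0

open Vale.Agent.P014T
open Vale.Agent.P022 (Qb GQ)
open Vale.Agent.P022D.W (dec)
open Vale.Agent.P004M.TE (Cv Pt pa ga)
open Vale.Agent.P027M.M (Cyc)
open Vale.Agent.P022K.QT.Cu (E E_nat)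

theorem nrm_root {w : ℂ_[2]} {M : ℕ} (M0 : M ≠ 0) (h : w ^ M = 1) : ‖w‖ = 1 :=
  (pow_eq_one_iff_of_nonneg (norm_nonneg _) M0).1 (by rw [← norm_pow, h, norm_one])

theorem nrm_two {w : ℂ_[2]} {J : ℕ} (h : w ^ 2 ^ J = 1) : ‖w - 1‖ < 1 := by
  induction J generalizing w with
  | zero => simp [show w = 1 by simpa using h]
  | succ J ih =>
    have a := ih (w := w ^ 2) (by rw [← pow_mul, ← pow_succ', h])
    have b : ‖w - 1‖ ≤ 1 := by
      rw [sub_eq_add_neg]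
      exact (IsUltrametricDist.norm_add_le_max _ _).trans
        (by rw [nrm_root (by positivity) h, norm_neg, norm_one, max_self])
    refine lt_of_le_of_ne b fun e => a.ne ?_
    rw [show w ^ 2 - 1 = 2 * (w - 1) + (w - 1) ^ 2 by ring, Dc.norm_add_of_lt, norm_pow, e, one_pow]
    rw [norm_pow, norm_mul, e, Ah.two_C]
    norm_num

variable {M : ℕ} [NeZero M] {g : GQ} {k : ℤ}

theorem gal_pow (c : Cyc M g k) {w : Qb} (h : w ^ M = 1) (x : ZMod M) :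
    g (w ^ x.val) = w ^ ((k : ZMod M) * x).val := by
  have M0 := NeZero.pos M
  have : (M : ℚ) ≠ 0 := Nat.cast_ne_zero.2 M0.ne'
  obtain ⟨i, -, rfl⟩ := (Sb.E_prim M0).eq_pow_of_pow_eq_one h
  rw [← pow_mul, ← pow_mul, ← E_nat, ← E_nat, Sg.gal_E c M0 ⟨(i * x.val : ℕ), by
    push_cast; field_simp⟩, mul_one_div, mul_one_div, ← mul_div_assoc, ← Int.cast_natCast,
    ← Int.cast_mul, ← Int.cast_natCast (R := ℚ) (i * _), Sb.E_iff M0]
  push_cast
  simp only [ZMod.natCast_zmod_val]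
  ring

variable {A B : ℤ} {ι : Qb →+* ℂ_[2]} {P : Ideal (𝓞 Qb)}
  {L : (Cv ℂ_[2] (A : ℚ) (B : ℚ)).Point →+ ℂ_[2]} {b : ZMod M → Qb}
  (hR : ∀ R : ZMod M → Pt A B, (∀ g ∈ dec P, ∀ k, Cyc M g k → ∀ x, ga g (R x) = R (k * x)) →
    ‖∑ x, ι (b x) * L (pa ι.toRatAlgHom (R x))‖ ≤ 1)
  {F : ℂ_[2] → ℂ_[2]} {u : ℂ_[2]} {pt : Qb → Pt A B} (u0 : u ≠ 0)
  (hp : ∀ t, ‖ι t‖ < 1 → (∀ g ∈ dec P, ga g (pt t) = pt (g t)) ∧
    L (pa ι.toRatAlgHom (pt t)) = u * F (ι t))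
include hR u0 hp

/-- equivariant families of points of the disc -/
theorem fam {t : ZMod M → Qb} (t1 : ∀ x, ‖ι (t x)‖ < 1)
    (t2 : ∀ g ∈ dec P, ∀ k, Cyc M g k → ∀ x, g (t x) = t (k * x)) :
    ‖∑ x, (u * ι (b x)) * F (ι (t x))‖ ≤ 1 := by
  have := hR (fun x => pt (t x)) fun g hg k c x => by rw [(hp _ (t1 x)).1 g hg, t2 g hg k c]
  simpa only [(hp _ (t1 _)).2, mul_left_comm, mul_assoc] using this

/-- **the test points** -/
theorem hb1 {z w : Qb} (hz : z ^ M = 1) (hw : w ^ M = 1) {J : ℕ} (h2 : w ^ 2 ^ J = 1) (y : ℕ)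
    {n : ℕ} (n0 : 0 < n) :
    ‖∑ x, (u * ι (b x)) * F (ι z ^ (x.val * y) * (ι w ^ x.val - 1) ^ n)‖ ≤ 1 := by
  have := fam hR u0 hp (t := fun x => (z ^ x.val) ^ y * (w ^ x.val - 1) ^ n) (fun x => by
    have a : ‖ι w ^ x.val - 1‖ < 1 := nrm_two (J := J) (by
      rw [pow_right_comm, ← map_pow, h2, map_one, one_pow])
    simp only [map_mul, map_pow, map_sub, map_one, norm_mul, norm_pow]
    rw [nrm_root (NeZero.ne M) (show ι z ^ M = 1 by rw [← map_pow, hz, map_one]), one_pow, one_pow,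
      one_mul]
    exact pow_lt_one₀ (norm_nonneg _) a n0.ne') fun g _ k c x => by
      rw [map_mul, map_pow, map_pow g _ n, map_sub, map_one, gal_pow c hz, gal_pow c hw]
  simpa only [map_mul, map_pow, map_sub, map_one, ← pow_mul] using this

theorem hb {z w : Qb} (hz : z ^ M = 1) (hw : w ^ M = 1) {J : ℕ} (h2 : w ^ 2 ^ J = 1) (y : ℕ)
    {n : ℕ} (n0 : 0 < n) :
    ‖∑ x, ι (b x) * F (ι z ^ (x.val * y) * (ι w ^ x.val - 1) ^ n)‖ ≤ ‖u‖⁻¹ := by
  have := hb1 hR u0 hp hz hw h2 y n0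
  simp only [mul_assoc, ← Finset.mul_sum, norm_mul] at this
  rwa [← one_div, le_div_iff₀' (norm_pos_iff.2 u0)]

end Vale.Agent.P014W.Gb0
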