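import Mathlib

/-!
# P014W, block C: the abstract core of the span argument
-/

set_option autoImplicit false
set_option linter.all false

open Finset IsUltrametricDist

noncomputable section

namespace Vale.Agent.P014W.Sp

variable {C : Type} [NormedField C] [IsUltrametricDist C]

/-- the coefficients of `1 / (1 - A T + K T ^ 2)`, shifted by one -/
def ee (A K : C) : ℕ → C
  | 0 => 0
  | 1 => 1
  | (k + 2) => A * ee A K (k + 1) - K * ee A K k

theorem tel (A K : C) (w : ℕ → C) (J : ℕ) :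
    ∑ k ∈ range J, ee A K (k + 1) * (w k - A * w (k + 1) + K * w (k + 2)) =
      w 0 - ee A K (J + 1) * w J + K * ee A K J * w (J + 1) := by
  induction J with
  | zero => simp [ee]
  | succ J ih =>
    rw [sum_range_succ, ih, show ee A K (J + 1 + 1) = A * ee A K (J + 1) - K * ee A K J from rfl]
    ring

theorem nm_root {ζ : C} {m : ℕ} (hm : m ≠ 0) (h : ζ ^ m = 1) : ‖ζ‖ = 1 := by
  have := congrArg (‖·‖) h
  simp only [norm_pow, norm_one] at this
  exact (pow_eq_one_iff_of_nonneg (norm_nonneg _) hm).1 this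

theorem nm_sub (h2 : ‖(2 : C)‖ < 1) (J : ℕ) : ∀ η : C, η ^ 2 ^ J = 1 → ‖η - 1‖ < 1 := by
  induction J with
  | zero => intro η h; simp at h; simp [h]
  | succ J ih =>
    intro η h
    have h1 : ‖η ^ 2 - 1‖ < 1 := ih _ (by rw [← pow_mul, ← pow_succ']; exact h)
    by_contra hc
    push Not at hc
    have h3 : ‖η - 1 + 2‖ = ‖η - 1‖ := by
      rw [norm_add_eq_max_of_norm_ne_norm (by linarith), max_eq_left (by linarith)]
    rw [show η ^ 2 - 1 = (η - 1) * (η - 1 + 2) by ring, norm_mul, h3] at h1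
    nlinarith

theorem nm_xi {η : C} (h : ‖η - 1‖ < 1) (x : ℕ) : ‖η ^ x - 1‖ ≤ ‖η - 1‖ := by
  have h1 : ‖η‖ ≤ 1 := by
    have := norm_add_le_max (η - 1) 1
    rw [sub_add_cancel, norm_one] at this
    exact this.trans (max_le h.le le_rfl)
  induction x with
  | zero => simp
  | succ x ih =>
    rw [show η ^ (x + 1) - 1 = η * (η ^ x - 1) + (η - 1) by ring]
    refine (norm_add_le_max _ _).trans (max_le ?_ le_rfl)
    rw [norm_mul]
    exact (mul_le_of_le_one_left (norm_nonneg _) h1).trans ih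

/-- Fourier expansion on the `m`-th roots of unity -/
theorem four {m : ℕ} [NeZero m] {ζ : C} (hζ : IsPrimitiveRoot ζ m) (hm : ‖(m : C)‖ = 1)
    (γ : C → C) {r : ℝ} (hr : 0 ≤ r) (hγ : ∀ x : ℕ, ‖γ (ζ ^ x)‖ ≤ r) :
    ∃ c : ZMod m → C, (∀ w, ‖c w‖ ≤ r) ∧
      ∀ x : ℕ, γ (ζ ^ x) = ∑ w : ZMod m, c w * ζ ^ (x * w.val) := by
  classical
  have h1 : ζ ^ m = 1 := ((IsPrimitiveRoot.iff_def ζ m).mp hζ).left
  have hp := AddChar.zmodChar_primitive_of_primitive_root m hζ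
  set ψ := AddChar.zmodChar m h1 with hψ
  have hz : ‖ζ‖ = 1 := nm_root (NeZero.ne m) h1
  have hm0 : (m : C) ≠ 0 := by
    intro h
    simp [h] at hm
  refine ⟨fun w => (m : C)⁻¹ * ∑ v : ZMod m, γ (ψ v) * ψ (-(w * v)), fun w => ?_, fun x => ?_⟩
  · rw [norm_mul, norm_inv, hm, inv_one, one_mul]
    refine norm_sum_le_of_forall_le_of_nonneg hr fun v _ => ?_
    rw [norm_mul, hψ, AddChar.zmodChar_apply, AddChar.zmodChar_apply, norm_pow, hz, one_pow,
      mul_one]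
    exact hγ _
  · have e1 : ∀ w : ZMod m, ζ ^ (x * w.val) = ψ (w * x) := fun w => by
      rw [hψ, ← AddChar.zmodChar_apply' h1]
      congr 1
      push_cast
      rw [ZMod.natCast_zmod_val, mul_comm]
    simp only [e1, mul_assoc, sum_mul, ← mul_sum, ← AddChar.map_add_eq_mul]
    rw [sum_comm]
    simp only [← mul_sum]
    have e2 : ∀ v : ZMod m, ∑ w : ZMod m, ψ (-(w * v) + w * x) = if v = x then (m : C) else 0 := by
      intro v
      have := AddChar.sum_mulShift ((x : ZMod m) - v) hp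
      rw [ZMod.card] at this
      simp only [sub_eq_zero, eq_comm (a := (x : ZMod m))] at this
      rw [show (if v = x then (m : C) else 0) = ((if v = (x : ZMod m) then m else 0 : ℕ) : C) by
        split_ifs <;> simp, ← this]
      exact sum_congr rfl fun w _ => by congr 1; ring
    simp only [e2, mul_ite, mul_zero, sum_ite_eq', mem_univ, if_true]
    rw [hψ, AddChar.zmodChar_apply' h1]
    field_simp

/-- the test functions -/
def EE (ζ η : C) (y n x : ℕ) : C := ζ ^ (x * y) * (η ^ x - 1) ^ n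

section

variable {ι : Type} [Fintype ι] (wt : ι → C) (p : ι → ℕ)

/-- a finite combination of evaluations -/
def BB (u : ℕ → C) : C := ∑ j, wt j * u (p j)

theorem BB_add (u v : ℕ → C) : BB wt p (fun x => u x + v x) = BB wt p u + BB wt p v := by
  simp only [BB, mul_add, sum_add_distrib]

theorem BB_sub (u v : ℕ → C) : BB wt p (fun x => u x - v x) = BB wt p u - BB wt p v := by
  simp only [BB, mul_sub, sum_sub_distrib]

theorem BB_mul (c : C) (u : ℕ → C) : BB wt p (fun x => c * u x) = c * BB wt p u := by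
  simp only [BB, mul_sum, mul_left_comm]

variable {m : ℕ} [NeZero m] {ζ η : C}

theorem fb (hζ : IsPrimitiveRoot ζ m) (hm : ‖(m : C)‖ = 1) (γ : C → C) {r β : ℝ} (hr : 0 ≤ r)
    (hγ : ∀ x : ℕ, ‖γ (ζ ^ x)‖ ≤ r) {k : ℕ} (hβ : ∀ y, ‖BB wt p (EE ζ η y k)‖ ≤ β) :
    ‖BB wt p fun x => γ (ζ ^ x) * (η ^ x - 1) ^ k‖ ≤ r * β := by
  obtain ⟨c, hc, he⟩ := four hζ hm γ hr hγ
  have : (BB wt p fun x => γ (ζ ^ x) * (η ^ x - 1) ^ k) =
      ∑ w : ZMod m, c w * BB wt p (EE ζ η w.val k) := by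
    simp only [BB, EE, he, sum_mul, mul_sum]
    rw [sum_comm]
    exact sum_congr rfl fun w _ => sum_congr rfl fun j _ => by ring
  rw [this]
  have h0 : 0 ≤ β := (norm_nonneg _).trans (hβ 0)
  refine norm_sum_le_of_forall_le_of_nonneg (mul_nonneg hr h0) fun w _ => ?_
  rw [norm_mul]
  exact mul_le_mul (hc w) (hβ _) (norm_nonneg _) hr

theorem far (hζ : IsPrimitiveRoot ζ m) (hη : ‖η - 1‖ < 1) :
    ∃ N, ∀ k, N ≤ k → ∀ y, ‖BB wt p (EE ζ η y k)‖ ≤ 1 := by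
  have hz : ‖ζ‖ = 1 := nm_root (NeZero.ne m) hζ.pow_eq_one
  have h1 := (tendsto_pow_atTop_nhds_zero_of_lt_one (norm_nonneg _) hη).const_mul (∑ j, ‖wt j‖)
  rw [mul_zero] at h1
  obtain ⟨N, hN⟩ := Filter.eventually_atTop.1 (h1.eventually (ge_mem_nhds one_pos))
  refine ⟨N, fun k hk y => le_trans ?_ (hN k hk)⟩
  rw [sum_mul]
  refine (norm_sum_le _ _).trans (sum_le_sum fun j _ => ?_)
  rw [norm_mul, EE, norm_mul, norm_pow, hz, one_pow, one_mul, norm_pow]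
  exact mul_le_mul_of_nonneg_left (pow_le_pow_left₀ (norm_nonneg _) (nm_xi hη _) _) (norm_nonneg _)

theorem core (h2 : ‖(2 : C)‖ < 1) (hζ : IsPrimitiveRoot ζ m) (hm : ‖(m : C)‖ = 1)
    (hη : ‖η - 1‖ < 1)
    (H : ∀ y n, 2 ≤ n → ∃ (γ : C → ℕ → C) (h : ℕ → C), (∀ x k, ‖γ (ζ ^ x) k‖ ≤ 1) ∧
      (∀ x, ∀ k < n, γ (ζ ^ x) k = 0) ∧ (∀ x, ‖γ (ζ ^ x) n - ζ ^ (x * y)‖ ≤ ‖(2 : C)‖) ∧
      (∀ x, HasSum (fun k => γ (ζ ^ x) k * (η ^ x - 1) ^ k) (h x)) ∧ ‖BB wt p h‖ ≤ 1)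
    (y n : ℕ) (hn : 2 ≤ n) : ‖BB wt p (EE ζ η y n)‖ ≤ 1 := by
  classical
  obtain ⟨N, hN⟩ := far wt p hζ hη
  have step : ∀ n, 2 ≤ n → (∀ k, n + 1 ≤ k → ∀ y, ‖BB wt p (EE ζ η y k)‖ ≤ 1) →
      ∀ y, ‖BB wt p (EE ζ η y n)‖ ≤ 1 := by
    intro n hn ih
    obtain ⟨y0, -, hy0⟩ := exists_max_image (range m) (fun y => ‖BB wt p (EE ζ η y n)‖)
      ⟨0, mem_range.2 (NeZero.pos m)⟩
    have hβ : ∀ y, ‖BB wt p (EE ζ η y n)‖ ≤ ‖BB wt p (EE ζ η y0 n)‖ := fun y => by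
      have : EE ζ η y n = EE ζ η (y % m) n := funext fun x => by
        simp only [EE, mul_comm x, pow_mul]
        rw [← pow_eq_pow_mod y hζ.pow_eq_one]
      rw [this]
      exact hy0 _ (mem_range.2 (Nat.mod_lt _ (NeZero.pos m)))
    set β := ‖BB wt p (EE ζ η y0 n)‖ with hβd
    suffices β ≤ 1 from fun y => (hβ y).trans this
    obtain ⟨γ, h, g1, g0, gn, gs, hb⟩ := H y0 n hn
    have hs : HasSum (fun k => BB wt p fun x => γ (ζ ^ x) k * (η ^ x - 1) ^ k) (BB wt p h) :=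
      hasSum_sum fun j _ => (gs (p j)).mul_left (wt j)
    have hs' := hasSum_ite_sub_hasSum hs n
    have b1 : ‖BB wt p h - BB wt p fun x => γ (ζ ^ x) n * (η ^ x - 1) ^ n‖ ≤ 1 := by
      rw [← hs'.tsum_eq]
      refine norm_tsum_le_of_forall_le_of_nonneg zero_le_one fun k => ?_
      split_ifs with hk
      · simp
      rcases lt_or_gt_of_ne hk with hk | hk
      · simp [BB, g0 _ k hk]
      · simpa using fb wt p hζ hm (fun ω => γ ω k) zero_le_one (fun x => g1 x k) (ih k hk)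
    have b2 := fb wt p hζ hm (fun ω => γ ω n - ω ^ y0) (norm_nonneg (2 : C))
      (fun x => by simpa only [← pow_mul] using gn x) hβ
    have e : BB wt p (EE ζ η y0 n) = BB wt p h +
        (-(BB wt p h - BB wt p fun x => γ (ζ ^ x) n * (η ^ x - 1) ^ n) +
          -(BB wt p fun x => (γ (ζ ^ x) n - (ζ ^ x) ^ y0) * (η ^ x - 1) ^ n)) := by
      simp only [sub_mul, BB_sub, ← pow_mul]
      show BB wt p (fun x => ζ ^ (x * y0) * (η ^ x - 1) ^ n) = _
      ring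
    have b3 : β ≤ max 1 (max 1 (‖(2 : C)‖ * β)) := by
      rw [hβd]
      nth_rewrite 1 [e]
      refine (norm_add_le_max _ _).trans (max_le_max hb ((norm_add_le_max _ _).trans ?_))
      rw [norm_neg, norm_neg]
      exact max_le_max b1 b2
    by_contra hc
    push Not at hc
    have : ‖(2 : C)‖ * β < β := mul_lt_of_lt_one_left (by linarith) h2
    exact absurd b3 (not_le.2 (max_lt hc (max_lt hc this)))
  have all : ∀ d n, 2 ≤ n → N ≤ n + d → ∀ k, n ≤ k → ∀ y, ‖BB wt p (EE ζ η y k)‖ ≤ 1 := by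
    intro d
    induction d with
    | zero => exact fun n _ h k hk => hN k (by omega)
    | succ d ih =>
      intro n hn h k hk
      have := ih (n + 1) (by omega) (by omega)
      rcases hk.eq_or_lt with rfl | hk
      · exact step _ hn this
      · exact this k hk
  exact all N n hn (by omega) n le_rfl y

theorem rem (H : ∀ y n, 2 ≤ n → ‖BB wt p (EE ζ η y n)‖ ≤ 1) (y z : ℕ) : ∀ n,
    ‖BB wt p fun x => EE ζ η y n x * (η ^ (x * z) - 1 - z * (η ^ x - 1))‖ ≤ 1 := by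
  induction z with
  | zero => intro n; simp [BB]
  | succ z ih =>
    intro n
    have : (fun x => EE ζ η y n x * (η ^ (x * (z + 1)) - 1 - ((z + 1 : ℕ) : C) * (η ^ x - 1))) =
        fun x => EE ζ η y n x * (η ^ (x * z) - 1 - z * (η ^ x - 1)) +
          (EE ζ η y (n + 1) x * (η ^ (x * z) - 1 - z * (η ^ x - 1)) + z * EE ζ η y (n + 2) x) := by
      funext x
      simp only [EE]
      push_cast
      ring
    rw [this, BB_add, BB_add, BB_mul]
    refine (norm_add_le_max _ _).trans (max_le (ih n)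
      ((norm_add_le_max _ _).trans (max_le (ih _) ?_)))
    rw [norm_mul]
    exact mul_le_one₀ (norm_natCast_le_one C z) (norm_nonneg _) (H y _ (by omega))

end

/-- the Honda relation for `L` -/
def Hn (a κ : C) (L : C → C) : Prop := ∀ (ω : C) (n : ℕ), ‖ω‖ ≤ 1 → 2 ≤ n → ∃ γ : ℕ → C,
  (∀ k, ‖γ k‖ ≤ 1) ∧ (∀ k < n, γ k = 0) ∧ ‖γ n - ω‖ ≤ ‖(2 : C)‖ ∧ ∀ ξ : C, ‖ξ‖ < 1 →
    HasSum (fun k => 2 * (γ k * ξ ^ k)) (2 * L (ω * ξ ^ n) -
      a * L (ω ^ 2 * ((1 + ξ) ^ 2 - 1) ^ n) + κ * L (ω ^ 4 * ((1 + ξ) ^ 4 - 1) ^ n))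

/-- **the span argument** -/
theorem span (h2 : ‖(2 : C)‖ < 1) (h0 : (2 : C) ≠ 0) {m J : ℕ} [NeZero m] {ζ η : C}
    (hζ : IsPrimitiveRoot ζ m) (hm : ‖(m : C)‖ = 1) (hη : η ^ 2 ^ J = 1) {a κ : C} {L : C → C}
    (hL : L 0 = 0) (hH : Hn a κ L) {ι : Type} [Fintype ι] (b : ι → C) (v : ι → ℕ)
    (hb : ∀ y n, 2 ≤ n → ‖∑ i, b i * L (ζ ^ (v i * y) * (η ^ v i - 1) ^ n)‖ ≤ 1) :
    ∃ G : C → C → C,
      (∀ ω z, 2 * G ω (η ^ z) - a * G (ω ^ 2) ((η ^ z) ^ 2) + κ * G (ω ^ 4) ((η ^ z) ^ 4) =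
        2 * ∑ i, b i * (ω ^ v i * ((η ^ z) ^ v i - 1))) ∧
      ∀ y z z' : ℕ, 2 ^ J ∣ z + z' → ‖G (ζ ^ y) (η ^ z) + G (ζ ^ y) (η ^ z')‖ ≤ 1 := by
  classical
  have hz1 : ‖ζ‖ = 1 := nm_root (NeZero.ne m) hζ.pow_eq_one
  have hη1 := nm_sub h2 J η hη
  set wt : Fin J × ι → C := fun j => ee (a / 2) (κ / 2) (j.1 + 1) * b j.2 with hwt
  set p : Fin J × ι → ℕ := fun j => 2 ^ (j.1 : ℕ) * v j.2 with hp
  have hd : ∀ {x}, 2 ^ J ∣ x → η ^ x = 1 := by
    rintro _ ⟨x, rfl⟩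
    rw [pow_mul, hη, one_pow]
  have hB : ∀ u : ℕ → C, (∀ x, 2 ^ J ∣ x → u x = 0) →
      (BB wt p fun x => u x - a / 2 * u (2 * x) + κ / 2 * u (4 * x)) = ∑ i, b i * u (v i) := by
    intro u hu
    have := tel (a / 2 : C) (κ / 2) (fun k => ∑ i, b i * u (2 ^ k * v i)) J
    have z0 : ∀ k, J ≤ k → ∑ i, b i * u (2 ^ k * v i) = 0 := fun k hk =>
      sum_eq_zero fun i _ => by rw [hu _ ((pow_dvd_pow 2 hk).mul_right _), mul_zero]
    rw [z0 J le_rfl, z0 (J + 1) (by omega)] at this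
    simp only [mul_zero, sub_zero, add_zero, pow_zero, one_mul] at this
    rw [← this, ← Fin.sum_univ_eq_sum_range (fun k => ee (a / 2 : C) (κ / 2) (k + 1) *
      (∑ i, b i * u (2 ^ k * v i) - a / 2 * ∑ i, b i * u (2 ^ (k + 1) * v i) +
        κ / 2 * ∑ i, b i * u (2 ^ (k + 2) * v i))), BB, Fintype.sum_prod_type]
    refine sum_congr rfl fun k _ => ?_
    simp only [hwt, hp, mul_sum, ← sum_sub_distrib, ← sum_add_distrib]
    refine sum_congr rfl fun i _ => ?_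
    rw [show 2 * (2 ^ (k : ℕ) * v i) = 2 ^ ((k : ℕ) + 1) * v i by ring,
      show 4 * (2 ^ (k : ℕ) * v i) = 2 ^ ((k : ℕ) + 2) * v i by ring]
    ring
  have hE : ∀ y n, 2 ≤ n → ‖BB wt p (EE ζ η y n)‖ ≤ 1 := by
    refine core wt p h2 hζ hm hη1 fun y n hn => ?_
    have := fun ω : C => fun h : ‖ω ^ y‖ ≤ 1 => hH (ω ^ y) n h hn
    choose! γ g1 g0 gn gs using this
    have hx : ∀ x : ℕ, ‖(ζ ^ x) ^ y‖ ≤ 1 := fun x => by simp [hz1]
    refine ⟨γ, fun x => L (EE ζ η y n x) - a / 2 * L (EE ζ η y n (2 * x)) +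
      κ / 2 * L (EE ζ η y n (4 * x)), fun x => g1 _ (hx x), fun x => g0 _ (hx x),
      fun x => by simpa only [← pow_mul] using gn _ (hx x), fun x => ?_, ?_⟩
    · have := (gs _ (hx x) (η ^ x - 1) ((nm_xi hη1 x).trans_lt hη1)).mul_left 2⁻¹
      simp only [add_sub_cancel, ← pow_mul, ← mul_assoc, inv_mul_cancel₀ h0, one_mul] at this
      refine (congrArg (fun s => HasSum _ s) ?_).mp this
      simp only [EE]
      rw [show 2 * x * y = x * y * 2 by ring, show 4 * x * y = x * y * 4 by ring, mul_comm 2 x,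
        mul_comm 4 x]
      field_simp
    · rw [hB (fun x => L (EE ζ η y n x)) fun x hx => by
        rw [EE, hd hx, sub_self, zero_pow (by omega), mul_zero, hL]]
      exact hb y n hn
  refine ⟨fun ω θ => BB wt p fun x => ω ^ x * (θ ^ x - 1), fun ω z => ?_, fun y z z' hz => ?_⟩
  · rw [← hB (fun x => ω ^ x * ((η ^ z) ^ x - 1)) fun x hx => by
      rw [← pow_mul, hd (hx.mul_left z), sub_self, mul_zero]]
    simp only [BB, mul_sum, ← sum_sub_distrib, ← sum_add_distrib]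
    refine sum_congr rfl fun j _ => ?_
    simp only [pow_mul]
    field_simp
  have e : (BB wt p fun x => (ζ ^ y) ^ x * ((η ^ z) ^ x - 1)) +
      (BB wt p fun x => (ζ ^ y) ^ x * ((η ^ z') ^ x - 1)) =
      (BB wt p fun x => EE ζ η y 0 x * (η ^ (x * z) - 1 - z * (η ^ x - 1))) +
      ((BB wt p fun x => EE ζ η y 0 x * (η ^ (x * z') - 1 - z' * (η ^ x - 1))) +
      -(BB wt p fun x => EE ζ η y 0 x *
        (η ^ (x * (z + z')) - 1 - ((z + z' : ℕ) : C) * (η ^ x - 1)))) := by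
    rw [← sub_eq_add_neg, ← BB_sub, ← BB_add, ← BB_add]
    congr 1
    funext x
    rw [hd (hz.mul_left x), EE]
    push_cast
    ring
  beta_reduce
  rw [e]
  refine (norm_add_le_max _ _).trans (max_le (rem wt p hE y z 0)
    ((norm_add_le_max _ _).trans (max_le (rem wt p hE y z' 0) ?_)))
  rw [norm_neg]
  exact rem wt p hE y _ 0

end Vale.Agent.P014W.Sp
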