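import Mathlib

/-! # P014W: solving the recursion and twisting it by a character -/

set_option autoImplicit false
set_option linter.all false

noncomputable section

namespace Vale.Agent.P014W.Tw

variable {C : Type*} {m J : ℕ}

theorem ex_G [Field C] [CharZero C] (a κ : C) (F : ZMod m → ZMod (2 ^ J) → C) :
    ∃ G : ZMod m → ZMod (2 ^ J) → C, (∀ y, G y 0 = 0) ∧ ∀ y z,
      2 * G y z - a * G (2 * y) (2 * z) + κ * G (4 * y) (4 * z) = 2 * (F y z - F y 0) := by
  suffices k : ∀ k : ℕ, ∃ G : ZMod m → ZMod (2 ^ J) → C, (∀ y, G y 0 = 0) ∧ ∀ y z, 2 ^ k * z = 0 →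
      2 * G y z - a * G (2 * y) (2 * z) + κ * G (4 * y) (4 * z) = 2 * (F y z - F y 0) from
    (k J).imp fun G k => ⟨k.1, fun y z => k.2 y z (by
      rw [show (2 ^ J : ZMod (2 ^ J)) = 0 by exact_mod_cast ZMod.natCast_self (2 ^ J), zero_mul])⟩
  intro k
  induction k with
  | zero => exact ⟨0, fun _ => rfl, fun y z e => by simp_all⟩
  | succ k ih =>
    obtain ⟨G, g0, g⟩ := ih
    have e : ∀ y z, 2 ^ k * z = 0 → F y z - F y 0 +
        (a * G (2 * y) (2 * z) - κ * G (4 * y) (4 * z)) / 2 = G y z := fun y z e => by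
      linear_combination -(g y z e) / 2
    refine ⟨fun y z => F y z - F y 0 + (a * G (2 * y) (2 * z) - κ * G (4 * y) (4 * z)) / 2,
      fun y => by simp [g0], fun y z f => ?_⟩
    simp only [e _ (2 * z) (by linear_combination f), e _ (4 * z) (by linear_combination 2 * f)]
    ring

theorem tw [NormedField C] [CharZero C] [NeZero m] {a κ X : C} {ψ : ZMod m → C}
    (hψ : ∀ x y, ψ (x * y) = ψ x * ψ y) (u : IsUnit (2 : ZMod m)) (hX : ψ 2 * X = 1)
    (hP : 2 - a * X + κ * X ^ 2 ≠ 0) {F G : ZMod m → ZMod (2 ^ J) → C}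
    (g : ∀ y z, 2 * G y z - a * G (2 * y) (2 * z) + κ * G (4 * y) (4 * z) = 2 * (F y z - F y 0))
    (b : ∀ y z, ‖G y z + G y (-z)‖ ≤ 1) : ∃ g : ZMod (2 ^ J) → C, ∀ z,
      2 * g z - a * X * g (2 * z) + κ * X ^ 2 * g (4 * z) =
        ∑ y, ψ y * F y z + ∑ y, ψ y * F y (-z) ∧ ‖g z‖ ≤ (∑ y, ‖ψ y‖) / ‖(2 : C)‖ +
          ‖2 * (∑ y, ψ y * F y 0) / (2 - a * X + κ * X ^ 2)‖ := by
  have s : ∀ H : ZMod m → C, ∑ y, ψ y * H (2 * y) = X * ∑ y, ψ y * H y := fun H => by
    rw [Finset.mul_sum]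
    exact Fintype.sum_equiv u.unit.mulLeft _ _ fun y => by
      show _ = X * (ψ (2 * y) * H (2 * y))
      rw [hψ]
      linear_combination -(ψ y * H (2 * y)) * hX
  have r : ∀ z, 2 * ∑ y, ψ y * G y z - a * X * ∑ y, ψ y * G y (2 * z) +
      κ * X ^ 2 * ∑ y, ψ y * G y (4 * z) = 2 * (∑ y, ψ y * F y z - ∑ y, ψ y * F y 0) := fun z => by
    have := s fun y => G (2 * y) (4 * z)
    rw [s fun y => G y (4 * z)] at this
    rw [mul_assoc a, ← s fun y => G y (2 * z), mul_assoc κ, sq, mul_assoc, ← this]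
    simp only [Finset.mul_sum, ← Finset.sum_sub_distrib, ← Finset.sum_add_distrib,
      show ∀ y : ZMod m, 2 * (2 * y) = 4 * y from fun y => by ring]
    exact Finset.sum_congr rfl fun y _ => by linear_combination ψ y * g y z
  refine ⟨fun z => (∑ y, ψ y * (G y z + G y (-z))) / 2 +
    2 * (∑ y, ψ y * F y 0) / (2 - a * X + κ * X ^ 2), fun z => ⟨?_, (norm_add_le _ _).trans ?_⟩⟩
  · have r1 := r z
    have r2 := r (-z)
    simp only [mul_add (ψ _), Finset.sum_add_distrib, mul_neg] at r2 ⊢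
    linear_combination (r1 + r2) / 2 + mul_div_cancel₀ (2 * ∑ y, ψ y * F y 0) hP
  · rw [norm_div]
    gcongr
    exact norm_sum_le_of_le _ fun y _ => (norm_mul_le _ _).trans
      (mul_le_of_le_one_right (norm_nonneg _) (b y z))

end Vale.Agent.P014W.Tw
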