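import Vale.Agent.P014W.Fbx
import Vale.Agent.P014W.Tw
import Vale.Agent.P014W.Gb0
import Vale.Agent.P014W.Span
import Vale.Agent.P022K.GW.Pl

/-! # P014W: the bounded solutions of the recursion -/

set_option autoImplicit false
set_option linter.all false

open scoped Classical

noncomputable section

namespace Vale.Agent.P014W

open P014T
open P022 (Qb)
open P027M.M (io)
open P022K.QT.Cu (E E_nat E_add E_int io_inj)

namespace Gb

theorem hn {a κ : ℤ} {F : ℂ_[2] → ℂ_[2]} (h : Hn a κ F) : Sp.Hn (a : ℂ_[2]) κ F := fun ω n o k => by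
  obtain ⟨γ, b, z, e, s⟩ := h.2 ω o n (by omega)
  obtain ⟨n, rfl⟩ := Nat.exists_eq_add_of_le k
  refine ⟨γ, b, z, ?_, s⟩
  have i : ∀ (t : ℤ) (j : ℕ), ‖t * ω ^ j‖ ≤ 1 := fun t j => (norm_mul_le _ _).trans (mul_le_one₀
    (IsUltrametricDist.norm_intCast_le_one _ _) (norm_nonneg _) (norm_pow ω j ▸ pow_le_one₀ (norm_nonneg _) o))
  rw [show γ (2 + n) - ω = 2 * ((-a * 2 ^ n : ℤ) * ω ^ 2 + (κ * 4 ^ (n + 1) : ℤ) * ω ^ 4) by
    push_cast; linear_combination e / 2, norm_mul]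
  exact mul_le_of_le_one_right (norm_nonneg _)
    ((IsUltrametricDist.norm_add_le_max _ _).trans (max_le (i _ _) (i _ _)))

theorem pw {M : ℕ} [NeZero M] {w : ℂ_[2]} (h : w ^ M = 1) (k : ℕ) (x : ZMod M) :
    w ^ (k * x).val = (w ^ x.val) ^ k := by
  rw [ZMod.val_mul, ZMod.val_natCast, Nat.mod_mul_mod, ← pow_eq_pow_mod _ h, pow_mul']

theorem E_one {M : ℕ} [NeZero M] : E (1 / M) ^ M = 1 := (Sb.E_prim (NeZero.pos M)).pow_eq_one

theorem U_emb {m J : ℕ} [NeZero m] (ι : Qb →+* ℂ_[2]) (ψ : DirichletCharacter Qb m)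
    (z : ZMod (2 ^ J)) (x : ZMod (m * 2 ^ J)) : ι (Fx.U ψ z x) = ∑ y, ι (ψ y) *
      ((ι (E (1 / m)) ^ y.val) ^ x.val * (ι (E (1 / (2 ^ J : ℕ))) ^ z.val) ^ x.val) := by
  rw [Fx.U, map_sum]
  refine Finset.sum_nbij' (fun v : ℕ => (v : ZMod m)) ZMod.val (by simp)
    (fun y _ => Finset.mem_range.2 y.val_lt)
    (fun v k => ZMod.val_cast_of_lt (Finset.mem_range.1 k)) (by simp) fun v k => ?_
  simp only [ZMod.val_cast_of_lt (Finset.mem_range.1 k), ← map_pow, ← map_mul, ← E_nat, ← E_add, fr]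
  congr 3
  push_cast
  ring

end Gb

open Gb

theorem gb_of (rt : RECT) (hp : HP2) : GB := fun N G a A B w I x y r p n => by
  obtain ⟨P, o⟩ := P022K.GW.Pl.ex_ov Nat.prime_two
  obtain ⟨ι, h⟩ := Ah.ex_ind o
  obtain ⟨L, l⟩ := Lc.ex_lgs A B
  obtain ⟨κ, cs, e4, k⟩ := hp A B (by exact_mod_cast p.disc) n
  obtain ⟨F, u, pt, hF, u0, k1⟩ := k ι P h L l
  refine ⟨ι, κ, cs, e4, fun γ c0 m c ψ X gs v c1 pm nm sc cm _ hX hP => ?_⟩
  have := NeZero.mk pm.ne_zero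
  have om : Odd m := pm.odd_of_ne_two fun e => nm (e ▸ dvd_mul_right 2 N)
  have hP' := (map_ne_zero ι).2 hP
  simp only [map_add, map_sub, map_mul, map_pow, map_intCast, map_ofNat] at hP'
  generalize P004M.TE.al A B 2 = e at *
  refine ⟨((∑ y, ‖ι (ψ y)‖) / ‖(2 : ℂ_[2])‖ + ‖2 * (u * ι (Function.invFun io (-Complex.I *
    (c ^ 4 * Fb N a (Es.sy I γ) ψ 0 - 2 * c ^ 3 * Fb N a (Es.sy I γ) ψ 0 +
      c ^ 2 * Fb N a (Es.sy I γ) ψ 0) / c0))) / (2 - e * ι X + κ * ι X ^ 2)‖) / ‖u‖, fun J hJ => ?_⟩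
  obtain ⟨b, hb, hR⟩ := rt N G a A B w I x y ι P h L r p l γ c0 (m * 2 ^ J) c gs v c1
    ((dvd_pow_self 2 (by omega)).mul_left m) (Fx.sc_lev sc J)
  have fb := Fx.fb r ψ sc cm (by omega) hb
  have z1 : ι (E (1 / m)) ^ m = 1 := by rw [← map_pow, E_one, map_one]
  have z2 : ι (E (1 / (2 ^ J : ℕ))) ^ 2 ^ J = 1 := by rw [← map_pow, E_one, map_one]
  obtain ⟨H, g, bd⟩ := Sp.span Ah.two_lt two_ne_zero
    ((Sb.E_prim pm.pos).map_of_injective ι.injective) (Ah.nrm_odd Ah.two_lt om) z2 hF.1 (hn hF)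
    (fun x => u * ι (b x)) ZMod.val fun y n k' => Gb0.hb1 hR u0 k1 (by rw [pow_mul, E_one, one_pow])
      (by rw [pow_mul', E_one, one_pow]) E_one y (by omega)
  obtain ⟨g, hg⟩ := Tw.tw (C := ℂ_[2]) (a := e) (κ := κ) (X := ι X) (ψ := fun y => ι (ψ y))
    (F := fun y z => ∑ x, u * ι (b x) * ((ι (E (1 / m)) ^ y.val) ^ x.val *
      (ι (E (1 / (2 ^ J : ℕ))) ^ z.val) ^ x.val))
    (G := fun y z => H (ι (E (1 / m)) ^ y.val) (ι (E (1 / (2 ^ J : ℕ))) ^ z.val))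
    (fun x y => by simp only [map_mul]) ((ZMod.isUnit_iff_coprime 2 m).2 om.coprime_two_left)
    (by rw [← map_mul, hX, map_one]) hP' (fun y z => by
      have a2 := pw z1 2 y
      have a4 := pw z1 4 y
      have b2 := pw z2 2 z
      have b4 := pw z2 4 z
      simp only [Nat.cast_ofNat] at a2 a4 b2 b4
      simp only [a2, a4, b2, b4, g, ZMod.val_zero, pow_zero, one_pow, ← Finset.sum_sub_distrib,
        ← mul_sub])
    fun y z => bd _ _ _ ((ZMod.natCast_eq_zero_iff _ _).1 (by simp))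
  have s : ∀ z, ∑ y, ι (ψ y) * ∑ x, u * ι (b x) * ((ι (E (1 / m)) ^ y.val) ^ x.val *
      (ι (E (1 / (2 ^ J : ℕ))) ^ z.val) ^ x.val) = u * ι (∑ x, b x * Fx.U ψ z x) := fun z => by
    simp only [map_sum, map_mul, U_emb, Finset.mul_sum]
    rw [Finset.sum_comm]
    exact Finset.sum_congr rfl fun _ _ => Finset.sum_congr rfl fun _ _ => by ring
  simp only [s] at hg
  refine ⟨fun z => ∑ x, b x * Fx.U ψ z x, fun z => g z / u, fun z => ⟨fb z, ?_, ?_⟩⟩
  · rw [map_add]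
    field_simp
    linear_combination (hg z).1
  · have := eq_div_of_mul_eq (Complex.ofReal_ne_zero.2 c1) (fb 0)
    simp only [mul_zero, fr, ZMod.val_zero, Nat.cast_zero, zero_div] at this
    rw [norm_div, ← this, Function.leftInverse_invFun io_inj]
    exact div_le_div_of_nonneg_right (hg z).2 (norm_nonneg _)

end Vale.Agent.P014W
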