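import Vale.Agent.P014U.Gt.Fr
import Vale.Agent.P014T.Lk.Ell
import Vale.Agent.P014T.Lc.Fx

/-! # P014W: an integral model with its Frobenius relation at two, and its small points -/

set_option autoImplicit false
set_option linter.all false

open scoped Classical
open WeierstrassCurve WeierstrassCurve.Affine P179W NumberField Polynomial

noncomputable section

namespace Vale.Agent.P014W.Frm

open Vale.Agent.P014T Vale.Agent.P014T.Lc Vale.Agent.P014T.Sm Vale.Agent.P014T.Vc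
open Vale.Agent.P014U.Gt (sf fq2 fq_nd sf_inv sf_np sf_md)
open Vale.Agent.P022 (Qb GQ)
open Vale.Agent.P022D.W (dec)
open Vale.Agent.P004M.TE (Cv Pt pa ga al)
open Ah (Ind)
open Gt (Fq)

variable {W : WeierstrassCurve ℤ} {A B : ℤ} {u r s t : ℚ}

theorem np_le (hg : ¬ ((2 : ℕ) : ℤ) ∣ W.Δ) : 1 ≤ np W 2 ∧ np W 2 ≤ 5 := by
  refine ⟨np_pos W Nat.prime_two, ?_⟩
  have d := Gt.dz (p := 2) hg
  rw [np, P004N.H169.LF.card_point _ d, P004N.H169.LF.cnt]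
  have := Finite.card_subtype_le fun xy : ZMod 2 × ZMod 2 =>
    (W.map (Int.castRingHom (ZMod 2))).toAffine.Equation xy.1 xy.2
  rw [Nat.card_prod, Nat.card_zmod] at this
  omega

theorem nd (hb : ((2 : ℕ) : ℤ) ∣ W.Δ) (hc : ¬ ((2 : ℕ) : ℤ) ∣ W.c₄) :
    (2 - np W 2 : ℤ) ^ 2 = 1 ∧ ∃ x y z, Fq (sf W x y z) 2 0 (-(2 - np W 2)) 2 := by
  obtain ⟨x, y, S⟩ := Sg.ex_sing_p (W.map (Int.castRingHom (ZMod 2)))
    ((W.map_Δ _).trans ((ZMod.intCast_zmod_eq_zero_iff_dvd _ 2).2 hb))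
  obtain ⟨x, rfl⟩ := ZMod.intCast_surjective x
  obtain ⟨y, rfl⟩ := ZMod.intCast_surjective y
  obtain ⟨e, f, g⟩ := S
  simp only [map_a₁, map_a₂, map_a₃, map_a₄, map_a₆, eq_intCast] at e f g
  obtain ⟨i, j⟩ := sf_inv (W := W) x 0 y
  obtain ⟨a, q⟩ := fq_nd (W := sf W x 0 y) (p := 2) (by rw [sf]; push_cast; linear_combination g)
    (by rw [sf]; push_cast; linear_combination -f) (by rw [sf]; push_cast; linear_combination -e)
    (j ▸ hc)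
  rw [sf_np Nat.prime_two] at a q
  simp only [Nat.cast_ofNat] at a q
  refine ⟨by rcases a with a | a <;> rw [a] <;> norm_num, x, 0, y, fun κ _ _ _ F hF R => ?_⟩
  have := q κ F hF R
  rcases a with a | a <;> rw [a] at this ⊢
  · rw [← neg_eq_zero, ← this]; module
  · rw [← this]; module

/-- **the model** -/
theorem mdl (hD : 4 * (A : ℚ) ^ 3 + 27 * (B : ℚ) ^ 2 ≠ 0)
    (hn : ¬ (al A B 2 = 0 ∧ al A B (2 ^ 2) = 0)) :
    ∃ κ : ℤ, (κ = 1 ∧ al A B 2 ^ 2 < 8 ∨ κ = 0 ∧ al A B 2 ^ 2 = 1) ∧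
      al A B (2 ^ 2) = al A B 2 ^ 2 - 2 * κ ∧ ∃ (W : WeierstrassCurve ℤ) (u r s t : ℚ),
        W.Δ ≠ 0 ∧ Fq W 2 κ (-al A B 2) 2 ∧ Md (Wq W) A B u r s t := by
  obtain ⟨D, hm⟩ := ex_min (⟨0, 0, 0, A, B⟩ : WeierstrassCurve ℚ)
  obtain ⟨W, e⟩ := Lc.ex_int hm.1
  have k : Md (Wq W) A B D.u D.r D.s D.t := by
    have := Vc.ch_of D (⟨0, 0, 0, A, B⟩ : WeierstrassCurve ℚ)
    rwa [e] at this
  rw [e] at hm
  have hΔ : W.Δ ≠ 0 := fun z => hD (by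
    have := Md.disc k
    rw [map_Δ, z, map_zero, mul_zero] at this
    linear_combination -this / 16)
  have : (Wq W).IsElliptic := ⟨by simpa using hΔ⟩
  obtain ⟨a1, a2⟩ := lf_all W hΔ hm Nat.prime_two
  replace a2 := a2 0
  rw [Lk.lf_md k] at a1
  rw [zero_add, zero_add, pow_one, pow_zero, (Lf.lf_mul _).map_one, Lk.lf_md k, Lk.lf_md k,
    ← a1] at a2
  by_cases hb : ((2 : ℕ) : ℤ) ∣ W.Δ
  · rw [ep, if_pos hb] at a1 a2
    rw [add_zero, Nat.cast_ofNat] at a1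
    by_cases hc : ((2 : ℕ) : ℤ) ∣ W.c₄
    · have z := ZMod.intCast_zmod_eq_zero_iff_dvd
      have c : np W 2 = 2 := Sg.card_cusp _ ((W.map_Δ _).trans ((z _ 2).2 hb))
        ((W.map_c₄ _).trans ((z _ 2).2 hc))
      rw [c] at a1
      exact (hn ⟨a1, by rw [a2, a1]; ring⟩).elim
    · obtain ⟨q, x, y, z, f⟩ := nd hb hc
      obtain ⟨u, r, s, t, h⟩ := sf_md k x y z
      rw [← a1] at q f
      exact ⟨0, .inr ⟨rfl, q⟩, by rw [a2]; ring, _, u, r, s, t, (sf_inv x y z).1.trans_ne hΔ, f, h⟩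
  · rw [ep, if_neg hb] at a1 a2
    obtain ⟨x, y, z, f⟩ := fq2 hb
    obtain ⟨u, r, s, t, h⟩ := sf_md k x y z
    obtain ⟨b, c⟩ := np_le hb
    refine ⟨1, .inl ⟨rfl, ?_⟩, by rw [a2]; push_cast; ring, _, u, r, s, t,
      (sf_inv x y z).1.trans_ne hΔ, ?_, h⟩
    · rw [a1]
      interval_cases np W 2 <;> norm_num
    · rwa [show -al A B 2 = np W 2 - (2 : ℕ) - 1 by rw [a1]; ring]

theorem cfq {K Γ : Type} [Field K] [Algebra ℚ K] [LinearOrderedCommGroupWithZero Γ]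
    (v : Valuation K Γ) (W : WeierstrassCurve ℤ) : CoeffIn ((Wq W)⁄K) {z | v z ≤ 1} := by
  have : ∀ a : ℤ, v (algebraMap ℚ K (Int.castRingHom ℚ a)) ≤ 1 := fun a => by
    rw [eq_intCast, map_intCast]; exact intCast_mem v.integer a
  exact ⟨this _, this _, this _, this _, this _⟩

theorem eq_bc (W : WeierstrassCurve ℤ) : W⁄ℂ_[2] = (Wq W)⁄ℂ_[2] := by
  ext <;> simp [WeierstrassCurve.baseChange]

/-- the small points with an algebraic parameter are algebraic -/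
theorem alg (hΔ : W.Δ ≠ 0) (ι : Qb →+* ℂ_[2]) {z : Qb} (hz : ‖ι z‖ < 1) :
    ∃ Q : ((Wq W)⁄Qb).toAffine.Point, KerV ((nv ℂ_[2]).comap ι) Q ∧ zf Q = z := by
  by_cases z0 : z = 0
  · exact ⟨0, trivial, z0.symm⟩
  obtain ⟨Q, k, e⟩ := Lc.surj (cfq (nv ℂ_[2]) W) (z := ι z)
    (by simpa [WeierstrassCurve.baseChange] using hΔ) hz
  rcases Q with _ | ⟨x, y, n⟩
  · exact (z0 ((map_eq_zero ι).1 e.symm)).elim
  obtain ⟨-, y0, -⟩ := bas (cfq (nv ℂ_[2]) W) n.1 (not_le.1 k)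
  have e1 : x = -(ι z * y) := by
    rw [← e]; change x = -(-x / y * y); field_simp
  have q := (equation_iff _ _).1 n.1
  simp only [WeierstrassCurve.baseChange, map_a₁, map_a₂, map_a₃, map_a₄, map_a₆, eq_intCast,
    map_intCast] at q
  let f : Qb[X] := C (z ^ 3) * X ^ 3 + C (1 - W.a₁ * z - W.a₂ * z ^ 2) * X ^ 2 +
    C (W.a₃ + W.a₄ * z) * X + C (-W.a₆ : Qb)
  have f0 : f ≠ 0 := fun c => pow_ne_zero 3 z0 (by
    simpa [f, coeff_X, coeff_C, -map_pow, -map_sub, -map_add, -map_neg] using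
      congrArg (coeff · 3) c)
  obtain ⟨y, rfl⟩ : y ∈ ι.range := (IsAlgClosed.splits f).mem_range_of_isRoot f0 (by
    simp [f]; rw [e1] at q; linear_combination q)
  rw [← map_mul, ← map_neg] at e1
  subst e1
  refine ⟨.some (-(z * y)) y ((baseChange_nonsingular (W := Wq W) (f := ι.toRatAlgHom)
    ι.injective ..).1 n), k, ?_⟩
  change -(-(z * y)) / y = z
  rw [neg_neg, mul_div_cancel_right₀ _ fun c => y0 (by rw [c, map_zero])]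

theorem pts (hΔ : W.Δ ≠ 0) (h : Md (Wq W) A B u r s t) {ι : Qb →+* ℂ_[2]} {P : Ideal (𝓞 Qb)}
    (hι : Ind ι P) {L} (hL : Lg 2 (Cv ℂ_[2] (A : ℚ) (B : ℚ)) L) :
    ∃ (L' : ((Wq W)⁄ℂ_[2]).toAffine.Point →+ ℂ_[2]) (w : ℂ_[2]) (pt : Qb → Pt A B),
      Lg 2 ((Wq W)⁄ℂ_[2]) L' ∧ w ≠ 0 ∧ ∀ t, ‖ι t‖ < 1 → (∀ g ∈ dec P, ga g (pt t) = pt (g t)) ∧
        ∃ Q, KerV (nv ℂ_[2]) Q ∧ zf Q = ι t ∧ L (pa ι.toRatAlgHom (pt t)) = w * L' Q := by
  have p1 : ‖((2 : ℕ) : ℂ_[2])‖ < 1 := by exact_mod_cast Ah.two_lt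
  obtain ⟨l, hl⟩ := ex_lg (cfq (nv ℂ_[2]) W) two_ne_zero p1
  have u0 : algebraMap ℚ ℂ_[2] u ≠ 0 := (_root_.map_ne_zero _).2 h.ne
  choose! Q k e using fun z (hz : ‖ι z‖ < 1) => alg hΔ ι hz
  refine ⟨(AddMonoidHom.mulLeft (algebraMap ℚ ℂ_[2] u)).comp
    (L.comp (iso h ℂ_[2]).toAddMonoidHom), (algebraMap ℚ ℂ_[2] u)⁻¹, fun z => iso h Qb (Q z),
    fun R a b => ?_, inv_ne_zero u0, fun z hz => ⟨fun g hg => ?_,
      Point.map (W' := Wq W) ι.toRatAlgHom (Q z), ?_, ?_, ?_⟩⟩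
  · have := hl.comp (cfq (nv ℂ_[2]) W) (cfs _ A B) (σ := RingHom.id _) (fun _ => rfl)
      (Md.ch h ℂ_[2]) hL p1 a b
    exact (congrArg (fun x => ‖((2 : ℕ) : ℂ_[2])‖ * ‖x - zf R‖) this).trans_le (hl R a b)
  · have m : ‖ι (g z)‖ < 1 := (hι.nrm hg z).trans_lt hz
    rw [← iso_act]
    refine congrArg _ (zf_inj (cfq ((nv ℂ_[2]).comap ι) W) ?_ (k _ m) ?_)
    · have := k z hz
      generalize Q z = R at this
      rcases R with _ | ⟨x, y, n⟩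
      · trivial
      · exact fun c => this (show ‖ι x‖ ≤ 1 from (hι.nrm hg x).symm.trans_le c)
    · refine Eq.trans ?_ ((congrArg g (e z hz)).trans (e _ m).symm)
      generalize Q z = R
      rcases R with _ | ⟨x, y, n⟩
      · exact (map_zero g).symm
      · exact ((map_div₀ g _ _).trans (by rw [map_neg]; rfl)).symm
  · have := k z hz
    generalize Q z = R at this
    rcases R with _ | ⟨x, y, n⟩
    · trivial
    · exact this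
  · refine Eq.trans ?_ (congrArg ι (e z hz))
    generalize Q z = R
    rcases R with _ | ⟨x, y, n⟩
    · exact (map_zero ι).symm
    · exact ((map_div₀ ι _ _).trans (by rw [map_neg]; rfl)).symm
  · rw [← iso_map]
    exact (inv_mul_cancel_left₀ u0 _).symm

/-- **the frame of Honda's theorem** -/
theorem frm (A B : ℤ) (hD : 4 * (A : ℚ) ^ 3 + 27 * (B : ℚ) ^ 2 ≠ 0)
    (hn : ¬ (al A B 2 = 0 ∧ al A B (2 ^ 2) = 0)) :
    ∃ κ : ℤ, (κ = 1 ∧ al A B 2 ^ 2 < 8 ∨ κ = 0 ∧ al A B 2 ^ 2 = 1) ∧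
      al A B (2 ^ 2) = al A B 2 ^ 2 - 2 * κ ∧ ∃ W : WeierstrassCurve ℤ, W.Δ ≠ 0 ∧
        Fq W 2 κ (-al A B 2) 2 ∧ ∀ ι P (_ : Ind ι P) L, Lg 2 (Cv ℂ_[2] (A : ℚ) (B : ℚ)) L →
          ∃ (L' : (W⁄ℂ_[2]).toAffine.Point →+ ℂ_[2]) (w : ℂ_[2]) (pt : Qb → Pt A B),
            Lg 2 (W⁄ℂ_[2]) L' ∧ w ≠ 0 ∧ ∀ t, ‖ι t‖ < 1 →
              (∀ g ∈ dec P, ga g (pt t) = pt (g t)) ∧ ∃ Q, KerV (nv ℂ_[2]) Q ∧ zf Q = ι t ∧
                L (pa ι.toRatAlgHom (pt t)) = w * L' Q := by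
  obtain ⟨κ, a, b, W, u, r, s, t, c, d, h⟩ := mdl hD hn
  refine ⟨κ, a, b, W, c, d, fun ι P hι L hL => ?_⟩
  rw [eq_bc]
  exact pts c h hι hL

end Vale.Agent.P014W.Frm
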