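import Vale.Agent.P014W.Hon
import Vale.Agent.P014W.Frm

/-! # P014W: the points of the formal group (row HP2, helper37) -/

set_option autoImplicit false
set_option linter.all false

open scoped Classical
open WeierstrassCurve P179W

noncomputable section

namespace Vale.Agent.P014W

open Vale.Agent.P014T.Lc

/-- **row HP2** -/
theorem hpa : HP2 := fun A B hD hn => by
  obtain ⟨κ, c, e, W, hΔ, q, H⟩ := Frm.frm A B hD hn
  refine ⟨κ, c, e, fun ι P h L hL => ?_⟩
  obtain ⟨L', u, pt, l, u0, k⟩ := H ι P h L hL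
  have hc := Frm.eq_bc W ▸ Frm.cfq (nv ℂ_[2]) W
  have f : ∀ Q, KerV (nv ℂ_[2]) Q → L' (Classical.epsilon fun R => KerV (nv ℂ_[2]) R ∧
      zf R = zf Q) = L' Q := fun Q m =>
    have s := Classical.epsilon_spec (p := fun R => KerV (nv ℂ_[2]) R ∧ zf R = zf Q) ⟨Q, m, rfl⟩
    congrArg L' (zf_inj hc s.1 m s.2)
  refine ⟨fun t => L' (Classical.epsilon fun R => KerV (nv ℂ_[2]) R ∧ zf R = t), u, pt,
    hon2 W _ κ q L' l _ f fun t ht => surj hc (by simpa [WeierstrassCurve.baseChange] using hΔ) ht,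
    u0, fun t ht => ⟨(k t ht).1, ?_⟩⟩
  obtain ⟨Q, a, b, d⟩ := (k t ht).2
  rw [d, ← b, ← f Q a]

end Vale.Agent.P014W
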