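import Vale.Agent.P014T.Pl.Lwx
import Vale.Agent.P014T.Es.Md

/-! # P014W: twists by even characters with a prescribed order at two which do not vanish -/

set_option autoImplicit false
set_option linter.all false

open Complex UpperHalfPlane Filter Topology CongruenceSubgroup ModularGroup
open scoped Real MatrixGroups ModularForm

noncomputable section

namespace Vale.Agent.P014W.Nx

open P014T P014T.Rk P004N P004Z P004Z.Ar P027M.ES
open P004N.H461 hiding ee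

variable {M N K : ℕ} {g H G : ℍ → ℂ} {a : ℕ → ℤ} {γ : SL(2, ℤ)}

theorem lim (hM : 0 < M) (s : S2 M g) (p : Prim g H) (γ : SL(2, ℤ)) :
    ∃ x, Tendsto (fun z => H (γ • z)) atImInfty (𝓝 x) := by
  have : NeZero M := ⟨hM.ne'⟩
  obtain ⟨n, hn, hw⟩ := Inj.exists_width (Gamma0 M)
  obtain ⟨φ, an, e⟩ := EF.Co.cusp_fn s p hn (hw γ)
  simp only [e]
  exact ⟨_, an.continuousAt.tendsto.comp (qParam_tendsto_atImInfty (Nat.cast_pos.2 hn))⟩

theorem par (hM : 0 < M) (s : S2 M g) (p : Prim g H) (h : γ 1 0 = 0) (τ : ℍ) :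
    H (γ • τ) = H τ := by
  obtain ⟨x, k⟩ := lim hM s p 1
  simp only [one_smul] at k
  have := Es.neBot
  have m : γ ∈ Gamma0 M := by simp [Gamma0_mem, h]
  have e := ((k.comp (Es.sl_top h)).sub k).congr fun z => p.period (s.slash γ m) z τ
  exact sub_eq_zero.1 ((tendsto_nhds_unique tendsto_const_nhds e).trans (sub_self x))

theorem prm (h : RN N G a) : Prim G (Pr fun n => (a n : ℂ)) :=
  EF.prim_Pr h.qe (by simp [h.zero])

/-- the periods as values at the cusps -/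
theorem per (h : RN N G a) (k : γ ∈ Gamma0 N) (n : γ 1 1 ≠ 0) (τ : ℍ) :
    Pr (fun n => (a n : ℂ)) (γ • τ) - Pr (fun n => (a n : ℂ)) τ =
      Lw a (fun n => ee (n * (γ 0 1 / γ 1 1))) - Lw a 1 := by
  obtain ⟨x, hx⟩ := lim h.pos h.s2 (prm h) S
  have e : ∀ i, (γ * S) i 0 = γ i 1 := fun i => by
    simp [Matrix.SpecialLinearGroup.coe_mul, coe_S, Matrix.mul_apply]
  have e1 := Lw_cusp h S (by simp [coe_S]) hx
  have e2 := Lw_cusp h (γ * S) (by rwa [e]) ((hx.add_const (Pr (fun n => (a n : ℂ)) (γ • τ) -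
    Pr (fun n => (a n : ℂ)) τ)).congr fun z => by
      rw [mul_smul, (prm h).period (h.s2.slash γ k) τ (S • z), add_sub_cancel])
  rw [e, e] at e2
  rw [e2, show Lw a 1 = x from e1 ▸ congrArg _ (funext fun n => by simp [coe_S, ee]),
    add_sub_cancel_left]

/-- the real parts of the symbols with prime denominators are not invariant under `K` -/
theorem ex_prime (h : RN N G a) (hK : 1 < K) (M₀ : ℕ) : ∃ m : ℕ, m.Prime ∧ M₀ < m ∧ ∃ b : ℤ,
    ¬ (m : ℤ) ∣ b ∧ (Lw a fun n => ee (n * ((K * b : ℤ) / m))).re ≠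
      (Lw a fun n => ee (n * (b / m))).re := by
  by_contra! c
  have K0 : 0 < K := one_pos.trans hK
  have M0 := mul_pos h.pos K0
  have : NeZero (N * K) := ⟨M0.ne'⟩
  have hd : 0 < (!![(K : ℤ), 0; 0, 1] : M2).det := by simpa [Matrix.det_fin_two_of] using K0
  have le : Gamma0 (N * K) ≤ Gamma0 N := mul_comm K N ▸ EF.g0_le N K
  have s : IsCF (Gamma0 (N * K)) (sl G !![(K : ℤ), 0; 0, 1] - G) :=
    (EF.cf_of (S2.vp K0 h.s2)).sub
      (EF.cf_of ⟨h.s2.holo, fun γ k => h.s2.slash γ (le k), h.s2.zero⟩)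
  have p : Prim (sl G !![(K : ℤ), 0; 0, 1] - G) ((fun τ => Pr (fun n => (a n : ℂ))
      (mb !![(K : ℤ), 0; 0, 1] τ)) - Pr fun n => (a n : ℂ)) := by
    simp only [sl_pos G _ hd, mb, dif_pos hd]
    exact ((prm h).comp _ (gl_det_pos _ hd)).sub (prm h)
  generalize hH : ((fun τ => Pr (fun n => (a n : ℂ)) (mb !![(K : ℤ), 0; 0, 1] τ)) -
    Pr fun n => (a n : ℂ)) = H at p
  have one : ∀ γ ∈ Gamma0 (N * K), ∀ m : ℕ, m.Prime → M₀ < m → γ 1 1 = m → ∀ τ,
      (H (γ • τ) - H τ).re = 0 := fun γ k m hm lt e τ => by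
    obtain ⟨t, ht⟩ := (ZMod.intCast_zmod_eq_zero_iff_dvd _ _).1 (Gamma0_mem.1 k)
    have dt : γ 0 0 * γ 1 1 - γ 0 1 * γ 1 0 = 1 := (Matrix.det_fin_two _).symm.trans γ.2
    let δ : SL(2, ℤ) := ⟨!![γ 0 0, K * γ 0 1; N * t, γ 1 1], by
      rw [ht, Nat.cast_mul] at dt
      rw [Matrix.det_fin_two_of]
      linear_combination dt⟩
    have m0 : γ 1 1 ≠ 0 := e ▸ Nat.cast_ne_zero.2 hm.ne_zero
    have q : mb !![(K : ℤ), 0; 0, 1] (γ • τ) = δ • mb !![(K : ℤ), 0; 0, 1] τ := by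
      rw [← mb_SL, ← mb_SL, ← mb_mul hd (by simp), ← mb_mul (by simp) hd]
      congr 1
      ext i j
      fin_cases i <;> fin_cases j <;> simp [δ, Matrix.mul_apply, ht] <;> ring
    have e1 := per h (le k) m0 τ
    have e2 := per h (γ := δ) (Gamma0_mem.2 (show ((N * t : ℤ) : ZMod N) = 0 by simp)) m0 (mb !![(K : ℤ), 0; 0, 1] τ)
    have e3 := c m hm lt (γ 0 1) fun d => (Nat.prime_iff_prime_int.1 hm).not_dvd_one
      (dt ▸ dvd_sub (e ▸ dvd_mul_left _ _) (d.mul_right _))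
    rw [show δ 0 1 = K * γ 0 1 from rfl, show δ 1 1 = γ 1 1 from rfl] at e2
    rw [e, Int.cast_natCast] at e1 e2
    rw [← hH, Pi.sub_apply, Pi.sub_apply, q, sub_sub_sub_comm, e1, e2, sub_sub_sub_cancel_right,
      sub_re, e3, sub_self]
  have z := (inj0 _ _ _ _ _ s.1 s p p fun γ k τ => ?_).1
  · have := QE.zero_eq (z ▸ QE.sub (qe_V h.qe K K0) h.qe) 1
    simp [hK.ne', h.one] at this
  suffices (H (γ • τ) - H τ).re = 0 by rw [P027M.ES.per, add_conj, this]; simp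
  by_cases o : γ 1 0 = 0
  · rw [par M0 (EF.s2_of s) p o, sub_self, zero_re]
  obtain ⟨m, lt, hm, e⟩ := Nat.forall_exists_prime_gt_and_zmodEq M₀ (Int.natAbs_ne_zero.2 o)
    (a := γ 1 1) ⟨γ 0 0, -γ 0 1 * (γ 1 0).sign, by
      rw [mul_assoc, Int.sign_mul_natAbs, neg_mul, ← sub_eq_add_neg]
      exact (Matrix.det_fin_two _).symm.trans γ.2⟩
  obtain ⟨j, hj⟩ := Int.natAbs_dvd.1 e.symm.dvd
  have := one (γ * T ^ j) (mul_mem k (by simp [Gamma0_mem, coe_T_zpow])) m hm lt (by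
    simp [coe_T_zpow, Matrix.mul_apply, Fin.sum_univ_two]
    linarith) (T ^ (-j) • τ)
  rwa [← mul_smul, mul_assoc, ← zpow_add, add_neg_cancel, zpow_zero, mul_one,
    par M0 (EF.s2_of s) p (γ := T ^ (-j)) (by rw [coe_T_zpow]; rfl)] at this

theorem Lj_int (a : ℕ → ℤ) (m : ℕ) [NeZero m] (b : ℤ) :
    Lj a m b = Lw a fun n => ee (n * (b / m)) := by
  simp only [Lj, Pl.Lw.ee_chr]
  refine congrArg _ (funext fun n => ?_)
  rw [← Int.cast_natCast n, ← Int.cast_mul, ZMod.stdAddChar_coe, ee]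
  congr 1
  push_cast
  ring

/-- **non vanishing of twists** -/
theorem nvx (h : RN N G a) {F : Type*} [Field F] [IsAlgClosed F] (j : F →+* ℂ) (hK : 1 < K)
    (M₀ : ℕ) : ∃ (m : ℕ) (_ : NeZero m), m.Prime ∧ M₀ < m ∧ ∃ ψ : DirichletCharacter F m,
      ψ (-1) = 1 ∧ ψ K ≠ 1 ∧ ψ K ≠ 0 ∧ ∑ v, j (ψ v) * Lj a m v ≠ 0 := by
  obtain ⟨m, hm, lt, b, hb, e⟩ := ex_prime h hK (max M₀ K)
  have := Fact.mk hm
  have : CharZero F := j.charZero
  refine ⟨m, inferInstance, hm, (le_max_left _ _).trans_lt lt, ?_⟩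
  by_contra! c
  have k0 : (K : ZMod m) ≠ 0 := mt (ZMod.natCast_eq_zero_iff _ _).1
    (Nat.not_dvd_of_pos_of_lt (one_pos.trans hK) ((le_max_right _ _).trans_lt lt))
  have b0 : (b : ZMod m) ≠ 0 := mt (ZMod.intCast_zmod_eq_zero_iff_dvd _ _).1 hb
  have k : ∀ ψ : DirichletCharacter F m,
      ∑ v, j (ψ v) * (((Lj a m (K * v)).re : ℂ) - (Lj a m v).re) = 0 := fun ψ => by
    have u : j (ψ K) ≠ 0 := (map_ne_zero j).2 (k0.isUnit.map ψ).ne_zero
    have e1 := Equiv.sum_comp (Equiv.mulLeft₀ _ k0) fun v => j (ψ v) * ((Lj a m v).re : ℂ)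
    simp only [Equiv.mulLeft₀_apply, map_mul, mul_assoc, ← Finset.mul_sum] at e1
    simp only [mul_sub, Finset.sum_sub_distrib]
    by_cases o : ψ K = 1
    · rw [← e1, o, map_one, one_mul, sub_self]
    suffices z : ∑ v, j (ψ v) * ((Lj a m v).re : ℂ) = 0 by
      rw [z, (mul_eq_zero.1 (e1.trans z)).resolve_left u, sub_self]
    rcases ψ.even_or_odd with p | p
    · rw [← Pl.Lw.even_re a fun v => by rw [p.eval_neg], c ψ p o (k0.isUnit.map ψ).ne_zero]
    · have := Equiv.sum_comp (Equiv.neg (ZMod m)) fun v => j (ψ v) * ((Lj a m v).re : ℂ)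
      simp only [Equiv.neg_apply, p.eval_neg, Pl.Lw.Lj_neg, conj_re, map_neg, neg_mul,
        Finset.sum_neg_distrib] at this
      exact CharZero.neg_eq_self_iff.1 this
  have z := Finset.sum_eq_zero fun (ψ : DirichletCharacter F m) (_ : ψ ∈ Finset.univ) =>
    mul_eq_zero_of_right (j (ψ (b : ZMod m)⁻¹)) (k ψ)
  simp only [Finset.mul_sum, ← mul_assoc, ← map_mul j] at z
  rw [Finset.sum_comm] at z
  simp only [← Finset.sum_mul, ← map_sum, DirichletCharacter.sum_char_inv_mul_char_eq F b0.isUnit,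
    apply_ite j, map_zero, ite_mul, zero_mul, Finset.sum_ite_eq, Finset.mem_univ, if_true,
    map_natCast] at z
  rw [mul_eq_zero, Nat.cast_eq_zero, sub_eq_zero, ofReal_inj, ← Int.cast_natCast, ← Int.cast_mul,
    Lj_int, Lj_int] at z
  exact z.elim (Nat.totient_pos.2 hm.pos).ne' e

end Vale.Agent.P014W.Nx
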