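import Vale.Agent.P014W.St
import Vale.Agent.P014W.Nvx
import Vale.Agent.P014T.Rc.Even

/-! # P014W, row NVX -/

set_option autoImplicit false
set_option linter.all false

open scoped ComplexConjugate UpperHalfPlane

noncomputable section

namespace Vale.Agent.P014W

open P014T P014T.Rk P004N P004Z
open Vale.Agent.P022 (Qb)
open Vale.Agent.P027M.M (io)
open Vale.Agent.P022K.QT.Cu (E io_E)

namespace Nx

variable {N m : ℕ} {G : ℍ → ℂ} {a : ℕ → ℤ}

theorem uw_zero [NeZero m] (ψ : DirichletCharacter Qb m) (n : ℤ) :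
    uw ψ 0 n = ∑ v, io (ψ v) * ZMod.stdAddChar (v * (n : ZMod m)) := by
  rw [uw, Pl.Lw.sum_z]
  refine Finset.sum_congr rfl fun v _ => ?_
  rw [ZMod.natCast_zmod_val, io_E, show v * n = ((v.val * n : ℤ) : ZMod m) by simp,
    ZMod.stdAddChar_coe]
  congr 2
  push_cast
  ring

theorem uw_neg [NeZero m] {ψ : DirichletCharacter Qb m} (p : ψ.Even) (n : ℤ) :
    uw ψ 0 (-n) = uw ψ 0 n := by
  rw [uw_zero, uw_zero, ← Equiv.sum_comp (Equiv.neg (ZMod m))]
  simp only [Equiv.neg_apply, p.eval_neg, Int.cast_neg, neg_mul_neg]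

theorem lw_uw [NeZero m] (h : RN N G a) (ψ : DirichletCharacter Qb m) :
    Lw a (fun n => uw ψ 0 n) = ∑ v, io (ψ v) * Lj a m v := by
  simp only [Lj, ← Lw_smul]
  rw [← Lw_sum h _ fun v _ => ?_]
  · simp only [uw_zero, Pl.Lw.ee_chr, Int.cast_natCast]
  · refine (An.pw_const (io (ψ v))).op ?_ (· * ·)
    simpa only [Rat.cast_div, Rat.cast_natCast] using An.pw_ee (v.val / m)

end Nx

/-- **row NVX** -/
theorem nvx : NVX := fun N G a A B w I x y r p T Xs => by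
  have n0 : 0 < ∏ z ∈ Xs, max 1 (orderOf z) := Finset.prod_pos fun _ _ => lt_max_of_lt_left one_pos
  obtain ⟨m, _, hm, lt, ψ, e, k1, k0, k⟩ := Nx.nvx r (io : Qb →+* ℂ) (Nat.one_lt_two_pow n0.ne') T
  obtain ⟨γ, μ, c, g0, g1, o, c0, -, g⟩ := Rc.gam r p
  have := Fact.mk hm
  rw [Nat.cast_pow, Nat.cast_two, map_pow] at k1 k0
  have t : (2 : ZMod m) ≠ 0 := fun z => k0 (by rw [z, MulChar.map_zero, zero_pow n0.ne'])
  refine ⟨m, ψ, γ, hm, lt, fun z => k1 (by rw [z, MulChar.one_apply t.isUnit, one_pow]), fun z => k1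
    (orderOf_dvd_iff_pow_eq_one.1 (Dvd.dvd.trans ?_ (Finset.dvd_prod_of_mem _ z))), ⟨g0, g1⟩, ?_⟩
  · rw [max_eq_right (orderOf_pos_iff.2 (isOfFinOrder_iff_pow_eq_one.2 ⟨m - 1,
      Nat.sub_pos_of_lt hm.one_lt, by rw [← map_pow, ZMod.pow_card_sub_one_eq_one t, map_one]⟩))]
  · simp only [Ls, Nx.uw_neg e, Nx.lw_uw r, ← mul_sub]
    refine mul_ne_zero k fun z => ?_
    rw [Complex.conj_eq_iff_im.1 (sub_eq_zero.1 z), zero_mul, eq_comm, mul_eq_zero,
      Int.cast_eq_zero] at g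
    exact g.elim (fun z => by simp [z] at o) c0.ne'

end Vale.Agent.P014W
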