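import Vale.Agent.P014W.Lin
import Vale.Agent.P014T.Uy.Cm

/-! # P014W: the paired values are algebraic and equivariant -/

set_option autoImplicit false
set_option linter.all false

open Complex
open scoped Classical Real MatrixGroups ComplexConjugate UpperHalfPlane

noncomputable section

namespace Vale.Agent.P014W

open P014T P014T.Rk P014T.An P004N
open P022 (Qb GQ)
open P027M.M (io Cyc)
open P022K.QT.Cu (E io_E E_nat E_int)
open Es (LL sy)
open Pu (ParY)
open Rc (Vol sm)

namespace Li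

variable {N L : ℕ} {G : ℍ → ℂ} {a : ℕ → ℤ} {A B : ℤ} {d : ℕ} {I : ℍ → ℂ}
  {x y : P022.H218.L3.Mer} {g : GQ} {k : ℤ}

theorem cyc_unit (hL : 0 < L) (c : Cyc L g k) : IsUnit (k : ZMod L) :=
  (ZMod.coe_int_isUnit_iff_isCoprime _ _).2 (Uy.Cyc.cop hL c).symm

theorem hat_gal [NeZero L] (c : Cyc L g k) {W W' : ZMod L → Qb} (e : ∀ x, W' (k * x) = g (W x))
    (j : ZMod L) : g (hat (E (1 / L)) W j) = hat (E (1 / L)) W' j := by
  have n : (L : ℚ) ≠ 0 := Nat.cast_ne_zero.2 (NeZero.ne L)
  have z : E (1 / L) ^ L = 1 := by rw [← E_nat, mul_one_div_cancel n, ← Int.cast_one, E_int]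
  have f := Uy.cyc_iff.1 ((Uy.cyc_congr (k' := (k : ZMod L).val) (NeZero.pos L) c).2
    ((ZMod.intCast_eq_intCast_iff_dvd_sub _ _ _).1 (by simp)))
  rw [Int.cast_natCast, ← mul_one_div (Nat.cast _), E_nat] at f
  rw [hat, hat, map_sum]
  refine Fintype.sum_equiv (cyc_unit (NeZero.pos L) c).unit.mulLeft _ _ fun b => ?_
  rw [map_mul, map_pow, f, ← pow_mul, ← e, pow_eq_pow_mod _ z, ← ZMod.val_mul, mul_neg, ← mul_assoc]
  rfl

/-- **the values of algebraic periodic weights** -/
theorem alg (h : RN N G a) (p : ParY N a A B d I x y) (γ : SL(2, ℤ)) {c : ℝ} (v : Vol (LL I) c)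
    (L : ℕ) [NeZero L] : ∃ β : (ZMod L → Qb) → Qb,
      (∀ W, io (β W) * c = -Complex.I * Ls a (sy I γ) fun n => io (W n)) ∧
      ∀ g k W W', Cyc L g k → (∀ x, W' (k * x) = g (W x)) → g (β W) = β W' := by
  choose e he using fun j : ZMod L => vol_im v (lw_mem h p (j.val / L)) (Es.sy_mem I γ)
  simp only [Rat.cast_div, Rat.cast_natCast] at he
  refine ⟨fun W => 2 / L * ∑ j, hat (E (1 / L)) W j * e j, fun W => ?_, fun g k W W' c f => ?_⟩
  · have z : io (E (1 / L)) = cexp (2 * π * Complex.I / L) := by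
      rw [io_E]
      congr 1
      push_cast
      ring
    rw [Ls_hat h fun x => io (W x), ← hat_eq]
    simp only [Lj, he, hat, map_mul, map_sum, map_pow, z, map_div₀, map_natCast, map_ofNat,
      map_intCast, mul_assoc, Finset.sum_mul, ofReal_mul, ofReal_intCast]
  · simp only [map_mul, map_sum, hat_gal c f, map_div₀, map_natCast, map_ofNat, map_intCast]

theorem sm_mul {M : ℕ} {u : ZMod M} (k : IsUnit u) (c : ℕ) (z t : ZMod M) :
    sm c c (Pi.single (u * z) 1) (u * t) = sm c c (Pi.single z 1) t := by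
  simp only [sm, mul_left_comm _ u, Pi.single_apply, k.mul_right_inj]

theorem sm_zero {M c : ℕ} (k : c.Coprime M) {z t : ZMod M} (n : ¬ IsUnit z) (u : IsUnit t) :
    sm c c (Pi.single z 1) t = 0 := by
  have e : ∀ v : ZMod M, IsUnit v → (Pi.single z 1 : ZMod M → ℤ) (v⁻¹ * t) = 0 := fun v k =>
    Pi.single_eq_of_ne (ne_of_apply_ne IsUnit fun e => n (e ▸
      (IsUnit.of_mul_eq_one _ (ZMod.inv_mul_of_unit v k)).mul u)) _
  have k := (ZMod.isUnit_iff_coprime _ _).2 k
  rw [sm, e _ k, e _ (k.mul k), Pi.single_eq_of_ne (ne_of_apply_ne IsUnit fun e => n (e ▸ u))]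
  simp

end Li

open Li

theorem gal : GAL := fun N G a A B w I x y h p γ c0 M c _ v c1 s => by
  have : NeZero (N * M) := ⟨mul_ne_zero h.pos.ne' (NeZero.ne M)⟩
  obtain ⟨β, e, q⟩ := alg h p γ v (N * M)
  let φ := ZMod.castHom (dvd_mul_left M N) (ZMod M)
  let W (z : ZMod M) (t : ZMod (N * M)) : Qb :=
    if IsUnit t then (sm c c (Pi.single z 1) (φ t) : ℤ) else 0
  refine ⟨fun z => β (W z), fun z => (e _).trans (congrArg _ (congrArg _ (funext fun n => ?_))),
    fun z n => ?_, fun g k t z => ?_⟩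
  · simp only [W, ws, apply_ite io, map_intCast, map_zero, ZMod.coe_int_isUnit_iff_isCoprime,
      Nat.cast_mul, isCoprime_comm]
  · have := e (W z)
    rw [show (fun n : ℤ => io (W z n)) = fun _ => 0 from funext fun m => by
      simp only [W]
      split_ifs with u
      · rw [sm_zero (s.cop.coprime_mul_left_right) n (u.map φ), Int.cast_zero, map_zero]
      · exact map_zero _, Ls_zero, mul_zero, mul_eq_zero, ofReal_eq_zero, or_iff_left c1] at this
    exact P027M.M.io_inj (this.trans (map_zero _).symm)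
  · obtain ⟨k', t'⟩ := Uy.ex_cyc (NeZero.pos (N * M)) g
    have f : (k' : ZMod M) = k := (ZMod.intCast_eq_intCast_iff_dvd_sub _ _ _).2
      ((Uy.cyc_congr (NeZero.pos M) (Uy.cyc_dvd (NeZero.pos _) (dvd_mul_left M N) t')).1 t)
    refine q g k' _ _ t' fun x => ?_
    simp only [W, IsUnit.mul_iff, cyc_unit (NeZero.pos _) t', true_and, map_mul, map_intCast, f,
      sm_mul (cyc_unit (NeZero.pos M) t), apply_ite g, map_zero]

end Vale.Agent.P014W
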