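import Vale.Agent.P014W.Rd0
import Vale.Agent.P004M.TE.All

/-!
# P014W: the Euler factor at two of the curve and of the form: words and rows
-/

set_option autoImplicit false
set_option linter.all false

open scoped Classical MatrixGroups Real ComplexConjugate UpperHalfPlane
open NumberField

noncomputable section

namespace Vale.Agent.P014W

open Vale.Agent.P014T
open Vale.Agent.P022 (Qb GQ)
open Vale.Agent.P022D.W (dec)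
open Vale.Agent.P004M.TE (Cv Pt pa ga al)
open P004N (RN)
open Vale.Agent.P027M.M (cv io Cyc)
open Vale.Agent.P022K.QT.Cu (E)
open Ah (Ind)
open Pu (ParY)
open Es (LL sy)
open Rk (Lw)
open Wm (Fx)
open Rc (sm Vol)
open Lc (Lg)
open Rd (Sd EVL Pq)

/-! ## words -/

/-- the values at one paired with a symbol -/
def Ls (a : ℕ → ℤ) (s : ℂ) (w : ℤ → ℂ) : ℂ :=
  Lw a (fun n => w n) * conj s - Lw a (fun n => w (-n)) * s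

/-- a good symbol -/
def Gs (N : ℕ) (γ : SL(2, ℤ)) : Prop := ¬ (N : ℤ) ∣ γ 1 0 ∧ ¬ (N : ℤ) ∣ γ 1 1

/-- a smoothing number -/
structure Sc (N M c : ℕ) : Prop where
  c24 : c ^ 2 % 24 = 1
  cop : c.Coprime (N * M)
  cN : c ≡ 1 [MOD N]

/-- the smoothed weight on the numbers prime to `N M` -/
def ws (N : ℕ) {M : ℕ} (c : ℕ) (ω : ZMod M → ℤ) (n : ℤ) : ℂ :=
  if IsCoprime n (N * M) then sm c c ω n else 0

/-- good or multiplicative reduction at two -/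
def Cs (a κ : ℤ) : Prop := κ = 1 ∧ a ^ 2 < 8 ∨ κ = 0 ∧ a ^ 2 = 1

/-- the additive twist, averaged over the part of level `m` -/
def uw {m : ℕ} (ψ : DirichletCharacter Qb m) (r : ℚ) (n : ℤ) : ℂ :=
  ∑ v ∈ Finset.range m, io (ψ v) * io (E (n * (v / m + r)))

/-- its value without the numbers which are not prime to `2 N m` -/
def Fb (N : ℕ) (a : ℕ → ℤ) (s : ℂ) {m : ℕ} (ψ : DirichletCharacter Qb m) (r : ℚ) : ℂ :=
  Ls a s fun n => if IsCoprime n (2 * N * m) then uw ψ r n else 0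

/-- a class modulo `2 ^ J` as a fraction -/
def fr {J : ℕ} (z : ZMod (2 ^ J)) : ℚ := z.val / 2 ^ J

/-- the even parts of the smoothed values are `2 - e φ + κ φ ^ 2` of a bounded function -/
def Gb (ι : Qb →+* ℂ_[2]) (N : ℕ) (a : ℕ → ℤ) (I : ℍ → ℂ) (e κ : ℤ) : Prop :=
  ∀ (γ : SL(2, ℤ)) (c0 : ℝ) (m c : ℕ) (ψ : DirichletCharacter Qb m) (X : Qb), Gs N γ →
    Vol (LL I) c0 → c0 ≠ 0 → m.Prime → ¬ m ∣ 2 * N → Sc N (2 * m) c → c ≡ 1 [MOD m] → ψ ≠ 1 →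
    ψ 2 * X = 1 → 2 - e * X + κ * X ^ 2 ≠ 0 →
    ∃ C : ℝ, ∀ J, 2 ≤ J → ∃ (f : ZMod (2 ^ J) → Qb) (g : ZMod (2 ^ J) → ℂ_[2]), ∀ z,
      io (f z) * c0 = -Complex.I * (c ^ 4 * Fb N a (sy I γ) ψ (fr z) -
        2 * c ^ 3 * Fb N a (sy I γ) ψ (fr ((c : ZMod (2 ^ J))⁻¹ * z)) +
        c ^ 2 * Fb N a (sy I γ) ψ (fr ((c * c : ZMod (2 ^ J))⁻¹ * z))) ∧
      2 * g z - e * ι X * g (2 * z) + κ * ι X ^ 2 * g (4 * z) = ι (f z + f (-z)) ∧ ‖g z‖ ≤ C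

/-- twists which do not vanish -/
def Nv (N : ℕ) (a : ℕ → ℤ) (I : ℍ → ℂ) : Prop := ∀ (T : ℕ) (Xs : Finset Qb),
  ∃ (m : ℕ) (ψ : DirichletCharacter Qb m) (γ : SL(2, ℤ)), m.Prime ∧ T < m ∧ ψ ≠ 1 ∧ ψ 2 ∉ Xs ∧
    Gs N γ ∧ Ls a (sy I γ) (uw ψ 0) ≠ 0

/-- the values are integral against equivariant families of points -/
def Rt {ι : Qb →+* ℂ_[2]} {P : Ideal (𝓞 Qb)} (_ : Ind ι P) (N : ℕ) (a : ℕ → ℤ) {A B : ℤ} (I : ℍ → ℂ)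
    (L : (Cv ℂ_[2] (A : ℚ) (B : ℚ)).Point →+ ℂ_[2]) : Prop :=
  ∀ (γ : SL(2, ℤ)) (c0 : ℝ) (M c : ℕ) [NeZero M], Gs N γ → Vol (LL I) c0 → c0 ≠ 0 → 2 ∣ M →
    Sc N M c → ∃ b : ZMod M → Qb,
      (∀ x, io (b x) * c0 = -Complex.I * Ls a (sy I γ) (ws N c (Pi.single x 1))) ∧
      ∀ R : ZMod M → Pt A B, (∀ g ∈ dec P, ∀ k, Cyc M g k → ∀ x, ga g (R x) = R (k * x)) →
        ‖∑ x, ι (b x) * L (pa ι.toRatAlgHom (R x))‖ ≤ 1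

/-! ## rows -/

/-- (A1) corestriction of the invariant, and the value of the symbol over a subgroup -/
def LOC : Prop := ∀ ι P (h : Ind ι P) (H : Subgroup GQ) (J : Type) [Fintype J] (s : J → GQ) p,
  IsOpen (H : Set GQ) → Kc.Tr (dec P) (dec P ⊓ H) s p →
  ∃ V : Sd P, V.D = dec P ⊓ H ∧ (∀ x, V.tr x = ∑ i, h.ro (s i) x) ∧ EVL h V

/-- (A2) the reciprocity law over a subgroup, read as an integrality statement -/
def RECI : Prop := ∀ N G a A B (w : ℕ) I x y ι P (h : Ind ι P) (V : Sd P), RN N G a →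
  ParY N a A B w I (cv x) (cv y) → EVL h V →
  ∀ (q : Fin 2 → ℂ_[2]) (R : Fin 2 → Pt A B) (Λ : Fin 2 → ℂ_[2]) (T : Pt A B) (k : ℕ) (u : ℂ_[2]),
    (∀ i, Pq h V.D a w x y (q i) (R i) (Λ i)) → k ≠ 0 → T ∈ Fx A B V.D → k • T = R 0 - R 1 →
    k * u = Λ 0 - Λ 1 → (∀ j : ℤ, j ≠ 0 → j • T ≠ 0) →
    ∀ γ (c0 : ℝ) (M c : ℕ) (ω : ZMod M → ℤ) (b : Qb), Gs N γ → Vol (LL I) c0 → c0 ≠ 0 → 0 < M →
      2 ∣ M → Sc N M c → (∀ g ∈ V.D, ∀ j, Cyc M g j → ∀ z, ω (j * z) = ω z) →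
      io b * c0 = -Complex.I * Ls a (sy I γ) (ws N c ω) → ‖V.tr (ι b * u)‖ ≤ 1

/-- (A3) a multiple of a point is a difference of two points of the disc -/
def PARD : Prop := ∀ N G a A B (w : ℕ) I x y ι P (h : Ind ι P) (D : Subgroup GQ) L, RN N G a →
  ParY N a A B w I (cv x) (cv y) → Lg 2 (Cv ℂ_[2] (A : ℚ) (B : ℚ)) L → D ≤ dec P →
  ∀ T ∈ Fx A B D, ∃ (q : Fin 2 → ℂ_[2]) (R : Fin 2 → Pt A B) (k : ℕ),
    (∀ i, Pq h D a w x y (q i) (R i) (L (pa ι.toRatAlgHom (R i)))) ∧ k ≠ 0 ∧ k • T = R 0 - R 1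

/-- (A4) the values are algebraic and equivariant -/
def GAL : Prop := ∀ N G a A B (w : ℕ) I x y, RN N G a → ParY N a A B w I x y →
  ∀ γ (c0 : ℝ) (M c : ℕ) [NeZero M], Vol (LL I) c0 → c0 ≠ 0 → Sc N M c → ∃ b : ZMod M → Qb,
    (∀ z, io (b z) * c0 = -Complex.I * Ls a (sy I γ) (ws N c (Pi.single z 1))) ∧
    (∀ z, ¬ IsUnit z → b z = 0) ∧ ∀ g k, Cyc M g k → ∀ z, g (b z) = b (k * z)

/-- (A) from `LOC`, `RECI`, `PARD`, `GAL` -/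
def RECT : Prop := ∀ N G a A B (w : ℕ) I x y ι P (h : Ind ι P) L, RN N G a →
  ParY N a A B w I (cv x) (cv y) → Lg 2 (Cv ℂ_[2] (A : ℚ) (B : ℚ)) L → Rt h N a I L

/-- (B) the points of the formal group and the congruence of Honda -/
def HP : Prop := ∀ A B : ℤ, 4 * (A : ℚ) ^ 3 + 27 * (B : ℚ) ^ 2 ≠ 0 →
  ¬ (al A B 2 = 0 ∧ al A B (2 ^ 2) = 0) → ∃ κ, Cs (al A B 2) κ ∧
    al A B (2 ^ 2) = al A B 2 ^ 2 - 2 * κ ∧ ∀ ι P (_ : Ind ι P) L,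
      Lg 2 (Cv ℂ_[2] (A : ℚ) (B : ℚ)) L → ∃ (u : ℂ_[2]) (pt : Qb → Pt A B), u ≠ 0 ∧ pt 0 = 0 ∧
        (∀ t, ‖ι t‖ < 1 → ∀ g ∈ dec P, ga g (pt t) = pt (g t)) ∧
        ∀ (ω : Qb) (n : ℕ), ‖ι ω‖ ≤ 1 → 2 ≤ n → ∃ γ : ℕ → ℂ_[2], (∀ k, ‖γ k‖ ≤ 1) ∧
          (∀ k < n, γ k = 0) ∧ ‖γ n - ι ω‖ ≤ ‖(2 : ℂ_[2])‖ ∧ ∀ ξ : Qb, ‖ι ξ‖ < 1 →
            HasSum (fun k => u * (2 * (γ k * ι ξ ^ k)))
              (2 * L (pa ι.toRatAlgHom (pt (ω * ξ ^ n))) -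
                al A B 2 * L (pa ι.toRatAlgHom (pt (ω ^ 2 * ((1 + ξ) ^ 2 - 1) ^ n))) +
                κ * L (pa ι.toRatAlgHom (pt (ω ^ 4 * ((1 + ξ) ^ 4 - 1) ^ n))))

/-- (G) from `RECT`, `HP` and the spanning lemma -/
def GB : Prop := ∀ N G a A B (w : ℕ) I x y, RN N G a → ParY N a A B w I (cv x) (cv y) →
  ¬ (al A B 2 = 0 ∧ al A B (2 ^ 2) = 0) → ∃ ι κ, Cs (al A B 2) κ ∧
    al A B (2 ^ 2) = al A B 2 ^ 2 - 2 * κ ∧ Gb ι N a I (al A B 2) κ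

/-- (D) the functional equation along the tower -/
def KEY : Prop := ∀ N G a A B (w : ℕ) I x y ι (e κ : ℤ), RN N G a → ParY N a A B w I x y →
  Cs e κ → Gb ι N a I e κ → Nv N a I → a 2 = e ∧ a (2 ^ 2) = e ^ 2 - 2 * κ

/-- (E) -/
def NVX : Prop := ∀ N G a A B (w : ℕ) I x y, RN N G a → ParY N a A B w I x y → Nv N a I

/-- **the target** (the text of `P014U.Tq.Cm A B 2 a`) -/
def LG2 : Prop := ∀ N G a A B (w : ℕ) I x y, RN N G a → ParY N a A B w I (cv x) (cv y) →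
  al A B 2 = 0 ∧ al A B (2 ^ 2) = 0 ∨ a 2 = al A B 2 ∧ a (2 ^ 2) = al A B (2 ^ 2)

theorem lg2_of (g : GB) (k : KEY) (n : NVX) : LG2 := fun N G a A B w I x y r p =>
  or_iff_not_imp_left.2 fun c =>
    let ⟨ι, κ, s, e, b⟩ := g N G a A B w I x y r p c
    e ▸ k N G a A B w I _ _ ι _ κ r p s b (n N G a A B w I _ _ r p)

end Vale.Agent.P014W
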