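import Vale.Agent.P014W.Rd3
import Vale.Agent.P014W.St
import Vale.Agent.P027M.M.CAll

/-!
# P014W, row LOC: the value of the symbol of two Siegel units over a subgroup
-/

set_option autoImplicit false
set_option linter.all false

open scoped Classical MatrixGroups
open CongruenceSubgroup NumberField Finset Topology Filter

noncomputable section

namespace Vale.Agent.P014W.Rd

open Vale.Agent.P022 (Qb GQ)
open Vale.Agent.P022D.W (dec)
open Vale.Agent.P004S.Ga (K O)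
open Vale.Agent.P004S.Aq (cy O_of O_mul O_cy)
open Vale.Agent.P004F.Rc (mq hn hn_mul O_nat)
open Vale.Agent.P027M.M (Mdl Cyc serg)
open Vale.Agent.P022K.QT.Cu (E)
open P014T P014T.Rc
open Ah Sy Sy.Fd
open Kc (Tr)
open Sb (Gd Lm)
open Rk (E1)
open Rc.Fv (lz zt_lz kz z_prim)

variable {ι : Qb →+* ℂ_[2]} {P : Ideal (𝓞 Qb)} (H : Ind ι P) {g : GQ} {l c : ℕ} [NeZero l] {k : ℤ}
  {t f : ℂ_[2]}

theorem lm_map (g : GQ) (h : Gd t) (F : PowerSeries ℂ_[2]) :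
    H.ro g (Lm t F) = Lm (H.ro g t) (PowerSeries.map (H.ro g) F) := by
  rw [Lm, Lm, map_add, map_mul, (Sb.Lg_map two_C _ (H.ro_nrm g) h).2,
    (H.ro_iso g).isClosedEmbedding.map_tsum]
  simp only [PowerSeries.coeff_map, map_div₀, map_mul, map_pow, map_natCast]

theorem ro_z (hg : g ∈ dec P) (y : Cyc l g k) (b : ZMod l) :
    H.ro g (ι (E (1 / l))) ^ b.val = ι (E (1 / l)) ^ (k * b).val := by
  rw [← Rc.Fv.zt, Rc.Fv.zt_mul, ← kz H hg y,
    zt_lz (by rw [← map_pow, z_prim.pow_eq_one, map_one])]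

theorem es_map (hg : g ∈ dec P) (y : Cyc l g k) (v : ZMod l × ZMod l) :
    PowerSeries.map (H.ro g) (Es c l (ι (E (1 / l))) v) = Es c l (ι (E (1 / l))) (v.1, k * v.2) := by
  have e (v : ZMod l × ZMod l) : E1 l (H.ro g (ι (E (1 / l)))) v =
      E1 l (ι (E (1 / l))) (v.1, k * v.2) := by
    simp only [E1, pow_mul, ro_z H hg y, mul_neg]
  simp only [Es, map_sub, map_mul, map_natCast, Rk.E1_map, e, mul_left_comm (k : ZMod l)]

theorem vf_ro (hg : g ∈ dec P) (y : Cyc l g k) (hc : c ^ 2 % 24 = 1) (cl : c.Coprime l)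
    {v : ZMod l × ZMod l} (v0 : v.1 ≠ 0) (ht : ‖t‖ < 1) (e : Dc.Vf ι l t (Sg.sF c (rw l v)) f) :
    Dc.Vf ι l (H.ro g t) (Sg.sF c (rw l (v.1, k * v.2))) (H.ro g f) := by
  obtain ⟨X⟩ := P027M.M.mdl
  have l0 := NeZero.pos l
  have lq : (l : ℚ) ≠ 0 := Nat.cast_ne_zero.2 l0.ne'
  have n := Sb.nz_row (c := c) (((ZMod.isUnit_iff_coprime c l).2 cl).mul_right_eq_zero.not.2 v0)
    ((v.2.val : ℚ) / l)
  have d : ∀ i, ∃ j : ℤ, l * (![(v.1.val : ℚ) / l, (v.2.val : ℚ) / l] : Fin 2 → ℚ) i = j :=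
    Fin.forall_fin_two.2 ⟨⟨v.1.val, mul_div_cancel₀ _ lq⟩, v.2.val, mul_div_cancel₀ _ lq⟩
  have := (Dc.vf_gal X l0 (H.ro g) (H.ro_nrm g) (H.ro_emb hg)
    (Dc.lf_of_mem l0 (Dc.T_mem l) (Sg.sF_Gamma hc n d)) ht).2 e
  obtain ⟨j, hj⟩ := (ZMod.intCast_eq_intCast_iff_dvd_sub ((k * v.2).val) (k * v.2.val) l).1 (by simp)
  rwa [Sg.sF_gal hc X n l0 d y, Sg.sF_congr hc (w := rw l (v.1, k * v.2))
    (Fin.forall_fin_two.2 ⟨⟨0, (add_zero _).symm.trans (by rw [Int.cast_zero]; rfl)⟩, j, ?_⟩)] at this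
  have e2 := congrArg (Int.cast (R := ℚ)) hj
  show (k : ℚ) * (v.2.val / l) = (k * v.2).val / l + j
  push_cast at e2
  field_simp
  linear_combination e2

variable {D' : Subgroup GQ} {X : Type} [Fintype X] {r : X → GQ} {p : GQ → X → X}

/-- **the value of the symbol over a subgroup** -/
theorem evl_sd (t : Tr (dec P) D' r p) (o : (D' : Set GQ) ∈ 𝓝[dec P] (1 : GQ)) :
    EVL H (sd H t o) := by
  intro M n l hl n0 M0 M2
  obtain ⟨e, oe, he⟩ := Rc.evl ι P H M n l hl n0 M0 M2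
  have l0 : 0 < l := hl ▸ by positivity
  have : NeZero l := ⟨l0.ne'⟩
  have d2 : 2 ^ n ∣ l := hl ▸ dvd_mul_left _ _
  choose k kc ky using fun i => (serg l l0 (r i)).1
  refine ⟨e, oe, fun c d Y α S τ W v v' u f g hc hd cl dl ds tw hf hg q1 q2 q3 iv pt => ?_⟩
  have z {v : Y → ZMod l × ZMod l} (q : (fun y => ι (E (1 / l)) ^ (v y).2.val * u y ^ (v y).1.val) ∈
      (fd H (sd H t o)).G α S) := G_congr (F := H.fd) (ia_ds t o ds) (up_G q)
    (a' := fun x => ι (E (1 / l)) ^ (k x.1 * (v x.2).2).val * up r H u x ^ (v x.2).1.val)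
    fun x _ => by simp only [up, map_mul, map_pow, ro_z H (t.mem _) (ky _)]
  obtain ⟨θ, e1, e2⟩ := he c d _ (ia r p α) (univ ×ˢ S) (fun x => τ x.2 * (cy (r x.1))⁻¹)
    (fun x => W x.2) (fun x => ((v x.2).1, k x.1 * (v x.2).2))
    (fun x => ((v' x.2).1, k x.1 * (v' x.2).2)) (up r H u) (up r H f) (up r H g) hc hd cl dl
    (ia_ds t o ds) (ia_tw t tw) (up_G hf) (up_G hg)
    (G_congr (F := H.fd) (ia_ds t o ds) (up_G q1) fun x _ => (map_pow _ _ _).symm) (z q2) (z q3)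
    (fun j hj x m => iv _ (t.ta_mem hj _) _ (mem_product.1 m).2) fun x m => by
      obtain ⟨a1, a2, a3, a4, a5, a6, a7, a8⟩ := pt _ (mem_product.1 m).2
      have e : (v x.2).1 * (k x.1 * (v' x.2).2) - k x.1 * (v x.2).2 * (v' x.2).1 =
          k x.1 * ((v x.2).1 * (v' x.2).2 - (v x.2).2 * (v' x.2).1) := by ring
      refine ⟨(H.ro_nrm _ _).trans_lt a1, (Sb.Lg_map two_C _ (H.ro_nrm _) a2).1, a3, a4,
        e ▸ ((ZMod.coe_int_isUnit_iff_isCoprime _ _).2 (kc _).symm).mul a5, ?_,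
        vf_ro H (t.mem _) (ky _) hc cl a3 a1 a7, vf_ro H (t.mem _) (ky _) hd dl a4 a1 a8⟩
      simp only [e]
      generalize (v x.2).1 * (v' x.2).2 - (v x.2).2 * (v' x.2).1 = δ at a6 ⊢
      obtain ⟨j, hj⟩ := (Int.natCast_dvd_natCast.2 d2).trans
        ((ZMod.intCast_eq_intCast_iff_dvd_sub (k x.1 * δ.val) (k x.1 * δ).val l).1 (by simp))
      have e3 := congrArg (Int.cast (R := K)) hj
      refine O_of (add_mem a6 (O_mul (O_mul (tw.mem _ (mem_product.1 m).2) (Rc.Fv.O_cyi (r x.1)))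
        (sub_mem (O_z j) (O_mul (O_nat δ.val) (Sb.cyk l0 d2 (ky x.1)))))) ?_
      have := Rc.Fv.cy0 (r x.1)
      push_cast at e3
      field_simp
      linear_combination τ x.2 * (hn n * e3 + j * hn_mul n)
  refine ⟨θ, ?_, (congrArg _ (sym_ind ds tw hf hg)).trans e2⟩
  rw [e1, sd_tr, sum_product]
  refine sum_congr rfl fun i _ => ?_
  rw [map_sum]
  refine sum_congr rfl fun y m => ?_
  rw [map_mul, map_intCast, lm_map H _ (pt y m).2.1, map_mul, es_map H (t.mem i) (ky i),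
    es_map H (t.mem i) (ky i), up]

end Rd

/-- **row LOC** -/
theorem loc : LOC := fun _ P h H _ _ _ _ o t =>
  have o' : ((P022D.W.dec P ⊓ H : Subgroup P022.GQ) : Set P022.GQ) ∈ 𝓝[P022D.W.dec P] 1 :=
    inter_mem self_mem_nhdsWithin (mem_nhdsWithin_of_mem_nhds (o.mem_nhds (one_mem H)))
  ⟨⟨_, t.le, _, (Rd.sd h t o').iv, (Rd.sd h t o').tr⟩, rfl, Rd.sd_tr h t o', Rd.evl_sd h t o'⟩

end Vale.Agent.P014W
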