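import Vale.Agent.P014W.Rd1
import Vale.Agent.P014T.Rc.Mt
import Vale.Agent.P014T.Rc.Hk
import Vale.Agent.P014T.Rc.Lh
import Vale.Agent.P014T.Rc.Val
import Vale.Agent.P014T.Rc.Abq

/-!
# P014W, block A2: the explicit reciprocity law over a subgroup of the decomposition group
-/

set_option autoImplicit false
set_option linter.all false

open scoped Classical MatrixGroups Real ComplexConjugate UpperHalfPlane
open CongruenceSubgroup NumberField PowerSeries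

noncomputable section

namespace Vale.Agent.P014W.Rd

open Vale.Agent.P022 (Qb GQ)
open Vale.Agent.P004S.Ga (K O)
open Vale.Agent.P004F.Rc (mq hn)
open Vale.Agent.P004M.TE (Pt)
open Vale.Agent.P027M.M (Mdl FF L cv io Lv Cyc L_mono x_galx)
open P014T P014T.Rc
open Ah (Ind am AA)
open Dc (Vf jv)
open Sg (sF Nz)
open Sb (Gd Lm)
open Wm (Fx)

theorem tr_mul (φ : ℂ_[2] →+ ℂ_[2]) (r : ℚ) (x : ℂ_[2]) : φ (r * x) = r * φ x := by
  simpa only [Rat.smul_def] using map_rat_smul φ r x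

/-- **the explicit reciprocity law over `D`** -/
theorem recd : RECD Ev.Kz := by
  intro X N G a A B w I x y hD ι P h V q R Λ r p evl hq nt
  obtain ⟨S, Q, m, NS, Q0, pj, vol, ab⟩ := abq N G a A B w I x y r p
  obtain ⟨xm, ym, gal⟩ := (ga X).2 N a A B w I x y p
  obtain ⟨mt1, mt2⟩ := Rc.mt pt ι 1 N (Gamma0 N) one_pos r.pos (g_le dvd_rfl)
    (by rw [pow_one, Gamma0_mem]; simp [ModularGroup.T])
  have q0 := fun i => (hq i).ne
  have q1 := fun i => (hq i).lt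
  have qa := fun i => (hq i).aa
  have qg := fun i => (hq i).gd
  have qj := fun i => (hq i).alg
  have qf := fun i => (hq i).fx
  have qv := fun i => (hq i).val
  have ql := fun i => (hq i).lg
  choose τ hτ using fun i => (qj i).elim fun b e => mt1 (q i) b (q0 i) (q1 i) (by rwa [pow_one])
  have ob (i u z) (s : Sm ι 1 (Gamma0 N) u z) : orb N (τ i) z = Finsupp.single (q i) (1 : ℤ) u := by
    rw [orb, Finsupp.single_apply]
    refine if_congr (((mt2 _ _ (hτ i)).2.1 z).symm.trans ⟨fun k => ?_, fun k => k ▸ s⟩) rfl rfl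
    simpa using (mt2 _ _ s).2.2 _ k
  set μ0 : ℂ_[2] →₀ ℤ := Finsupp.single (q 0) 1 - Finsupp.single (q 1) 1 with hμ0
  have rp0 : Rp ι N μ0 (orb N (τ 0) - orb N (τ 1)) := by
    refine ⟨fun u k => (mem_two k).elim (fun e => ⟨_, e ▸ hτ 0⟩) fun e => ⟨_, e ▸ hτ 1⟩,
      fun u z s => by rw [Pi.sub_apply, ob 0 u z s, ob 1 u z s]; rfl, fun z k => ?_⟩
    by_contra! c
    have (i : Fin 2) : orb N (τ i) z = 0 := if_neg fun e => c _ (((mt2 _ _ (hτ i)).2.1 z).2 e)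
    exact k (by rw [Pi.sub_apply, this, this, sub_self])
  have ok0 : Ok μ0 := fun u k => (mem_two k).elim (fun e => e ▸ ⟨q0 0, q1 0, qa 0, qg 0⟩)
    fun e => e ▸ ⟨q0 1, q1 1, qa 1, qg 1⟩
  have iq0 : Iq h V.D μ0 := fun g hg u => by
    have (i : Fin 2) : Finsupp.single (q i) (1 : ℤ) (h.ro g u) = Finsupp.single (q i) (1 : ℤ) u := by
      rw [Finsupp.single_apply, Finsupp.single_apply]
      exact if_congr (by rw [← (h.ro g).injective.eq_iff (a := q i) (b := u), qf i g hg]) rfl rfl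
    rw [hμ0, Finsupp.sub_apply, this, this, Finsupp.sub_apply]
  obtain ⟨n1, rp1, e1⟩ := hk (Rc.mt pt) ι N S Q μ0 _ r.pos NS rp0
  obtain ⟨ok1, -, lh1⟩ := lh.1 S Q μ0 ok0
  have pv (i : Fin 2) : Pv x y (τ i) (R i) :=
    let ⟨c, d, k, e, u, v⟩ := qv i
    ⟨c, d, k, e, ((hτ i).val x xm c).1 u, ((hτ i).val y ym d).1 v⟩
  obtain ⟨k, k0, hj⟩ := ab (τ 0) (τ 1) _ _ n1 (mt2 _ _ (hτ 0)).1 (mt2 _ _ (hτ 1)).1 (pv 0) (pv 1) e1
  have kq : (k * ev a Q : ℤ) ≠ 0 := mul_ne_zero (Nat.cast_ne_zero.2 k0.ne') Q0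
  set R0 : Pt A B := (k * ev a Q) • (R 0 - R 1) with hR0
  have mR : R0 ∈ Fx A B V.D := zsmul_mem (sub_mem (hq 0).mem (hq 1).mem) _
  have t0 (j : ℕ) (hj : j ≠ 0) : j • R0 ≠ 0 := by
    rw [hR0, ← natCast_zsmul, smul_smul]
    exact nt _ (mul_ne_zero (Nat.cast_ne_zero.2 hj) kq)
  have t1 : 2 • (R0 + R0) ≠ 0 := by
    rw [← two_nsmul, ← mul_nsmul]
    exact t0 _ (by norm_num)
  obtain ⟨f, hf⟩ := hj R0 R0 rfl (t0 2 two_ne_zero) t1
  refine ⟨k * ev a Q, kq, fun M n l el n0 M0 M2 Nl => ?_⟩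
  have lv : Lv l := ⟨by rw [el]; positivity, by
    rw [el]
    exact mul_dvd_mul M2 (dvd_pow_self 2 n0.ne')⟩
  haveI : NeZero l := ⟨lv.pos.ne'⟩
  haveI := Dc.cff (Gamma l) inferInstance
  obtain ⟨σ, hσ⟩ := (ga X).1 l lv
  have le := L_mono (g_le Nl)
  obtain ⟨e, oe, he⟩ := evq X N G a A B w I l n ⟨x, le xm⟩ ⟨y, le ym⟩ hD σ r p Nl lv
    (el ▸ dvd_mul_left _ _) hσ
  obtain ⟨e', oe', he'⟩ := fev X ι P h V evl M n l el n0 M2
  refine ⟨e * e', oe.mul oe', fun c d γ z ad kz J _ s pp κ ω R' c0 wt hR' hc0 => ?_⟩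
  have rp := rp1.smul (k * m)
  have iq : Iq h V.D ((k * m : ℤ) • Hq Q μ0) := fun g hg u =>
    congrArg (_ * ·) (Lh.iq (h.ro g) Q μ0 (iq0 g hg) u)
  have ok : Ok ((k * m : ℤ) • Hq Q μ0) := fun u j => ok1 u (Finsupp.support_smul j)
  obtain ⟨Av, av, hf'⟩ := plq X ι P h V.D V.le N l σ A B ⟨x, le xm⟩ ⟨y, le ym⟩ ⟨f, le hf.mem⟩ R0 R0 _ _ lv Nl
    hσ gal mR mR rp iq hf
  obtain ⟨zn, v0⟩ := he ⟨_, ad.mem0 lv.pos Nl⟩ ⟨_, ad.mem1 lv.pos Nl⟩ z kz ι P h V J s pp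
    (fun i => ω (κ i)) wt.tr wt.inv _ _ R' _ Av mR mR (t0 2 two_ne_zero) t1 hR' hf'
  choose t ht using fun u : ℂ_[2] => IsAlgClosed.exists_pow_nat_eq u lv.pos
  obtain ⟨θ, eθ, sθ⟩ := he' σ N c d γ ⟨_, ad.mem0 lv.pos Nl⟩ ⟨_, ad.mem1 lv.pos Nl⟩ J s pp κ ω _ Av
    t e hσ Nl ad rfl rfl wt ok iq
    (fun u j => (rp.ex u j).elim fun _ s => by simpa using s.alg) av fun u _ => ht u
  obtain ⟨v1, v2, κ0, v3, v4⟩ := Rc.val ι N G a A B w I _ _ S l Q c d γ ω r p NS Nl pj ad wt.un _ rfl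
  have lC {F : Type} [Field F] [CharZero F] : (l : F) ≠ 0 := Nat.cast_ne_zero.2 lv.pos.ne'
  have wC {F : Type} [Field F] [CharZero F] : (w : F) ≠ 0 := Nat.cast_ne_zero.2 p.wpos.ne'
  have QC {F : Type} [Field F] [CharZero F] : (ev a Q : F) ≠ 0 := Int.cast_ne_zero.2 Q0
  refine ⟨κ0 * m * w / (ev a Q * l ^ 2), θ / (l * (k * ev a Q : ℤ)), ?_, ?_, zn, ?_⟩
  · have (i : Fin 2) : Lm (q i) (PowerSeries.mk fun n => ι κ0 * a n) = ι κ0 * (w * Λ i) := by
      rw [ql, ← Sb.Lm_C]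
      congr 1
      ext j
      simp
    rw [sum_smul, Finset.sum_congr rfl fun u j => by
      rw [lh.2 l (t u) _ lv.pos (by
          have := (ok1 u j).2.1
          rw [← ht u, norm_pow] at this
          exact lt_of_pow_lt_pow_left₀ l zero_le_one (by rwa [one_pow]))
        ((ht u).symm ▸ (ok1 u j).2.2.2) v2 v1, ht, ← mul_div_assoc], ← Finset.sum_div,
      lh1 _ (v2.imp fun _ b j => b _), v3, sum_two, this, this] at eθ
    have k2 : (k : ℂ_[2]) ≠ 0 := Nat.cast_ne_zero.2 k0.ne'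
    have := lC (F := ℂ_[2])
    have := QC (F := ℂ_[2])
    rw [map_div₀, eθ, div_eq_iff ((map_ne_zero am).2 (mul_ne_zero lC (Int.cast_ne_zero.2 kq))),
      mul_comm (V.tr _),
      show am (l * (k * ev a Q : ℤ)) = ((l * (k * ev a Q) : ℚ) : ℂ_[2]) by simp, ← tr_mul]
    congr 1
    simp only [map_div₀, map_mul, map_natCast, map_intCast, map_pow]
    push_cast
    field_simp
  · have v5 := vol c0 hc0
    have := lC (F := ℂ)
    have := QC (F := ℂ)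
    have := wC (F := ℂ)
    have : (π : ℂ) ≠ 0 := Complex.ofReal_ne_zero.2 Real.pi_ne_zero
    simp only [map_div₀, map_mul, map_natCast, map_intCast, map_pow]
    field_simp at v4 ⊢
    refine mul_left_cancel₀ wC ?_
    linear_combination io κ0 * v5 + v4
  · rw [v0, sθ]
    congr 1
    have : (M : K) ≠ 0 := Nat.cast_ne_zero.2 M0.ne'
    have : (k : K) ≠ 0 := Nat.cast_ne_zero.2 k0.ne'
    have := QC (F := K)
    rw [el, hn, show (4 : K) ^ n = 2 ^ n * 2 ^ n by rw [← mul_pow]; norm_num]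
    push_cast
    field_simp

end Vale.Agent.P014W.Rd
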