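import Vale.Agent.P014W.St
import Vale.Agent.P014W.Rd2
import Vale.Agent.P014T.Ct.Zx
import Vale.Agent.P014T.Sb.Cnt

/-! # P014W: the reciprocity law read as an integrality statement -/

set_option autoImplicit false
set_option linter.all false

open scoped Classical MatrixGroups
open NumberField

noncomputable section

namespace Vale.Agent.P014W

open Vale.Agent.P014T
open Vale.Agent.P022 (Qb GQ)
open Vale.Agent.P004S.Ga (K O mem_O)
open Vale.Agent.P004F.Rc (mq hn mq_zero O_nat)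
open Vale.Agent.P004M.TE (Pt ga)
open Vale.Agent.P027M.M (Cyc)
open Vale.Agent.P022K.QT.Cu (E)
open Ah (am)
open Cp (Zn cp)
open Rc (sm)
open Rd (Sd)

theorem ex_tg {G : Type} [Group G] (Γ H : Subgroup G) [H.FiniteIndex] : ∃ (J : Type) (_ : Fintype J)
    (s : J → G) (p : G → J → J), Nonempty J ∧ Kc.Tr Γ (Γ ⊓ H) s p := by
  obtain ⟨p, t⟩ := Kc.Tr.of (Γ := Γ) (Γ' := Γ ⊓ H) (r := fun i : Γ ⧸ H.subgroupOf Γ => (i.out : Γ))
    inf_le_left (fun i => i.out.2)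
    (fun x hx => ⟨QuotientGroup.mk ⟨x, hx⟩, Γ.mul_mem (Γ.inv_mem (Subtype.prop _)) hx,
      (QuotientGroup.eq (s := H.subgroupOf Γ)).1 (QuotientGroup.out_eq' (QuotientGroup.mk ⟨x, hx⟩))⟩)
    fun i j k => by
      rw [← QuotientGroup.out_eq' i, ← QuotientGroup.out_eq' j]
      exact QuotientGroup.eq.2 k.2
  exact ⟨_, Fintype.ofFinite _, _, p, ⟨QuotientGroup.mk 1⟩, t⟩

theorem ex_tv (Γ H : Subgroup GQ) (o : IsOpen (H : Set GQ)) : ∃ (J : Type) (_ : Fintype J)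
    (s : J → GQ) (p : GQ → J → J), Nonempty J ∧ Kc.Tr Γ (Γ ⊓ H) s p :=
  have := H.quotient_finite_of_isOpen o
  have : H.FiniteIndex := Subgroup.finiteIndex_of_finite_quotient
  ex_tg Γ H

theorem ex_cyc {l : ℕ} (hl : 0 < l) (g : GQ) : ∃ k, Cyc l g k :=
  (P027M.M.serg l hl g).1.imp fun _ h => h.2

theorem cyc_dvd {l M : ℕ} (hl : 0 < l) (d : M ∣ l) {g : GQ} {k : ℤ} (h : Cyc l g k) : Cyc M g k := by
  obtain ⟨j, rfl⟩ := d
  have : (M : ℚ) ≠ 0 := Nat.cast_ne_zero.2 (Nat.pos_of_mul_pos_right hl).ne'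
  rw [Sb.cyc_E, Sg.gal_E h hl ⟨j, by push_cast; field_simp⟩, mul_one_div]

theorem kill {A B : ℤ} {w : ℕ → Pt A B → Pt A B → K} (H : Ki.Pr (M := Pt A B) ga w)
    {P : Ideal (𝓞 Qb)} (V : Sd P) {n m : ℕ} {a b : GQ → Pt A B} (p : Zn V.D n a) (q : Zn V.D n b)
    (t : ∀ g ∈ V.D, m • a g = 0) : m • V.i (cp w n a b) = 0 := by
  have z := Cp.cp_z2 H p q
  rw [← V.iv.nat z m]
  refine V.iv.cob _ (Sy.z2_smul z (O_nat m)) (Sy.b2_of fun g hg h hh => mq_zero.1 ?_)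
  have u := Ki.tor_map (ρ := ga) (q.tr h hh) g
  have (j : ℕ) : mq (w n (j • a g) (ga g (b h))) = j • mq (w n (a g) (ga g (b h))) := by
    induction j with
    | zero => rw [zero_nsmul, zero_nsmul, H.zl u]
    | succ j ih =>
      rw [succ_nsmul, succ_nsmul, H.addl (by rw [smul_comm, p.tr g hg, nsmul_zero]) (p.tr g hg) u, ih]
  rw [← nsmul_eq_mul, map_nsmul, cp, ← this, t g hg, H.zl u]

theorem ex_odd {k : ℤ} (h : k ≠ 0) : ∃ (j : ℕ) (u : ℤ), Odd u ∧ k = 2 ^ j * u := by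
  obtain ⟨j, m, o, e⟩ := Nat.exists_eq_two_pow_mul_odd (Int.natAbs_ne_zero.2 h)
  rcases Int.natAbs_eq k with c | c
  · exact ⟨j, m, o.natCast, by rw [c, e]; push_cast; rfl⟩
  · exact ⟨j, -m, o.natCast.neg, by rw [c, e]; push_cast; ring⟩

theorem nrm_oddz {u : ℤ} (o : Odd u) : ‖(u : ℂ_[2])‖ = 1 := by
  rw [← Ah.nrm_odd Ah.two_lt (Int.natAbs_odd.2 o)]
  rcases Int.natAbs_eq u with c | c <;> (conv_lhs => rw [c]) <;> simp

/-- the weight on a higher level -/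
def up {M l : ℕ} (d : M ∣ l) (ω : ZMod M → ℤ) (x : ZMod l) : ℤ :=
  if IsUnit x then ω (ZMod.castHom d (ZMod M) x) else 0

theorem cast_inv {M l : ℕ} (d : M ∣ l) {x : ZMod l} (h : IsUnit x) :
    ZMod.castHom d (ZMod M) x⁻¹ = (ZMod.castHom d (ZMod M) x)⁻¹ :=
  (ZMod.inv_eq_of_mul_eq_one _ _ _ (by rw [← map_mul, ZMod.mul_inv_of_unit _ h, map_one])).symm

theorem unit_inv {l : ℕ} {x : ZMod l} (h : IsUnit x) : IsUnit x⁻¹ :=
  .of_mul_eq_one x (ZMod.inv_mul_of_unit _ h)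

theorem unit_mul {l : ℕ} {x : ZMod l} (h : IsUnit x) (y : ZMod l) : IsUnit (x * y) ↔ IsUnit y :=
  IsUnit.mul_iff.trans (and_iff_right h)

theorem sm_up {M l N c : ℕ} (d : M ∣ l) (hc : c.Coprime l)
    (e : ∀ n : ℤ, IsCoprime n l ↔ IsCoprime n (N * M)) (ω : ZMod M → ℤ) (n : ℤ) :
    (sm c c (up d ω) n : ℂ) = ws N c ω n := by
  have u : IsUnit (c : ZMod l) := (ZMod.isUnit_iff_coprime c l).2 hc
  have k : IsUnit (n : ZMod l) ↔ IsCoprime n (N * M) := by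
    rw [ZMod.coe_int_isUnit_iff_isCoprime, isCoprime_comm, e]
  simp only [ws, sm, up, unit_mul (unit_inv u), unit_mul (unit_inv (u.mul u)), k]
  split_ifs
  · simp only [map_mul, cast_inv d u, cast_inv d (u.mul u), map_natCast, map_intCast]
  · simp

theorem reci : RECI := by
  intro N G a A B w I x y ι P h V r p ev q R Λ T k u hq k0 mT eT eu nt γ c0 M c ω b gs vol c1 M0 M2
    sc iv eb
  obtain ⟨X⟩ := P027M.M.mdl
  have hD := P004F.hq p.disc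
  obtain ⟨κ, κ0, H⟩ := Rd.recd X N G a A B w I x y hD ι P h V q R Λ r p ev hq fun j j0 => by
    rw [← eT, ← natCast_zsmul, ← mul_zsmul]
    exact nt _ (mul_ne_zero j0 (Nat.cast_ne_zero.2 k0))
  obtain ⟨j, o, oo, eo⟩ := ex_odd (mul_ne_zero κ0 (Nat.cast_ne_zero.2 k0 : (k : ℤ) ≠ 0))
  obtain ⟨l, el⟩ : ∃ l, l = N * M * 4 * 2 ^ (j + 2) := ⟨_, rfl⟩
  have N0 := r.pos
  have l0 : 0 < l := by rw [el]; positivity
  have Ml : M ∣ l := ⟨N * 4 * 2 ^ (j + 2), by rw [el]; ring⟩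
  have Nl : N ∣ l := ⟨M * 4 * 2 ^ (j + 2), by rw [el]; ring⟩
  have cp' (n : ℤ) : IsCoprime n l ↔ IsCoprime n (N * M) := by
    obtain ⟨m, rfl⟩ := M2
    rw [el]
    push_cast
    simp only [IsCoprime.mul_right_iff]
    exact ⟨fun t => t.1.1, fun t => ⟨⟨t, t.2.1.pow_right (n := 2)⟩, t.2.1.pow_right⟩⟩
  have cl : c.Coprime l := Nat.isCoprime_iff_coprime.1 ((cp' c).2 (by
    exact_mod_cast Nat.isCoprime_iff_coprime.2 sc.cop))
  obtain ⟨e, oe, H⟩ := H (N * M * 4) (j + 2) l el (by omega) (by positivity) ⟨N * M * 2, by ring⟩ Nl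
  obtain ⟨z, -, -, kz⟩ := Ct.Zx.ex0 (Ct.Zx.cx X r p (n := j + 2) (L := l) (Y := (γ⁻¹ : SL(2, ℤ)))
    sc.c24 sc.c24 l0.ne' ⟨N * M, by rw [el]; ring⟩ Nl
    (by rw [Matrix.SpecialLinearGroup.det_coe]; decide))
  obtain ⟨J, _, s, pp, ne, tr⟩ := ex_tv ⊤ _ (Dr.Hm_open l0.ne')
  rw [top_inf_eq] at tr
  choose κ' hκ using fun i => ex_cyc l0 (s i)
  obtain ⟨T', eT'⟩ := (Ki.pr hD).dvp 2 (o • T)
  have mT' : 2 ^ 2 • T' ∈ Wm.Fx A B V.D := eT' ▸ zsmul_mem mT o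
  obtain ⟨b', θ, e1, e2, zn, e3⟩ := H c c γ _ ⟨sc.c24, sc.c24, cl, cl, sc.cN, sc.cN, gs.1, gs.2⟩
    (Ct.Zx.kz_of X r p l0.ne' kz) J s pp κ' (up Ml ω) T' c0
    ⟨ne, tr, hκ, fun x m => by_contra fun t => m (if_neg t), fun g hg i => by
      obtain ⟨t, ht⟩ := ex_cyc l0 g
      have : IsUnit (t : ZMod l) :=
        (ZMod.coe_int_isUnit_iff_isCoprime _ _).2 (Sb.cyc_cop l0 ht).symm
      simp only [Sb.wt_act l0 tr hκ ht, up, unit_mul this, map_mul, map_intCast,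
        iv g hg t (cyc_dvd l0 Ml ht)]⟩
    (by rw [pow_add, mul_smul, eT', ← eT, ← natCast_zsmul, ← natCast_zsmul T, ← mul_zsmul,
      ← mul_zsmul, eo]; push_cast; rfl) vol
  obtain rfl : b' = b := P027M.M.io_inj (mul_right_cancel₀ (Complex.ofReal_ne_zero.2 c1) (by
    rw [e2, eb, Ls]
    simp only [← sm_up Ml cl cp', Int.cast_neg, Int.cast_natCast]))
  rw [kill (Ki.pr hD) V (m := 4) (a := Bt.dd A B T') ((Cp.zn_dd mT').up j |> (add_comm 2 j ▸ ·)) zn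
    fun g m => Ki.tor (n := 2) mT' m, eq_comm, mq_zero, mem_O, ← Ah.nrm_am] at e3
  have e4 : (κ * k : ℂ_[2]) = 2 ^ j * o := by exact_mod_cast eo
  have e5 : am (2 * e * hn (j + 2) * κ * θ) * 2 = e * o * V.tr (ι b' * u) := by
    have := Rd.tr_mul V.tr k (ι b' * u)
    rw [Rat.cast_natCast, mul_left_comm, eu, mul_comm] at this
    simp only [map_mul, e1, this, hn, map_inv₀, map_pow, map_ofNat, map_intCast]
    field_simp
    linear_combination (e * V.tr (ι b' * u) * 2 ^ 2) * e4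
  have := congrArg (‖·‖) e5
  simp only [norm_mul (am _), norm_mul (_ : ℂ_[2]) (V.tr _), norm_mul (e : ℂ_[2]), nrm_oddz oe,
    nrm_oddz oo, one_mul] at this
  rw [← this]
  exact mul_le_one₀ e3 (norm_nonneg _) Ah.two_lt.le

end Vale.Agent.P014W
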