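import Vale.Agent.P014W.Rect
import Vale.Agent.P014W.Reci
import Vale.Agent.P014W.Loc
import Vale.Agent.P014W.Gal

/-! # P014W: the integrality of the values against equivariant families of points -/

set_option autoImplicit false

namespace Vale.Agent.P014W

theorem rect : RECT := Rect.rect loc reci gal

end Vale.Agent.P014W
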