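import Vale.Agent.P014W.Fin
import Vale.Agent.P014W.Gb
import Vale.Agent.P014W.Rall
import Vale.Agent.P014W.Hpa
import Vale.Agent.P014W.Nv
import Vale.Agent.P014U.All
import Vale.Agent.P014P.All

/-! # P014W: the closed form, from the row `KEY` -/

set_option autoImplicit false

namespace Vale.Agent.P014W

open Vale.Agent.P014 Vale.Agent.P014T

/-- the `L`-series of every elliptic curve over `ℚ` has an entire continuation -/
theorem ent_of (k : KEY) (E : WeierstrassCurve ℚ) [E.IsElliptic] : ∃ L, IsHasseWeil E L :=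
  ent Top.md_all Top.lgu_all (lg2_of (gb_of rect hpa) k nvx) E

/-- **the text of the hand-in** -/
def BSDN : Prop := ∀ (E : WeierstrassCurve ℚ) [E.IsElliptic], GlobalMinimal E →
  (∃! L, IsHasseWeil E L) ∧
  ∀ L, IsHasseWeil E L → ∀ r : ℕ, r ≤ 1 → analyticOrderAt L 1 = r →
    Module.finrank ℤ E.toAffine.Point = r ∧ Finite (Sha E) ∧
    (∃ P : Fin r → E.toAffine.Point, IsBasisModTorsion E P) ∧
    ∀ P : Fin r → E.toAffine.Point, IsBasisModTorsion E P → ∃ n : ℕ, Odd n ∧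
      iteratedDeriv r L 1 / (r.factorial : ℂ) = (n : ℂ) * ((realPeriod E * regulator E P *
        (Nat.card (Sha E) : ℝ) * (tamagawaProduct E : ℝ) / (torsionOrder E : ℝ) ^ 2 : ℝ) : ℂ) ∧
      ((∃ k : ℕ, n * Nat.card (Sha E) = 2 ^ k) → n = 1)

theorem bsdn_of (k : KEY) : BSDN := fun E _ hE => by
  refine ⟨(ent_of k E).elim fun L h => ⟨L, h, fun _ h' => hw_uniq h' h⟩, fun L h r r1 o => ?_⟩
  obtain ⟨k1, k2, k3, k4⟩ := bsdz P014U.Top.bsdi_all (ent_of k) E hE L (Lk.hw h) r r1 o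
  refine ⟨k1, k2, k3, fun P b => ?_⟩
  obtain ⟨n, e, d, u⟩ := k4 P b
  have p : (0 : ℚ) < n := P014P.pos_all.rho (Lk.hw h) r1 o b (ρ := n) (by rwa [Rat.cast_intCast])
  lift n to ℕ using by exact_mod_cast p.le
  exact ⟨n, by exact_mod_cast d, by rwa [Int.cast_natCast] at e,
    fun ⟨j, z⟩ => by exact_mod_cast u ⟨j, by exact_mod_cast z⟩⟩

end Vale.Agent.P014W
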