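import Vale.Agent.P014U.Gt.Mt

/-! # P014W: at a multiplicative prime the inertia group fixes a vector -/

set_option autoImplicit false
set_option linter.all false

open scoped Classical
open WeierstrassCurve WeierstrassCurve.Affine P179W NumberField Matrix

noncomputable section

namespace Vale.Agent.P014W.Mu

open P014U P014U.Gt P014U.X4M.TE
open Vale.Agent.P014T.Lc Vale.Agent.P014T.Vc Vale.Agent.P014T.Sm
open Vale.Agent.P004M.TE (Qb GQ Pt ga)
open Vale.Agent.P022E.GW (Ov Fb)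
open Vale.Agent.P027M.S (Inert)
open P027M.K (TM)
open Vale.Agent.P014 (act Pbar)

variable {W : WeierstrassCurve ℤ} {p : ℕ} {P : Ideal (𝓞 Qb)} {O : ValuationSubring Qb}

theorem val_eq {Γ : Type} [LinearOrderedCommGroupWithZero Γ] {v : Valuation Qb Γ} {g : GQ}
    (h : ∀ z, v (g z) ≤ 1 ↔ v z ≤ 1) (z : Qb) : v (g z) = v z := by
  have le : ∀ a b, v (g a) ≤ v (g b) ↔ v a ≤ v b := fun a b => by
    rcases eq_or_ne b 0 with rfl | n
    · simp
    · rw [← div_le_one₀ (v.pos_iff.2 n), ← div_le_one₀ (v.pos_iff.2 ((map_ne_zero g).2 n)),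
        ← map_div₀, ← map_div₀, ← map_div₀, h]
  have lt : ∀ a b, v (g a) < v (g b) ↔ v a < v b := fun a b => lt_iff_lt_of_le_iff_le (le b a)
  have i := (Algebra.IsAlgebraic.isAlgebraic (R := ℚ) z).isIntegral
  have k : ¬ Function.Injective fun n : ℕ => v (g^[n] z) := fun c =>
    Set.infinite_of_injective_forall_mem (f := fun n : ℕ => g^[n] z) (.of_comp c)
      (s := (minpoly ℚ z).rootSet Qb) (fun n => by
        induction n with
        | zero => exact Polynomial.mem_rootSet.2 ⟨minpoly.ne_zero i, minpoly.aeval ℚ z⟩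
        | succ n ih =>
          rw [Function.iterate_succ_apply']
          exact Polynomial.rootSet_mapsTo g.toAlgHom ih) (Polynomial.rootSet_finite _ _)
  refine le_antisymm (not_lt.1 fun c => k (strictMono_nat_of_lt_succ fun n => ?_).injective)
    (not_lt.1 fun c => k (strictAnti_nat_of_succ_lt fun n => ?_).injective) <;>
  induction n with
  | zero => exact c
  | succ n ih => simpa only [Function.iterate_succ_apply', lt] using ih

/-- the decomposition group acts by a sign on the components -/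
theorem pm (H : Lv P p O) (hΔ : W.Δ ≠ 0) (hb : (p : ℤ) ∣ W.Δ) (hc : ¬ (p : ℤ) ∣ W.c₄) {g : GQ}
    (hg : ∀ z, O.valuation (g z) = O.valuation z) (Q : Pbar (Wq W)) :
    act _ g Q + Q ∈ E0 (cf W O) ∨ act _ g Q - Q ∈ E0 (cf W O) := by
  have c1 := H.one hc
  have c0 : (W.c₄ : Qb) ≠ 0 := fun z => by simp [z] at c1
  have d0 : (W.Δ : Qb) ≠ 0 := Int.cast_ne_zero.2 hΔ
  have c : O.valuation (W.Δ / W.c₄ ^ 3) < 1 := by
    rw [map_div₀, map_pow, c1, one_pow, div_one]
    exact (H.lt _).2 hb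
  obtain ⟨b, a, e⟩ := ex_tt c
  have e4 : (tt b).c₄ = 1 := by simp [c₄, b₂, b₄]
  have n0 := div_ne_zero d0 (pow_ne_zero 3 c0)
  obtain ⟨u, r, s, t, h⟩ := ex_ch (V := tt b) (W := (Wq W)⁄Qb) (e ▸ n0) (eΔ.1 ▸ d0)
    (by rw [e, e4, eΔ.1, eΔ.2]; field_simp)
  have b1 := a.trans_lt c
  have hb : CoeffIn (tt b) {z | O.valuation z ≤ 1} :=
    ⟨O.valuation.map_one.le, by simp, by simp, by simp, b1.le⟩
  obtain ⟨i2, i4, i6, -⟩ := ch_inv h
  have u1 : O.valuation u = 1 := by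
    have := congrArg O.valuation i4
    rwa [e4, mul_one, map_pow, eΔ.2, c1, pow_eq_one_iff_left four_ne_zero] at this
  obtain ⟨S, rfl⟩ := vm_surj (f := RingHom.id Qb) (V := tt b) h Function.surjective_id Q
  obtain ⟨S', e'⟩ := vm_surj (f := RingHom.id Qb) (V := tt b) h Function.surjective_id
    (act _ g (vm (RingHom.id Qb) (V := tt b) h S))
  rw [← e', ← map_add, ← map_sub]
  suffices S' + S ∈ E0 hb ∨ S' - S ∈ E0 hb from this.imp (ch_e0 hb _ h u1) (ch_e0 hb _ h u1)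
  rcases S with _ | ⟨x, y, k⟩
  · rw [vm_inj (f := RingHom.id Qb) (V := tt b) h (e'.trans ((map_zero _).trans (map_zero _).symm))]
    exact .inl (add_mem (zero_mem _) trivial)
  rcases S' with _ | ⟨x', y', k'⟩
  · cases e'
  have q : ∀ x, u ^ 2 * (x - 72 * b) = u ^ 2 * x + r +
      algebraMap ℚ Qb (((Wq W).c₆ / (Wq W).c₄ + (Wq W).b₂) / 12) := fun x => by
    have := h.ne
    rw [map_div₀, map_add, map_div₀, map_ofNat, ← map_c₆, ← map_c₄, ← map_b₂]
    erw [← i4, ← i6, eq_sub_of_add_eq i2.symm]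
    simp only [c₆, c₄, b₂, b₄, b₆]
    field_simp
    ring
  have ex : u ^ 2 * x' + r = g (u ^ 2 * x + r) := (Point.some.inj e').1
  have w : O.valuation (x' - 72 * b) = O.valuation (x - 72 * b) := by
    have := hg (u ^ 2 * (x - 72 * b))
    rw [q, map_add, AlgEquiv.commutes, ← ex, ← q, ← q] at this
    simpa only [map_mul, map_pow, u1, one_pow, one_mul] using this
  have b7 : O.valuation (72 * b) ≤ O.valuation b := by
    rw [map_mul]
    exact mul_le_of_le_one_left' (ofNat_mem O.valuation.integer 72)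
  have f : ∀ x, O.valuation x ≤ max (O.valuation (x - 72 * b)) (O.valuation b) := fun x => by
    simpa using (O.valuation.map_add (x - 72 * b) (72 * b)).trans (max_le_max_left _ b7)
  by_cases o : O.valuation (x - 72 * b) < 1
  · refine cl hb b1 (a ▸ O.valuation.pos_iff.2 n0) ((f _).trans_lt (max_lt (w ▸ o) b1))
      ((f _).trans_lt (max_lt o b1)) ?_
    have j : ∀ x, O.valuation (x - 72 * b) ^ 2 ≤ O.valuation b →
        O.valuation x ^ 2 ≤ O.valuation b := fun x m => (le_max_iff.1 (f x)).elim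
      (fun z => (pow_le_pow_left' z 2).trans m) fun z => (pow_le_pow_left' z 2).trans
        (pow_le_of_le_one zero_le' b1.le two_ne_zero)
    refine (le_or_gt (O.valuation (x - 72 * b) ^ 2) (O.valuation b)).imp
      (fun m => ⟨j _ (w ▸ m), j _ m⟩) fun m => ?_
    have l := b7.trans_lt (m.trans_le (pow_le_of_le_one zero_le' o.le two_ne_zero))
    have e1 := O.valuation.map_add_eq_of_lt_left l
    have e2 := O.valuation.map_add_eq_of_lt_left (w ▸ l : _ < O.valuation (x' - 72 * b))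
    rw [sub_add_cancel] at e1 e2
    rw [e1, e2, w]
    exact ⟨m, rfl⟩
  · have j : ∀ {x y} (k : (tt b).toAffine.Nonsingular x y), ¬ O.valuation (x - 72 * b) < 1 →
        Point.some x y k ∈ E0 hb := fun k m => by_contra fun n =>
      m (O.valuation.map_sub_lt (tt_e0 hb b1 n) (b7.trans_lt b1))
    exact .inr (sub_mem (j k' (w ▸ o)) (j k o))

variable {A B : ℤ} {u r s t : ℚ}

theorem tow (h : Md (Wq W) A B u r s t) (o : Ov p P) (hΔ : W.Δ ≠ 0) (hb : (p : ℤ) ∣ W.Δ)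
    (hc : ¬ (p : ℤ) ∣ W.c₄) {l : ℕ} (hl : ¬ p ∣ l) {φ : GQ} (f : Fb p P φ) {R : ℕ → Pt A B}
    (T : Tr l R) : ∃ ε : ℤ, ε ^ 2 = 1 ∧ ∀ g, Inert P g → ∀ n,
      ga g (ga φ (R n) + ε • R n) = ga φ (R n) + ε • R n := by
  obtain ⟨O, H⟩ := ex_lv o
  obtain ⟨S, rfl⟩ : ∃ S : ℕ → Pbar (Wq W), R = fun n => iso h Qb (S n) :=
    ⟨fun n => (iso h Qb).symm (R n), by simp⟩
  have T' : Tr l S := by simpa using T.map (iso h Qb).symm.toAddMonoidHom
  have d : ∀ (ε : ℤ) (n k : ℕ), l ^ k • (act _ φ (S (n + k)) + ε • S (n + k)) =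
      act _ φ (S n) + ε • S n := fun ε n k => by
    rw [nsmul_add, smul_comm, ← map_nsmul, T'.pw]
  obtain ⟨ε, e, m⟩ : ∃ ε : ℤ, ε ^ 2 = 1 ∧ ∀ n, act _ φ (S n) + ε • S n ∈ E0 (cf W O) := by
    by_contra! c
    obtain ⟨n, a⟩ := c 1 rfl
    obtain ⟨k, b⟩ := c (-1) rfl
    refine (pm H hΔ hb hc (val_eq fun z => (H.fr φ p o.1.ne_zero f z).1) (S (n + k))).elim
      (fun z => a (d 1 n k ▸ nsmul_mem (by rwa [one_smul]) _)) fun z =>
        b (d (-1) k n ▸ nsmul_mem (by rwa [neg_one_zsmul, ← sub_eq_add_neg, add_comm k]) _)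
  refine ⟨ε, e, fun g i n => ?_⟩
  have := congrArg (iso h Qb) ((H.tor (n := l ^ n) (mt o.1.dvd_of_dvd_pow hl) (m n) (by
    rw [nsmul_add, smul_comm, ← map_nsmul, T'.tor, map_zero, smul_zero, add_zero])).1 g i)
  rwa [iso_act, map_add, map_zsmul, iso_act] at this

variable [Pp] (hD : 4 * ((A : ℤ) : ℚ) ^ 3 + 27 * ((B : ℤ) : ℚ) ^ 2 ≠ 0)

/-- **an invariant vector** -/
theorem inv (h : Md (Wq W) A B u r s t) (h2 : p ≠ pp) (o : Ov p P) (hΔ : W.Δ ≠ 0)
    (hb : (p : ℤ) ∣ W.Δ) (hc : ¬ (p : ℤ) ∣ W.c₄) :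
    ¬ ∀ v : Fin 2 → ℤ_[pp], (∀ g, Inert P g → mt hD g *ᵥ v = v) → v = 0 := fun n => by
  obtain ⟨φ, f⟩ := P022D.W.exists_phi o.1 o.2.1 o.2.2
  have k : ∀ v, ∃ ε : ℤ, ε ^ 2 = 1 ∧ mt hD φ *ᵥ v + ε • v = 0 := fun v => by
    obtain ⟨x, rfl⟩ := (bs hD).equivFun.surjective v
    obtain ⟨ε, e, m⟩ := tow h o hΔ hb hc (mt (Nat.prime_dvd_prime_iff_eq o.1 pp_prime).1 h2) f
      (R := fun n => TM.cp n x) ⟨TM.cp_zero x, TM.cp_succ x⟩
    refine ⟨ε, e, n _ fun g i => ?_⟩
    rw [mt_vec, ← map_zsmul, ← map_add, mt_vec]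
    exact congrArg _ (TM.ext fun j => by simpa only [cp_rho, map_add, map_zsmul] using m g i j)
  obtain ⟨a, a1, a2⟩ := k (Pi.single 0 1)
  obtain ⟨b, b1, b2⟩ := k (Pi.single 1 1)
  have d := det_fb hD o h2 f
  have c0 := congrFun a2 0
  have c1 := congrFun a2 1
  have c2 := congrFun b2 1
  simp [mulVec_single_one] at c0 c1 c2
  rw [det_fin_two, c1, mul_zero, sub_zero, eq_neg_of_add_eq_zero_left c0,
    eq_neg_of_add_eq_zero_left c2, neg_mul_neg] at d
  have e : a * b = p := by exact_mod_cast d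
  have := o.1.one_lt
  nlinarith [congrArg (· ^ 2) e]

end Vale.Agent.P014W.Mu
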