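import Vale.Agent.P014W.St
import Vale.Agent.P014W.Mu2
import Vale.Agent.P014U.Fin
import Vale.Agent.P014U.Gt.Elc
import Vale.Agent.P014T.Ct.Gam
import Vale.Agent.P014T.Lh.Any

/-! # P014W: the `L`-function of an elliptic curve is entire -/

set_option autoImplicit false
set_option linter.all false

open WeierstrassCurve Matrix UpperHalfPlane
open scoped Classical

noncomputable section

namespace Vale.Agent.P014W

open P014U P014U.Top P014U.Tq P014T.Lk P014T.Lc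
open Vale.Agent.P014 (IsHasseWeil)
open Vale.Agent.P004F (hq)
open P014T.Top (LGU)
open P004M.TE (al)
open X4M.TE (mt)
open P004N (RN cE)

variable {A B : ℤ} {p N : ℕ} {G : ℍ → ℂ} {a : ℕ → ℤ}

/-- no invariants: the reduction is additive -/
theorem add_of_no [Pp] (h : El A B) (hp : p.Prime) (h2 : p ≠ pp) (n : No (mt (hq h)) p) :
    al A B p = 0 ∧ al A B (p ^ 2) = 0 := by
  obtain ⟨W, u, r, s, t, hΔ, hm, k⟩ := ex_W h
  obtain ⟨a1, a2⟩ := al_np hΔ hm k hp
  obtain ⟨P, o⟩ := P022K.GW.Pl.ex_ov hp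
  by_cases hb : (p : ℤ) ∣ W.Δ
  · rw [ep, if_pos hb] at a1 a2
    by_cases hc : (p : ℤ) ∣ W.c₄
    · rw [np_add hp hb hc] at a1
      rw [a2, a1]
      simp
    · exact absurd (n P o) (Mu.inv (hq h) k h2 o hΔ hb hc)
  · exact (one_ne_zero (n P o 1 fun g i => by
      rw [(Gt.gd (hq h) k h2 o hb).1 g i, one_mulVec])).elim

theorem cm_of_lp [Pp] (h : El A B) (rn : RN N G a) (hp : p.Prime) (h2 : p ≠ pp) (k : Lp h N a p) :
    Cm A B p a := by
  have c := P004N.H461.pfCf N G a rn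
  by_cases n : No (mt (hq h)) p
  · exact .inl (add_of_no h hp h2 n)
  obtain ⟨P, o⟩ := P022K.GW.Pl.ex_ov hp
  have p0 : (p : ℤ) ≠ 0 := Nat.cast_ne_zero.2 hp.ne_zero
  right
  rcases k.resolve_left n with ⟨d, b⟩ | ⟨d, b⟩ <;>
    rcases (elc A B h p hp h2).2 with ⟨b1, b2⟩ | ⟨b1, b2⟩
  · obtain ⟨φ, f⟩ := P022D.W.exists_phi o.1 o.2.1 o.2.2
    have q : a p = al A B p := Int.cast_injective (((b P o).2 φ f).symm.trans ((b2 P o).2 φ f))
    have := c.good p hp d 0
    rw [pow_zero, c.one, zero_add, zero_add, pow_one] at this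
    exact ⟨q, by rw [this, q]; linear_combination b1⟩
  · obtain ⟨g, i, j⟩ := (b2 P o).1
    exact absurd ((b P o).1 g i) j
  · obtain ⟨g, i, j⟩ := (b P o).1
    exact absurd ((b2 P o).1 g i) j
  · simp only [No, not_forall] at n
    obtain ⟨P, o, v, hv, v0⟩ := n
    obtain ⟨φ, f⟩ := P022D.W.exists_phi o.1 o.2.1 o.2.2
    have q : a p = al A B p := mul_right_cancel₀ p0 (smul_left_injective ℤ v0
      (((b P o).2 v hv φ f).symm.trans ((b2 P o).2 v hv φ f)))
    have := c.bad p hp d 1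
    rw [pow_one] at this
    exact ⟨q, by rw [this, q, ← b1, sq]⟩

/-- **the Euler factors at all primes** -/
theorem cm_all (lgu : LGU) (lg : LG2) (h : El A B) (nf : Nf A B N G a) (hp : p.Prime) :
    Cm A B p a := by
  by_cases h2 : p = 2
  · subst h2
    obtain ⟨A₁, B₁, w, I, x, y, py⟩ := P014T.Pu.ex_parY nf.rn
    obtain ⟨-, x, y, rfl, rfl⟩ := P014T.Ct.gam _ _ _ _ _ _ _ _ _ nf.rn py
    have : Pp := ⟨3, Nat.prime_three, by decide⟩
    exact cm_of_lp h nf.rn hp pp_ne_two.symm ((lp_of elc py.disc nf.rn hp pp_ne_two.symm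
      (lg _ _ _ _ _ _ _ _ _ nf.rn py)).of h ((⟨nf.rn, py.mat⟩ : Nf A₁ B₁ N G a).ae nf))
  · exact lhu h nf.rn (lgu A B h N G a nf) hp h2

/-- **the continuation** -/
theorem ent (md : MODN) (lgu : LGU) (lg : LG2) (E : WeierstrassCurve ℚ) [E.IsElliptic] :
    ∃ L, IsHasseWeil E L := by
  obtain ⟨A, B, u, r, s, t, m⟩ := P014T.Sm.ex_md E
  obtain ⟨N, G, a, nf⟩ := md A B m.hD
  obtain ⟨S, -, -, ht⟩ := at_fin m nf.rn nf.fin
  have l := rn_ldr nf.rn
  obtain ⟨M, dM, e⟩ := P014T.Lh.ent nf.rn.pos nf.rn.s2 nf.rn.qe (by simp [nf.rn.zero]) zero_le_two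
    (by simpa using P004N.H503.Sum.sm_of_ldr l)
  let c := fun p : ℕ => al A B p = 0 ∧ al A B (p ^ 2) = 0
  have d : Differentiable ℂ fun s =>
      (∏ p ∈ S.primeFactors, if c p then P014T.Lk.Pp (fun n => a n) p s else 1) * M s :=
    (Differentiable.fun_finset_prod fun p k => by
      split_ifs
      exacts [Pp_diff _ (Nat.prime_of_mem_primeFactors k).ne_zero, differentiable_const _]).mul dM
  refine ⟨_, d, (ell_of nf.rn ht ⟨fun s _ => d.analyticAt s, fun s k => mul_left_cancel₀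
    (Pe_ne (P004N.cE_ldr E) (fun p hp _ => P004N.cE_le E hp) (by linarith : 1 ≤ s.re) (S := S)) ?_⟩).2⟩
  rw [← ser (P004N.cE_ldr E) ht.1 k, ht.inc, ser l ht.1 k, e s k, ← mul_assoc, Pe, Pe,
    ← Finset.prod_mul_distrib]
  refine congrArg₂ _ (Finset.prod_congr rfl fun p j => ?_) (by simp)
  split_ifs with z
  · simp [P014T.Lk.Pp, cE, lf_md m, z.1, z.2]
  · obtain ⟨a1, a2⟩ := (cm_all lgu lg m.hD nf (Nat.prime_of_mem_primeFactors j)).resolve_left z
    simp [P014T.Lk.Pp, cE, lf_md m, a1, a2]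

end Vale.Agent.P014W
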