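import Vale.Agent.P014W.Lin

/-! # P014W: the smoothed values as combinations of the values of point masses -/

set_option autoImplicit false
set_option linter.all false

open scoped Classical Real MatrixGroups ComplexConjugate UpperHalfPlane

noncomputable section

namespace Vale.Agent.P014W.Fx

open P014T P004N Li
open P022 (Qb)
open P027M.M (io)
open P022K.QT.Cu (E E_add E_int)
open Rc (sm)

variable {N m c J : ℕ} {G : ℍ → ℂ} {a : ℕ → ℤ} {s : ℂ}

/-- the additive twist on classes -/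
def U (ψ : DirichletCharacter Qb m) (z : ZMod (2 ^ J)) (x : ZMod (m * 2 ^ J)) : Qb :=
  ∑ v ∈ Finset.range m, ψ v * E (x.val * (v / m + fr z))

theorem sc_lev (k : Sc N (2 * m) c) (J : ℕ) : Sc N (m * 2 ^ J) c := ⟨k.c24, by
  have := k.cop
  simp only [Nat.coprime_mul_iff_right] at this ⊢
  exact ⟨this.1, this.2.2, this.2.1.pow_right _⟩, k.cN⟩

theorem E_mod {L : ℕ} [NeZero L] {x y : ℤ} (e : (x : ZMod L) = y) : E (x / L) = E (y / L) := by
  obtain ⟨k, f⟩ := (ZMod.intCast_eq_intCast_iff_dvd_sub _ _ _).1 e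
  have : (L : ℚ) ≠ 0 := Nat.cast_ne_zero.2 (NeZero.ne L)
  rw [show (y / L : ℚ) = x / L + k by rw [eq_add_of_sub_eq f]; push_cast; field_simp; ring, E_add,
    E_int, mul_one]

/-- `U` in terms of the two reductions of the class -/
theorem U_eq [NeZero m] (ψ : DirichletCharacter Qb m) {z z' : ZMod (2 ^ J)} {x : ZMod (m * 2 ^ J)}
    {n : ℤ} (e : (x.val : ZMod m) = n) (e' : x.val * z = n * z') :
    io (U ψ z x) = uw ψ (fr z') n := by
  simp only [U, uw, map_sum, map_mul]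
  refine Finset.sum_congr rfl fun v _ => ?_
  have f := E_mod (L := m) (x := x.val * v) (y := n * v) (by push_cast; rw [e])
  have f' := E_mod (L := 2 ^ J) (x := x.val * z.val) (y := n * z'.val)
    (by push_cast; rw [ZMod.natCast_zmod_val, ZMod.natCast_zmod_val, e'])
  push_cast at f f'
  simp only [fr, mul_add, E_add, ← mul_div_assoc, f, f']

theorem U_inv [NeZero m] (ψ : DirichletCharacter Qb m) (k : c.Coprime (m * 2 ^ J))
    (k' : c ≡ 1 [MOD m]) (z : ZMod (2 ^ J)) (n : ℤ) :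
    io (U ψ z ((c : ZMod (m * 2 ^ J))⁻¹ * n)) = uw ψ (fr ((c : ZMod (2 ^ J))⁻¹ * z)) n := by
  have e : (c * ((c : ZMod (m * 2 ^ J))⁻¹ * n).val : ZMod (m * 2 ^ J)) = n := by
    rw [ZMod.natCast_zmod_val, ← mul_assoc, ZMod.coe_mul_inv_eq_one _ k, one_mul]
  have e1 := congrArg (ZMod.castHom (dvd_mul_right m _) (ZMod m)) e
  have e2 := congrArg (ZMod.castHom (dvd_mul_left _ m) (ZMod (2 ^ J))) e
  rw [map_mul, map_natCast, map_natCast, map_intCast] at e1 e2
  rw [(ZMod.natCast_eq_natCast_iff _ _ _).2 k', Nat.cast_one, one_mul] at e1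
  refine U_eq ψ e1 ?_
  rw [← e2, mul_mul_mul_comm, ZMod.coe_mul_inv_eq_one _ k.coprime_mul_left_right, one_mul]

theorem pz_uw (ψ : DirichletCharacter Qb m) (r : ℚ) : Pz (uw ψ r) :=
  pz_sum _ fun _ _ => (pz_const _).op (pz_E _) (· * ·)

/-- **the smoothed value** -/
theorem fb (h : RN N G a) [NeZero m] (ψ : DirichletCharacter Qb m) (k : Sc N (2 * m) c)
    (k' : c ≡ 1 [MOD m]) (hJ : J ≠ 0) {c0 : ℝ} {b : ZMod (m * 2 ^ J) → Qb}
    (hb : ∀ x, io (b x) * c0 = -Complex.I * Ls a s (ws N c (Pi.single x 1))) (z : ZMod (2 ^ J)) :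
    io (∑ x, b x * U ψ z x) * c0 = -Complex.I * (c ^ 4 * Fb N a s ψ (fr z) -
      2 * c ^ 3 * Fb N a s ψ (fr ((c : ZMod (2 ^ J))⁻¹ * z)) +
      c ^ 2 * Fb N a s ψ (fr ((c * c : ZMod (2 ^ J))⁻¹ * z))) := by
  have n0 : (2 * N * m : ℤ) ≠ 0 := by have := h.pos; have := NeZero.pos m; positivity
  have n1 : (N * (m * 2 ^ J : ℕ) : ℤ) ≠ 0 := by have := h.pos; have := NeZero.pos m; positivity
  have p := fun r x => (pz_const x).op ((pz_uw ψ r).cop n0) (· * ·)
  have u := (sc_lev k J).cop.coprime_mul_left_right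
  have q : ∀ x : ZMod (m * 2 ^ J), Pz (ws N c (Pi.single x 1)) := fun x =>
    (pz_mod (NeZero.ne _) fun y => (sm c c (Pi.single x 1) y : ℂ)).cop n1
  rw [map_sum, Finset.sum_mul, Finset.sum_congr rfl (g := fun x => -Complex.I * Ls a s fun n =>
    io (U ψ z x) * ws N c (Pi.single x 1) n) fun x _ => by
      rw [map_mul, mul_right_comm, hb, Ls_smul, mul_assoc, mul_comm (Ls a s _)], ← Finset.mul_sum,
    ← Ls_sum h _ fun x _ => (pz_const _).op (q x) (· * ·), Fb, Fb, Fb]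
  congr 1
  rw [← Ls_smul, ← Ls_smul, ← Ls_smul, ← Ls_sub h (p _ _) (p _ _),
    ← Ls_add h ((p _ _).op (p _ _) (· - ·)) (p _ _)]
  refine congrArg _ (funext fun n => ?_)
  have e : IsCoprime n (N * (m * 2 ^ J : ℕ)) ↔ IsCoprime n (2 * N * m) := by
    simp only [Nat.cast_mul, Nat.cast_pow, IsCoprime.mul_right_iff, Nat.cast_ofNat,
      IsCoprime.pow_right_iff (Nat.pos_of_ne_zero hJ)]
    tauto
  simp only [ws, e]
  split_ifs
  · have e1 := U_inv ψ (Nat.coprime_one_left _) (Nat.ModEq.refl 1) z n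
    have e2 := U_inv ψ (u.mul_left u) (k'.mul k') z n
    simp only [Nat.cast_one, ZMod.inv_one, one_mul, Nat.cast_mul] at e1 e2
    simp only [sm, Pi.single_apply, Int.cast_add, Int.cast_sub, Int.cast_mul, Int.cast_pow,
      Int.cast_natCast, Int.cast_ite, Int.cast_one, Int.cast_zero, mul_add, mul_sub, mul_ite, mul_one,
      mul_zero, Finset.sum_add_distrib, Finset.sum_sub_distrib, Finset.sum_ite_eq, Finset.mem_univ,
      if_true, e1, e2, U_inv ψ u k']
    ring
  · simp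

end Vale.Agent.P014W.Fx
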