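import Vale.Agent.P014W.Ent

/-! # P014W: the quotient of the two sides of the formula is an odd integer -/

set_option autoImplicit false
set_option linter.all false

namespace Vale.Agent.P014W

open Vale.Agent.P014 Vale.Agent.P014T
open P004N (IsEll)

theorem hw_uniq {E : WeierstrassCurve ℚ} {L L' : ℂ → ℂ} (h : IsHasseWeil E L)
    (h' : IsHasseWeil E L') : L = L' :=
  AnalyticOnNhd.eq_of_eventuallyEq (fun s _ => h.1.analyticAt s) (fun s _ => h'.1.analyticAt s)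
    (Lk.ev (Lk.IsEll.lh (Lk.hw h)) (Lk.IsEll.lh (Lk.hw h')))

/-- **the target** -/
def BSDZ : Prop := ∀ (E : WeierstrassCurve ℚ) [E.IsElliptic], GlobalMinimal E →
  ∀ L, IsEll E L → ∀ r : ℕ, r ≤ 1 → analyticOrderAt L 1 = r →
    Module.finrank ℤ E.toAffine.Point = r ∧ Finite (Sha E) ∧
    (∃ P : Fin r → E.toAffine.Point, IsBasisModTorsion E P) ∧
    ∀ P : Fin r → E.toAffine.Point, IsBasisModTorsion E P → ∃ n : ℤ,
      iteratedDeriv r L 1 / (r.factorial : ℂ) = (n : ℂ) * ((realPeriod E * regulator E P *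
        (Nat.card (Sha E) : ℝ) * (tamagawaProduct E : ℝ) / (torsionOrder E : ℝ) ^ 2 : ℝ) : ℂ) ∧
      Odd n ∧ ((∃ k : ℕ, n * Nat.card (Sha E) = 2 ^ k) → n = 1)

theorem bsdz (bs : P014U.Top.BSDI)
    (en : ∀ (E : WeierstrassCurve ℚ) [E.IsElliptic], ∃ L, IsHasseWeil E L) : BSDZ := by
  intro E _ hm L hL r r1 o
  obtain ⟨W, e⟩ := Lc.ex_int hm.1
  obtain ⟨M, hM⟩ := en E
  obtain ⟨-, u, v⟩ := Lk.IsEll.uniq hL (Lk.hw hM)
  obtain ⟨k1, k2, k3, k4⟩ := bs W E e hm M (Lk.hw hM) r r1 (u ▸ o)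
  refine ⟨k1, k2, k3, fun P hP => ?_⟩
  obtain ⟨ρ, f, r0, v2, -, -, -, -, k⟩ := k4 P hP
  obtain ⟨⟨n, rfl⟩, k⟩ := k (.inr hM.1)
  refine ⟨n, by rw [v, f, Rat.cast_intCast], Int.not_even_iff_odd.1 fun d => ?_,
    fun ⟨j, z⟩ => by exact_mod_cast k ⟨j, by exact_mod_cast z⟩⟩
  rw [padicValRat.of_int, Nat.cast_eq_zero, padicValInt.eq_zero_iff] at v2
  exact v2.elim (by decide) fun c => c.elim (fun z => r0 (by simp [z])) (· d.two_dvd)

end Vale.Agent.P014W
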