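import Vale.Agent.P014W.SpanH
import Vale.Agent.P014W.Fbx
import Vale.Agent.P014W.Gb0
import Vale.Agent.P022K.GW.Pl

/-!
# P014W, block G: the bounded solution of the recursion
-/

set_option autoImplicit false
set_option linter.all false

open scoped Classical
open Finset IsUltrametricDist

noncomputable section

namespace Vale.Agent.P014W.Gx

open Vale.Agent.P014T
open Vale.Agent.P022 (Qb)
open Vale.Agent.P027M.M (io)
open Vale.Agent.P004M.TE (al)
open Vale.Agent.P022K.QT.Cu (E E_nat E_add io_inj)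
open Fx (U)

theorem tw {m : ℕ} [NeZero m] (hm : Odd m) {ψ : ZMod m → ℂ_[2]} {X : ℂ_[2]}
    (h : ∀ v, ψ v = X * ψ (2 * v)) (H : ZMod m → ℂ_[2]) :
    ∑ v, ψ v * H (2 * v) = X * ∑ v, ψ v * H v := by
  have u : IsUnit ((2 : ℕ) : ZMod m) := (ZMod.isUnit_iff_coprime 2 m).2 (Nat.coprime_two_left.2 hm)
  have b : Function.Bijective fun v : ZMod m => 2 * v :=
    Finite.injective_iff_bijective.1 (by exact_mod_cast u.mul_right_injective)
  rw [← b.sum_comp fun v => ψ v * H v, mul_sum]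
  exact sum_congr rfl fun v _ => by rw [h v, mul_assoc]

theorem U_map (ι : Qb →+* ℂ_[2]) {m J : ℕ} [NeZero m] (ψ : DirichletCharacter Qb m)
    (z : ZMod (2 ^ J)) (x : ZMod (m * 2 ^ J)) : ι (U ψ z x) = ∑ v : ZMod m, ι (ψ v) *
      (ι (E (1 / m)) ^ (x.val * v.val) * ι (E (1 / (2 ^ J : ℕ))) ^ (x.val * z.val)) := by
  rw [U, map_sum]
  refine (sum_nbij' (fun v : ZMod m => v.val) (fun n : ℕ => (n : ZMod m))
    (fun v _ => mem_range.2 v.val_lt)
    (fun _ _ => mem_univ _) (fun v _ => ZMod.natCast_zmod_val v)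
    (fun n hn => ZMod.val_cast_of_lt (mem_range.1 hn)) fun v _ => ?_).symm
  rw [ZMod.natCast_zmod_val, map_mul, ← map_pow, ← map_pow, ← map_mul, ← E_nat, ← E_nat, ← E_add,
    fr]
  congr 3
  push_cast
  ring

/-- **the bounded solution** -/
theorem gb_of (rect : RECT) (hp : HP2) : GB := by
  intro N G a A B w I x y r p hn
  obtain ⟨κ, cs, e4, hh⟩ := hp A B (by exact_mod_cast p.disc) hn
  obtain ⟨P, o⟩ := P022K.GW.Pl.ex_ov Nat.prime_two
  obtain ⟨ι, h⟩ := Ah.ex_ind o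
  obtain ⟨L, k⟩ := Lc.ex_lgs A B
  obtain ⟨F, u, pt, hF, u0, hpt⟩ := hh ι P h L k
  refine ⟨ι, κ, cs, e4, fun γ c0 m c ψ X gs vol c00 mp nd sc cm _ hX hP => ?_⟩
  haveI : NeZero m := ⟨mp.ne_zero⟩
  have mo : Odd m := mp.odd_of_ne_two fun e => nd (e ▸ dvd_mul_right 2 N)
  set e := al A B 2
  set Q : ℂ_[2] := 2 - e * ι X + κ * ι X ^ 2 with hQ
  have Q0 : Q ≠ 0 := fun q => hP (ι.injective (by simpa [map_ofNat] using q))
  obtain ⟨f0, hf0⟩ : ∃ f0 : Qb, ∀ t, io t * c0 = -Complex.I * (c ^ 4 * Fb N a (Es.sy I γ) ψ 0 -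
      2 * c ^ 3 * Fb N a (Es.sy I γ) ψ 0 + c ^ 2 * Fb N a (Es.sy I γ) ψ 0) → t = f0 := by
    by_cases q : ∃ t, io t * c0 = -Complex.I * (c ^ 4 * Fb N a (Es.sy I γ) ψ 0 -
      2 * c ^ 3 * Fb N a (Es.sy I γ) ψ 0 + c ^ 2 * Fb N a (Es.sy I γ) ψ 0)
    · obtain ⟨s, hs⟩ := q
      exact ⟨s, fun t ht => io_inj (mul_right_cancel₀ (by exact_mod_cast c00) (ht.trans hs.symm))⟩
    · exact ⟨0, fun t ht => (q ⟨t, ht⟩).elim⟩
  refine ⟨‖(2 * u)⁻¹‖ + ‖2 * ι f0 / Q‖, fun J hJ => ?_⟩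
  obtain ⟨b, hb, hR⟩ := rect N G a A B w I x y ι P h L r p k γ c0 (m * 2 ^ J) c gs vol c00
    ((dvd_pow_self 2 (by omega)).mul_left m) (Fx.sc_lev sc J)
  have p1 := Sb.E_prim mp.pos
  have p2 := (Sb.E_prim (l := 2 ^ J) (by positivity)).pow_eq_one
  obtain ⟨g, hg⟩ := Sp.spz mo (p1.map_of_injective ι.injective) (η := ι (E (1 / (2 ^ J : ℕ))))
    (by rw [← map_pow, p2, map_one]) hF (fun x => u * ι (b x)) (fun x => x.val) fun y n hn =>
      Gb0.hb1 hR u0 hpt (by rw [pow_mul, p1.pow_eq_one, one_pow])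
        (by rw [mul_comm m, pow_mul, p2, one_pow]) p2 y (by omega)
  have hψ : ∀ v : ZMod m, ι (ψ v) = ι X * ι (ψ (2 * v)) := fun v => by
    rw [map_mul ψ, ← map_mul, ← mul_assoc, mul_comm X, hX, one_mul]
  have f1 := Fx.fb r ψ sc cm (J := J) (by omega) hb
  set f : ZMod (2 ^ J) → Qb := fun z => ∑ x, b x * U ψ z x with hf
  have f2 : f 0 = f0 := hf0 _ (by
    simpa only [fr, mul_zero, ZMod.val_zero, Nat.cast_zero, zero_div] using f1 0)
  have f3 : ∀ z, u * ι (f z) = ∑ v : ZMod m, ι (ψ v) * ∑ x, u * ι (b x) *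
      (ι (E (1 / m)) ^ (x.val * v.val) * ι (E (1 / (2 ^ J : ℕ))) ^ (x.val * z.val)) := fun z => by
    simp only [hf, map_sum, map_mul, U_map, mul_sum]
    rw [sum_comm]
    exact sum_congr rfl fun v _ => sum_congr rfl fun x _ => by ring
  set S : ZMod (2 ^ J) → ℂ_[2] := fun z => ∑ v : ZMod m, ι (ψ v) * g v z with hS
  have s1 : ∀ z, 2 * S z - e * ι X * S (2 * z) + κ * ι X ^ 2 * S (4 * z) =
      2 * (u * ι (f z) - u * ι f0) := fun z => by
    have t2 := tw mo hψ fun v => g v (2 * z)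
    have t4 := tw mo hψ fun v => g (2 * v) (4 * z)
    rw [tw mo hψ fun v => g v (4 * z)] at t4
    simp only [← mul_assoc, show (2 * 2 : ZMod m) = 4 by norm_num] at t4
    rw [← f2, f3, f3, ← sum_sub_distrib, mul_sum, mul_assoc (e : ℂ_[2]), hS, ← t2, sq,
      mul_assoc (κ : ℂ_[2]), ← t4]
    simp only [mul_sum _ _ (2 : ℂ_[2]), mul_sum _ _ (e : ℂ_[2]), mul_sum _ _ (κ : ℂ_[2]),
      ← sum_sub_distrib, ← sum_add_distrib, ZMod.val_zero, mul_zero, pow_zero, mul_one]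
    exact sum_congr rfl fun v _ => by linear_combination ι (ψ v) * (hg v z).1
  refine ⟨f, fun z => (2 * u)⁻¹ * (S z + S (-z)) + 2 * ι f0 / Q, fun z => ⟨f1 z, ?_, ?_⟩⟩
  · have a1 := s1 z
    have a2 := s1 (-z)
    rw [mul_neg, mul_neg] at a2
    rw [map_add]
    have i1 : (2 * u)⁻¹ * (2 * u) = 1 := inv_mul_cancel₀ (mul_ne_zero two_ne_zero u0)
    have i2 : Q * (2 * ι f0 / Q) = 2 * ι f0 := mul_div_cancel₀ _ Q0
    linear_combination (2 * u)⁻¹ * (a1 + a2) + (ι (f z) + ι (f (-z)) - 2 * ι f0) * i1 + i2 -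
      (2 * ι f0 / Q) * hQ
  · refine (norm_add_le _ _).trans (add_le_add_left ?_ _)
    rw [norm_mul, hS, ← sum_add_distrib]
    refine mul_le_of_le_one_right (norm_nonneg _)
      (norm_sum_le_of_forall_le_of_nonneg zero_le_one fun v _ => ?_)
    rw [← mul_add, norm_mul]
    refine mul_le_one₀ ?_ (norm_nonneg _) (hg v z).2
    by_cases q : IsUnit v
    · obtain ⟨v, rfl⟩ := q
      refine (Gb0.nrm_root (M := Fintype.card (ZMod m)ˣ) Fintype.card_ne_zero ?_).le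
      rw [← map_pow, ← map_pow, ← Units.val_pow_eq_pow_val, pow_card_eq_one, Units.val_one, map_one,
        map_one]
    · simp [ψ.map_nonunit q]

end Vale.Agent.P014W.Gx
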