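import Vale.Agent.P014W.St
import Vale.Agent.P014T.Gt.Gd

/-!
# P014W: the congruence of Honda on the points of the disc: words and rows (helper37)
-/

set_option autoImplicit false
set_option linter.all false

open scoped Classical
open NumberField WeierstrassCurve

noncomputable section

namespace Vale.Agent.P014W

open Vale.Agent.P014T
open Vale.Agent.P022 (Qb GQ)
open Vale.Agent.P022D.W (dec)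
open Vale.Agent.P004M.TE (Cv Pt pa ga al)
open Ah (Ind)
open Lc (Lg)

/-- the congruence of Honda for `2 - a φ + κ φ ^ 2` along `ω X ^ n` -/
def Hn (a κ : ℤ) (F : ℂ_[2] → ℂ_[2]) : Prop := F 0 = 0 ∧ ∀ ω : ℂ_[2], ‖ω‖ ≤ 1 → ∀ n, 0 < n →
  ∃ γ : ℕ → ℂ_[2], (∀ k, ‖γ k‖ ≤ 1) ∧ (∀ k < n, γ k = 0) ∧
    2 * γ n = 2 * ω - a * 2 ^ n * ω ^ 2 + κ * 4 ^ n * ω ^ 4 ∧ ∀ ξ : ℂ_[2], ‖ξ‖ < 1 →
      HasSum (fun k => 2 * (γ k * ξ ^ k)) (2 * F (ω * ξ ^ n) -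
        a * F (ω ^ 2 * ((1 + ξ) ^ 2 - 1) ^ n) + κ * F (ω ^ 4 * ((1 + ξ) ^ 4 - 1) ^ n))

/-- (B) the points of the formal group -/
def HP2 : Prop := ∀ A B : ℤ, 4 * (A : ℚ) ^ 3 + 27 * (B : ℚ) ^ 2 ≠ 0 →
  ¬ (al A B 2 = 0 ∧ al A B (2 ^ 2) = 0) → ∃ κ, Cs (al A B 2) κ ∧
    al A B (2 ^ 2) = al A B 2 ^ 2 - 2 * κ ∧ ∀ ι P (_ : Ind ι P) L,
      Lg 2 (Cv ℂ_[2] (A : ℚ) (B : ℚ)) L → ∃ (F : ℂ_[2] → ℂ_[2]) (u : ℂ_[2]) (pt : Qb → Pt A B),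
        Hn (al A B 2) κ F ∧ u ≠ 0 ∧ ∀ t, ‖ι t‖ < 1 → (∀ g ∈ dec P, ga g (pt t) = pt (g t)) ∧
          L (pa ι.toRatAlgHom (pt t)) = u * F (ι t)

/-- the theorem of Honda for an integral model -/
def HON2 : Prop := ∀ (W : WeierstrassCurve ℤ) (a κ : ℤ), Gt.Fq W 2 κ (-a) 2 →
  ∀ L, Lg 2 (W⁄ℂ_[2]) L → ∀ F : ℂ_[2] → ℂ_[2],
    (∀ Q, P179W.KerV (Lc.nv ℂ_[2]) Q → F (Lc.zf Q) = L Q) →
    (∀ t : ℂ_[2], ‖t‖ < 1 → ∃ Q : (W⁄ℂ_[2]).toAffine.Point,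
      P179W.KerV (Lc.nv ℂ_[2]) Q ∧ Lc.zf Q = t) → Hn a κ F

end Vale.Agent.P014W
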