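import Vale.Agent.P014W.Hon0
import Vale.Agent.P014W.Hn
import Vale.Agent.P022K.FI.An0
import Mathlib.RingTheory.AdicCompletion.Completeness

/-! # P014W, block HON: the theorem of Honda at two (helper37) -/

set_option autoImplicit false
set_option linter.all false

open scoped Classical Topology
open WeierstrassCurve WeierstrassCurve.Affine P179W PowerSeries Filter

noncomputable section

namespace Vale.Agent.P014W

namespace Hon

open Vale.Agent.P014T.Gt (IsF Fq)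
open Vale.Agent.P014T.Lc Vale.Agent.P022K.FI

variable {W : WeierstrassCurve ℤ} {a κ : ℤ}

/-- the curve over a ring -/
abbrev bc (W : WeierstrassCurve ℤ) (R : Type) [CommRing R] : WeierstrassCurve R :=
  W.map (Int.castRingHom R)

theorem mp {R S : Type} [CommRing R] [CommRing S] (φ : R →+* S) : (bc W R).map φ = bc W S :=
  (W.map_map _ _).trans (congrArg W.map (RingHom.ext_int _ _))

/-- the map on points -/
def pm (W : WeierstrassCurve ℤ) {K L : Type} [Field K] [Field L] (φ : K →+* L) :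
    (bc W K).toAffine.Point →+ (bc W L).toAffine.Point := Point.map (W' := W) φ.toIntAlgHom

theorem pw_map {K L : Type} [Field K] [Field L] (φ : K →+* L) {p : K × K} (h : Zw (bc W K) p) :
    pm W φ (pw (bc W K) p) = pw (bc W L) (φ p.1, φ p.2) := by
  by_cases c : p.2 = 0
  · rw [pw_zero c, pw_zero (by simpa using c), map_zero]
  obtain ⟨_, e⟩ := h.some c
  obtain ⟨_, e'⟩ := (h.map φ (mp φ)).some ((map_ne_zero φ).2 c)
  rw [e, e']
  exact (Point.some.injEq ..).mpr ⟨map_div₀ φ _ _, (map_div₀ φ _ _).trans (by simp)⟩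

section ring

variable {R T C : Type} [CommRing R] [CommRing T] [Field C] {t d : R} {p₀ p₁ p₂ q : R × R}

/-- all the values of a point -/
def vl (W : WeierstrassCurve ℤ) (C : Type) [Field C] (p : R × R) (φ : R →+* C) :
    (bc W C).toAffine.Point := pw (bc W C) (φ p.1, φ p.2)

theorem vl_zero : vl W C (0 : R × R) = 0 := funext fun φ => pw_zero (map_zero φ)

theorem vl_ln (p q r : R × R) (l n : R) (h : Zw (bc W R) p) (k : Zw (bc W R) q) (m : Zw (bc W R) r)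
    (L : Ln (bc W R) p q r l n) : vl W C p + vl W C q + vl W C r = 0 :=
  funext fun φ => (L.map φ (mp φ)).sum (h.map φ (mp φ)) (k.map φ (mp φ)) (m.map φ (mp φ))

variable (ht : ∀ x, t ∣ x → IsUnit (1 - x))
include ht

theorem dbl {v : R} {j : ℕ} (h : Fm (bc W R) t q) (e : q.1 = 2 ^ (j + 1) * v) :
    ∃ r s, Fm (bc W R) t r ∧ vl W C r = 2 • vl W C q ∧ r.1 = 2 ^ (j + 1 + 1) * (v + 2 ^ j * (v ^ 2 * s)) := by
  obtain ⟨r, a, b, -, s, c⟩ := (Hd ht (vl W C) vl_zero vl_ln q.1).nsmul_mem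
    (x := (vl W C q, q.1)) ⟨q, h, rfl, dvd_rfl, by simp⟩ 2
  refine ⟨r, s, a, b, ?_⟩
  rw [Prod.smul_snd, e] at c
  linear_combination c

theorem iter {v : R} (h : Fm (bc W R) t q) (e : q.1 = 2 * v) : ∃ (r : ℕ → R × R) (u s : ℕ → R),
    u 0 = v ∧ ∀ j, Fm (bc W R) t (r j) ∧ vl W C (r j) = 2 ^ j • vl W C q ∧
      (r j).1 = 2 ^ (j + 1) * u j ∧ u (j + 1) = u j + 2 ^ j * (u j ^ 2 * s j) := by
  choose! f g k using fun (j : ℕ) (x : (R × R) × R) (h : Fm (bc W R) t x.1 ∧ x.1.1 = 2 ^ (j + 1) * x.2) =>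
    dbl (C := C) ht h.1 h.2
  let x : ℕ → (R × R) × R := Nat.rec (q, v) fun j x => (f j x, x.2 + 2 ^ j * (x.2 ^ 2 * g j x))
  have H : ∀ j, (Fm (bc W R) t (x j).1 ∧ (x j).1.1 = 2 ^ (j + 1) * (x j).2) ∧
      vl W C (x j).1 = 2 ^ j • vl W C q := fun j => by
    induction j with
    | zero => exact ⟨⟨h, by simpa [x] using e⟩, by simp [x]⟩
    | succ j ih =>
      obtain ⟨a, b, c⟩ := k j _ ih.1
      exact ⟨⟨a, c⟩, b.trans (by rw [ih.2, pow_succ', mul_smul])⟩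
  exact ⟨fun j => (x j).1, fun j => (x j).2, fun j => g j (x j), rfl,
    fun j => ⟨(H j).1.1, (H j).2, (H j).1.2, rfl⟩⟩

/-- **the relation of the Frobenius** -/
theorem frb [IsDomain T] [CharP T 2] (hq : Fq W 2 κ (-a) 2) (ρ : R →+* T)
    (ht' : ∀ x, ρ t ∣ x → IsUnit (1 - x)) (h0 : Fm (bc W R) t p₀) (h1 : Fm (bc W R) t p₁)
    (h2 : Fm (bc W R) t p₂) (e1 : ρ p₁.1 = ρ p₀.1 ^ 2) (e2 : ρ p₂.1 = ρ p₁.1 ^ 2) (d0 : d ∣ p₀.1)
    (d1 : d ∣ p₁.1) (d2 : d ∣ p₂.1) : ∃ q, Fm (bc W R) t q ∧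
      vl W C q = (2 : ℤ) • vl W C p₀ - a • vl W C p₁ + κ • vl W C p₂ ∧ d ∣ q.1 ∧
      d ^ 2 ∣ q.1 - (2 * p₀.1 - a * p₁.1 + κ * p₂.1) ∧ ρ q.1 = 0 := by
  obtain ⟨K, _, _, j, i⟩ : ∃ (K : Type) (_ : Field K) (_ : IsAlgClosed K) (j : T →+* K),
      Function.Injective j := ⟨AlgebraicClosure (FractionRing T), _, inferInstance,
    (algebraMap (FractionRing T) _).comp (algebraMap T _),
    (algebraMap (FractionRing T) _).injective.comp (IsFractionRing.injective T _)⟩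
  have : CharP K 2 := charP_of_injective_ringHom i 2
  let H := Hd ht (fun p => (vl W C p, vl W K p)) (Prod.ext vl_zero vl_zero)
    (fun p q r l n a b c e => Prod.ext (vl_ln p q r l n a b c e) (vl_ln p q r l n a b c e)) d
  have m : ∀ {p}, Fm (bc W R) t p → d ∣ p.1 → ((vl W C p, vl W K p), p.1) ∈ H := fun h k =>
    ⟨_, h, rfl, k, by simp⟩
  obtain ⟨q, b1, b2, b3, b4⟩ := H.add_mem (H.sub_mem (H.zsmul_mem (m h0 d0) 2)
    (H.zsmul_mem (m h1 d1) a)) (H.zsmul_mem (m h2 d2) κ)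
  have f : ∀ {p q : R × R}, Fm (bc W R) t p → Fm (bc W R) t q → ρ q.1 = ρ p.1 ^ 2 →
      vl W K q (j.comp ρ) = pm W (frobenius K 2) (vl W K p (j.comp ρ)) :=
    fun {p q} h k e => by
      obtain ⟨c1, c2, c3⟩ := (h.map ρ (mp ρ)).map (frobenius T 2) (mp _)
      have s := dvd_pow_self (ρ t) two_ne_zero
      have := congrArg Prod.snd ((k.map ρ (mp ρ)).ext ht' ⟨c1, s.trans c2, s.trans c3⟩ e)
      rw [vl, vl, pw_map _ ((h.zw ht).map _ (mp _))]
      congr 2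
      exacts [(congrArg j e).trans (map_pow j _ 2), (congrArg j this).trans (map_pow j _ 2)]
  refine ⟨q, b1, congrArg Prod.fst b2, b3, by simpa using b4, i ?_⟩
  have z := (b1.zw ht).map _ (mp (j.comp ρ))
  refine (z.z0 (by_contra fun c => ?_)).trans (map_zero j).symm
  obtain ⟨_, e⟩ := z.some c
  have g : vl W K q (j.comp ρ) = (2 : ℤ) • vl W K p₀ (j.comp ρ) - a • vl W K p₁ (j.comp ρ) +
    κ • vl W K p₂ (j.comp ρ) := congrFun (congrArg Prod.snd b2) _
  rw [f h1 h2 e2, f h0 h1 e1, vl, e] at g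
  refine Point.some_ne_zero _ (g.trans ?_)
  have k : ∀ P, κ • pm W (frobenius K 2) (pm W (frobenius K 2) P) + -a • pm W (frobenius K 2) P +
    (2 : ℤ) • P = 0 := hq K (pm W (frobenius K 2)) fun x y h => ⟨_, rfl⟩
  rw [← k (vl W K p₀ (j.comp ρ)), neg_zsmul]
  abel

end ring

theorem un {S : Type} [CommRing S] (x : S⟦X⟧) (h : X ∣ x) : IsUnit (1 - x) :=
  isUnit_iff_constantCoeff.2 (by simp [X_dvd_iff.1 h])

/-- the reduction modulo two -/
def rd : (Polynomial ℤ)⟦X⟧ →+* (Polynomial (ZMod 2))⟦X⟧ :=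
  PowerSeries.map (Polynomial.mapRingHom (Int.castRingHom _))

theorem rd_zero {x : (Polynomial ℤ)⟦X⟧} (h : rd x = 0) : 2 ∣ x := by
  choose c hc using fun k => (Polynomial.C_dvd_iff_dvd_coeff 2 (coeff k x)).2 fun i =>
    (ZMod.intCast_zmod_eq_zero_iff_dvd _ 2).1
      (by simpa [rd] using congrArg (fun f => (coeff k f).coeff i) h)
  exact ⟨mk c, PowerSeries.ext fun k => by rw [two_mul, map_add, coeff_mk, hc, ← two_mul]; rfl⟩

section an

variable {C S : Type} [NontriviallyNormedField C] [IsUltrametricDist C] [CompleteSpace C]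
  [CommRing S] {ξ : C} {σ : S →+* C}

theorem bd {c : ℕ → C} {M : ℝ} (hξ : ‖ξ‖ < 1) (h : ∀ k, ‖c k‖ ≤ M) :
    (Summable fun k => c k * ξ ^ k) ∧ ‖∑' k, c k * ξ ^ k‖ ≤ M := by
  have b (k : ℕ) : ‖c k * ξ ^ k‖ ≤ M * ‖ξ‖ ^ k := by
    rw [norm_mul, norm_pow]; exact mul_le_mul_of_nonneg_right (h k) (by positivity)
  exact ⟨.of_norm_bounded ((summable_geometric_of_lt_one (norm_nonneg _) hξ).mul_left M) b,
    IsUltrametricDist.norm_tsum_le_of_forall_le fun k => (b k).trans (mul_le_of_le_one_right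
      ((norm_nonneg _).trans (h 0)) (pow_le_one₀ (norm_nonneg _) hξ.le))⟩

variable (hσ : ∀ s, ‖σ s‖ ≤ 1) (hξ : ‖ξ‖ < 1)

/-- the value of an integral series -/
def eh : S⟦X⟧ →+* C :=
  have a : ‖ξ‖ ≤ (‖ξ‖ + 1) / 2 := by linarith
  have b : 0 < (‖ξ‖ + 1) / 2 := by positivity
  have c : ∀ f : S⟦X⟧, P022K.FI.Cv ((‖ξ‖ + 1) / 2) (PowerSeries.map σ f) := fun f =>
    .of_bdd (r := 1) (M := 1) b (by linarith) fun n => by simpa using hσ _
  { toFun f := ev ξ (PowerSeries.map σ f)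
    map_one' := by rw [map_one, ev_one]
    map_mul' f g := by rw [map_mul, ev_mul b a (c f) (c g)]
    map_zero' := by simp [ev]
    map_add' f g := by rw [map_add, ev_add a (c f) (c g)] }

theorem eh_eq (f : S⟦X⟧) : eh hσ hξ f = ∑' k, σ (coeff k f) * ξ ^ k := by
  change ev _ _ = _
  simp [ev]

theorem eh_le (f : S⟦X⟧) : ‖eh hσ hξ f‖ ≤ 1 := eh_eq hσ hξ f ▸ (bd hξ fun _ => hσ _).2

theorem eh_X : eh hσ hξ X = ξ := (congrArg (ev ξ) (map_X σ)).trans (ev_X ξ)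

theorem eh_C (s : S) : eh hσ hξ (PowerSeries.C s) = σ s := (congrArg (ev ξ) (map_C σ s)).trans (ev_C ξ _)

theorem eh_lt {f : S⟦X⟧} (h : X ∣ f) : ‖eh hσ hξ f‖ < 1 := by
  obtain ⟨g, rfl⟩ := h
  rw [map_mul, norm_mul, eh_X]
  exact (mul_le_of_le_one_right (norm_nonneg _) (eh_le hσ hξ g)).trans_lt hξ

theorem eh_ker {p : S⟦X⟧ × S⟦X⟧} (h : Fm (bc W S⟦X⟧) X p) :
    KerV (nv C) (vl W C p (eh hσ hξ)) ∧ zf (vl W C p (eh hσ hξ)) = eh hσ hξ p.1 := by
  have z := (h.zw un).map _ (mp (eh hσ hξ))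
  by_cases c : eh hσ hξ p.2 = 0
  · rw [vl, pw_zero c]
    exact ⟨trivial, (z.z0 c).symm⟩
  obtain ⟨_, e⟩ := z.some c
  obtain ⟨u, hu⟩ := h.cube un
  rw [vl, e]
  refine ⟨fun k => ?_, by change -(_ / _) / (-1 / _) = _; field_simp⟩
  replace k : ‖eh hσ hξ p.1 / eh hσ hξ p.2‖ ≤ 1 := k
  rw [hu, map_mul, map_pow] at c k
  have n := norm_pos_iff.2 (pow_ne_zero_iff three_ne_zero |>.1 (left_ne_zero_of_mul c))
  rw [norm_div, div_le_one (norm_pos_iff.2 c), norm_mul, norm_pow] at k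
  exact (k.trans (mul_le_of_le_one_right (by positivity) (eh_le hσ hξ u))).not_gt
    (pow_lt_self_of_lt_one₀ n (eh_lt hσ hξ h.d1) (by norm_num))

omit hξ
include hσ

/-- **the logarithm of a family of points with an even parameter** -/
theorem lg_fam [CharZero C] (p1 : ‖(2 : C)‖ < 1) {q : S⟦X⟧ × S⟦X⟧} {v : S⟦X⟧} {n : ℕ} (hn : 0 < n)
    (h : Fm (bc W S⟦X⟧) X q) (e : q.1 = 2 * v) (dv : X ^ n ∣ v) {L : (bc W C).toAffine.Point →+ C}
    (hL : Lg 2 (bc W C) L) : ∃ γ : ℕ → C, (∀ k, ‖γ k‖ ≤ 1) ∧ (∀ k ≤ n, γ k = σ (coeff k v)) ∧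
      ∀ ξ (hξ : ‖ξ‖ < 1), HasSum (fun k => 2 * (γ k * ξ ^ k)) (L (vl W C q (eh hσ hξ))) := by
  obtain ⟨r, u, s, rfl, H⟩ := iter (C := C) un h e
  have b (k j : ℕ) : dist (σ (coeff k (u j))) (σ (coeff k (u (j + 1)))) ≤ 1 * ‖(2 : C)‖ ^ j := by
    rw [(H j).2.2.2, map_add, map_add, dist_self_add_right, show (2 : S⟦X⟧) = PowerSeries.C 2 from rfl,
      ← map_pow, coeff_C_mul, map_mul, map_pow, map_ofNat, norm_mul, norm_pow, mul_comm]
    exact mul_le_mul_of_nonneg_right (hσ _) (by positivity)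
  choose γ hγ using fun k => cauchySeq_tendsto_of_complete (cauchySeq_of_le_geometric _ _ p1 (b k))
  have g (k : ℕ) : ‖γ k‖ ≤ 1 := le_of_tendsto' (hγ k).norm fun _ => hσ _
  have d (j : ℕ) : X ^ (n + 1) ∣ u j - u 0 := by
    induction j with
    | zero => simp
    | succ j ih =>
      rw [(H j).2.2.2, add_sub_right_comm]
      refine dvd_add ih ((((pow_dvd_pow _ (by omega : n + 1 ≤ n * 2)).trans ((pow_mul _ n 2).dvd.trans
        (pow_dvd_pow_of_dvd ?_ 2))).mul_right _).mul_left _)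
      simpa using dvd_add ((pow_dvd_pow _ n.le_succ).trans ih) dv
  refine ⟨γ, g, fun k hk => tendsto_nhds_unique (hγ k) (tendsto_const_nhds.congr fun j => ?_),
    fun ξ hξ => ?_⟩
  · rw [← sub_eq_zero.1 ((map_sub _ _ _).symm.trans (X_pow_dvd_iff.1 (d j) k (by omega)))]
  have z : ∀ x : ℤ, nv C x ≤ 1 := IsUltrametricDist.norm_intCast_le_one C
  obtain ⟨k1, k2⟩ := eh_ker (W := W) hσ hξ h
  have t := hL.tendsto (E := bc W C) ⟨z _, z _, z _, z _, z _⟩ (by exact_mod_cast p1) k1 (by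
    rw [k2, e, map_mul, map_ofNat, norm_mul]
    exact mul_lt_of_lt_one_right (norm_pos_iff.2 two_ne_zero)
      (eh_lt hσ hξ ((dvd_pow_self X hn.ne').trans dv)))
  refine (tendsto_nhds_unique t ?_) ▸ (bd hξ g).1.hasSum.mul_left 2
  refine (Tendsto.const_mul 2 (f := fun j => eh hσ hξ (u j)) ?_).congr fun j => ?_
  · rw [tendsto_iff_norm_sub_tendsto_zero]
    refine squeeze_zero (fun _ => norm_nonneg _) (fun j => ?_) (by
      simpa only [mul_zero, zero_div] using ((tendsto_pow_atTop_nhds_zero_of_lt_one (norm_nonneg _) p1).const_mul 1).div_const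
        (1 - ‖(2 : C)‖))
    rw [eh_eq, ← (bd hξ fun _ => hσ _).1.tsum_sub (bd hξ g).1]
    simp only [← sub_mul]
    exact (bd hξ fun k => (dist_eq_norm _ _).symm.trans_le
      (dist_le_of_le_geometric_of_tendsto _ _ p1 (b k) (hγ k) j)).2
  · rw [← Pi.smul_apply, ← (H j).2.1, (eh_ker hσ hξ (H j).1).2, (H j).2.2.1, map_mul, map_pow,
      map_ofNat, Nat.cast_ofNat]
    field_simp
    ring

end an

end Hon

open Hon Vale.Agent.P014T in
/-- **the theorem of Honda** -/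
theorem hon2 : HON2 := fun W a κ hq => by
  rw [show WeierstrassCurve.baseChange W ℂ_[2] = bc W ℂ_[2] from congrArg W.map (RingHom.ext_int _ _)]
  refine fun L hL F hF _ => ⟨(hF 0 trivial).trans (map_zero L), fun ω hω n hn => ?_⟩
  let σ : Polynomial ℤ →+* ℂ_[2] := Polynomial.eval₂RingHom (Int.castRingHom _) ω
  have hσ : ∀ s, ‖σ s‖ ≤ 1 := fun s => by
    induction s using Polynomial.induction_on' with
    | add p q a b => exact map_add σ p q ▸ (IsUltrametricDist.norm_add_le_max _ _).trans (max_le a b)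
    | monomial k c =>
      simpa [σ] using mul_le_one₀ (IsUltrametricDist.norm_intCast_le_one ℂ_[2] c) (by positivity)
        (pow_le_one₀ (norm_nonneg _) hω (n := k))
  have : CharP (Polynomial (ZMod 2))⟦X⟧ 2 := charP_of_injective_ringHom C_injective 2
  obtain ⟨y, hy⟩ : ∃ y : (Polynomial ℤ)⟦X⟧, y = PowerSeries.C Polynomial.X := ⟨_, rfl⟩
  have a0 : y * X ^ n = X ^ n * y := mul_comm _ _
  have a1 : y ^ 2 * ((1 + X) ^ 2 - 1) ^ n = X ^ n * (y ^ 2 * (X + 2) ^ n) := by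
    rw [mul_left_comm, ← mul_pow]; congr 2; ring
  have a2 : y ^ 4 * ((1 + X) ^ 4 - 1) ^ n = X ^ n * (y ^ 4 * (X * (X ^ 2 + 4 * X + 6) + 4) ^ n) := by
    rw [mul_left_comm, ← mul_pow]; congr 2; ring
  have x := dvd_pow_self (X : (Polynomial ℤ)⟦X⟧) hn.ne'
  obtain ⟨w₀, h0⟩ := ex_fm (V := bc W _) (x.trans ⟨_, a0⟩)
  obtain ⟨w₁, h1⟩ := ex_fm (V := bc W _) (x.trans ⟨_, a1⟩)
  obtain ⟨w₂, h2⟩ := ex_fm (V := bc W _) (x.trans ⟨_, a2⟩)
  have r : rd X = X := map_X _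
  obtain ⟨q, b1, b2, b3, b4, b5⟩ := frb (C := ℂ_[2]) un hq rd (r ▸ un) h0 h1 h2 (by
      simp only [map_mul, map_pow, map_sub, map_add, map_one, r, add_pow_char, one_pow,
        add_sub_cancel_left]
      ring) (by
      simp only [map_mul, map_pow, map_sub, map_add, map_one]
      rw [mul_pow, pow_right_comm _ n, sub_pow_char (p := 2), ← pow_mul, ← pow_mul, one_pow])
    ⟨_, a0⟩ ⟨_, a1⟩ ⟨_, a2⟩
  obtain ⟨v, e⟩ := rd_zero b5
  have c (k : ℕ) : coeff k q.1 = coeff k v + coeff k v := by rw [e, two_mul, map_add]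
  have dv := X_pow_dvd_iff.2 fun k hk =>
    add_self_eq_zero.1 ((c k).symm.trans (X_pow_dvd_iff.1 b3 k hk))
  obtain ⟨γ, g1, g2, g3⟩ := lg_fam hσ Ah.two_lt hn b1 e dv hL
  refine ⟨γ, g1, fun k hk => by rw [g2 k hk.le, X_pow_dvd_iff.1 dv k hk, map_zero], ?_, fun ξ hξ => ?_⟩
  · have := X_pow_dvd_iff.1 ((pow_mul _ n 2).dvd.trans b4) n (by omega)
    dsimp only at this
    rw [map_sub, sub_eq_zero, c, a0, a1, a2, mul_left_comm 2, mul_left_comm (Int.cast a),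
      mul_left_comm (Int.cast κ), ← mul_sub, ← mul_add, coeff_X_pow_mul', if_pos le_rfl, Nat.sub_self,
      coeff_zero_eq_constantCoeff_apply] at this
    rw [g2 n le_rfl, two_mul, ← map_add, this, hy]
    have s : σ Polynomial.X = ω := Polynomial.eval₂_X _ _
    simp only [map_add, map_sub, map_mul, map_pow, map_ofNat, map_intCast, constantCoeff_C,
      constantCoeff_X, s, zero_mul, zero_add]
    ring
  · have k := fun {p} h => eh_ker (W := W) hσ hξ (p := p) h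
    have := g3 ξ hξ
    rw [b2, Pi.add_apply, Pi.sub_apply, Pi.smul_apply, Pi.smul_apply, Pi.smul_apply, map_add,
      map_sub, map_zsmul, map_zsmul, map_zsmul, ← hF _ (k h0).1, ← hF _ (k h1).1, ← hF _ (k h2).1,
      (k h0).2, (k h1).2, (k h2).2] at this
    simpa [hy, eh_X, eh_C, σ] using this

end Vale.Agent.P014W
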