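import Vale.Agent.P014U.Gt.Fr
import Mathlib.RingTheory.Henselian

/-! # P014W, block HON: points of the formal group over a ring (helper37) -/

set_option autoImplicit false
set_option linter.all false

open scoped Classical
open WeierstrassCurve WeierstrassCurve.Affine P179W

noncomputable section

namespace Vale.Agent.P014W.Hon

open Vale.Agent.P014U.Gt (ad db)

section ring

variable {R S : Type} [CommRing R] [CommRing S] {V : WeierstrassCurve R} {E : WeierstrassCurve S}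
  {p q r : R × R} {t : R}

/-- a point in the coordinates `z = -x / y`, `w = -1 / y` -/
structure Zw (V : WeierstrassCurve R) (p : R × R) : Prop where
  eq : p.2 = p.1 ^ 3 + V.a₁ * p.1 * p.2 + V.a₂ * p.1 ^ 2 * p.2 + V.a₃ * p.2 ^ 2 +
    V.a₄ * p.1 * p.2 ^ 2 + V.a₆ * p.2 ^ 3
  un : IsUnit (1 - (V.a₁ * p.1 + V.a₂ * p.1 ^ 2 + 2 * V.a₃ * p.2 + 2 * V.a₄ * p.1 * p.2 +
    3 * V.a₆ * p.2 ^ 2))

/-- three points on the line `w = l z + n` -/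
structure Ln (V : WeierstrassCurve R) (p q r : R × R) (l n : R) : Prop where
  e1 : p.2 = l * p.1 + n
  e2 : q.2 = l * q.1 + n
  e3 : r.2 = l * r.1 + n
  un : IsUnit (1 + V.a₂ * l + V.a₄ * l ^ 2 + V.a₆ * l ^ 3)
  s1 : (1 + V.a₂ * l + V.a₄ * l ^ 2 + V.a₆ * l ^ 3) * (p.1 + q.1 + r.1) =
    -(V.a₁ * l + V.a₂ * n + V.a₃ * l ^ 2 + 2 * V.a₄ * l * n + 3 * V.a₆ * l ^ 2 * n)
  s2 : (1 + V.a₂ * l + V.a₄ * l ^ 2 + V.a₆ * l ^ 3) * (p.1 * q.1 + p.1 * r.1 + q.1 * r.1) =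
    V.a₁ * n + 2 * V.a₃ * l * n + V.a₄ * n ^ 2 + 3 * V.a₆ * l * n ^ 2 - l
  s3 : (1 + V.a₂ * l + V.a₄ * l ^ 2 + V.a₆ * l ^ 3) * (p.1 * q.1 * r.1) =
    -(V.a₃ * n ^ 2 + V.a₆ * n ^ 3 - n)

theorem Zw.map (h : Zw V p) (φ : R →+* S) (e : V.map φ = E) : Zw E (φ p.1, φ p.2) := by
  subst e
  exact ⟨by simpa using congrArg φ h.eq, by simpa [map_ofNat] using h.un.map φ⟩

theorem Ln.map {l n : R} (h : Ln V p q r l n) (φ : R →+* S) (e : V.map φ = E) :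
    Ln E (φ p.1, φ p.2) (φ q.1, φ q.2) (φ r.1, φ r.2) (φ l) (φ n) := by
  subst e
  exact ⟨by simpa using congrArg φ h.e1, by simpa using congrArg φ h.e2,
    by simpa using congrArg φ h.e3, by simpa using h.un.map φ,
    by simpa [map_ofNat] using congrArg φ h.s1, by simpa [map_ofNat] using congrArg φ h.s2,
    by simpa using congrArg φ h.s3⟩

/-- a point with small coordinates -/
structure Fm (V : WeierstrassCurve R) (t : R) (p : R × R) : Prop where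
  eq : p.2 = p.1 ^ 3 + V.a₁ * p.1 * p.2 + V.a₂ * p.1 ^ 2 * p.2 + V.a₃ * p.2 ^ 2 +
    V.a₄ * p.1 * p.2 ^ 2 + V.a₆ * p.2 ^ 3
  d1 : t ∣ p.1
  d2 : t ∣ p.2

theorem Fm.map (h : Fm V t p) (φ : R →+* S) (e : V.map φ = E) : Fm E (φ t) (φ p.1, φ p.2) := by
  subst e
  exact ⟨by simpa using congrArg φ h.eq, map_dvd φ h.d1, map_dvd φ h.d2⟩

theorem Fm.zero : Fm V t 0 := ⟨by simp, dvd_zero _, dvd_zero _⟩

variable (ht : ∀ x, t ∣ x → IsUnit (1 - x))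
include ht

theorem Fm.zw (h : Fm V t p) : Zw V p := by
  obtain ⟨z, w⟩ := p
  obtain ⟨e, ⟨a, rfl : z = _⟩, b, rfl : w = _⟩ := h
  exact ⟨e, ht _ ⟨V.a₁ * a + V.a₂ * a * (t * a) + 2 * V.a₃ * b + 2 * V.a₄ * a * (t * b) +
    3 * V.a₆ * b * (t * b), by ring⟩⟩

theorem Fm.cube (h : Fm V t p) : p.1 ^ 3 ∣ p.2 := by
  obtain ⟨z, w⟩ := p
  obtain ⟨e, ⟨a, rfl : z = _⟩, b, rfl : w = _⟩ := h
  obtain ⟨u, hu⟩ := (ht _ ⟨V.a₁ * a + V.a₂ * a * (t * a) + V.a₃ * b + V.a₄ * a * (t * b) +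
    V.a₆ * b * (t * b), rfl⟩).exists_right_inv
  exact ⟨u, by linear_combination u * e - t * b * hu⟩

/-- **the third point of a line** -/
theorem Fm.third (h : Fm V t p) (k : Fm V t q) : ∃ r l n, Fm V t r ∧ Ln V p q r l n ∧
    ∀ d, d ∣ p.1 → d ∣ q.1 → d ^ 2 ∣ p.1 + q.1 + r.1 := by
  obtain ⟨c₁, h1⟩ := h.cube ht
  obtain ⟨c₂, h2⟩ := k.cube ht
  obtain ⟨z₁, w₁⟩ := p
  obtain ⟨z₂, w₂⟩ := q
  obtain ⟨e₁, a1, b1⟩ := h
  obtain ⟨e₂, a2, b2⟩ := k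
  dsimp only at *
  obtain ⟨u, hu⟩ := (ht (V.a₁ * z₂ + V.a₂ * z₂ * z₂ + V.a₃ * (w₁ + w₂) + V.a₄ * z₂ * (w₁ + w₂) +
    V.a₆ * (w₁ * w₁ + w₁ * w₂ + w₂ * w₂)) (by
      apply_rules [dvd_add, Dvd.dvd.mul_left])).exists_left_inv
  obtain ⟨l, hl⟩ : ∃ l, l = u * (z₁ * z₁ + z₁ * z₂ + z₂ * z₂ + V.a₁ * w₁ + V.a₂ * (z₁ + z₂) * w₁ +
    V.a₄ * w₁ * w₁) := ⟨_, rfl⟩
  obtain ⟨n, hn⟩ : ∃ n, w₁ = l * z₁ + n := ⟨w₁ - l * z₁, by ring⟩
  have hn' : w₂ = l * z₂ + n := by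
    linear_combination hn - u * e₁ + u * e₂ + (w₁ - w₂) * hu + (z₁ - z₂) * hl
  have dl : ∀ d, d ∣ z₁ → d ∣ z₂ → d ^ 2 ∣ l ∧ d ^ 2 ∣ n := fun d a b => by
    have w : d ^ 2 ∣ w₁ := h1 ▸ ((pow_dvd_pow_of_dvd a 2).trans (pow_dvd_pow _ (by norm_num))).mul_right _
    have s : ∀ {x y}, d ∣ x → d ∣ y → d ^ 2 ∣ x * y := fun a b => sq d ▸ mul_dvd_mul a b
    have : d ^ 2 ∣ l := hl ▸ (dvd_add (dvd_add (dvd_add (dvd_add (dvd_add (s a a) (s a b)) (s b b))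
      (w.mul_left _)) (w.mul_left _)) (w.mul_left _)).mul_left _
    exact ⟨this, (dvd_add_right (this.mul_right _)).1 (hn ▸ w)⟩
  have tl := (dvd_pow_self t two_ne_zero).trans (dl t a1 a2).1
  have tn := (dvd_pow_self t two_ne_zero).trans (dl t a1 a2).2
  have hD : IsUnit (1 + V.a₂ * l + V.a₄ * l ^ 2 + V.a₆ * l ^ 3) := by
    convert ht ((-(V.a₂ + V.a₄ * l + V.a₆ * l ^ 2)) * l) (tl.mul_left _) using 1
    ring
  obtain ⟨v, hv⟩ := hD.exists_right_inv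
  obtain ⟨z₃, h3⟩ : ∃ z, z₁ + z₂ + z = (-v * (V.a₁ + V.a₃ * l)) * l +
      (-v * (V.a₂ + 2 * V.a₄ * l + 3 * V.a₆ * l ^ 2)) * n := ⟨_ - (z₁ + z₂), add_sub_cancel _ _⟩
  have d3 : ∀ d, d ∣ z₁ → d ∣ z₂ → d ^ 2 ∣ z₁ + z₂ + z₃ := fun d a b =>
    h3 ▸ dvd_add ((dl d a b).1.mul_left _) ((dl d a b).2.mul_left _)
  have t3 : t ∣ z₃ := (dvd_add_right (dvd_add a1 a2)).1
    ((dvd_pow_self t two_ne_zero).trans (d3 t a1 a2))
  have m : l * (1 - (V.a₁ * z₂ + V.a₂ * z₂ * z₂ + V.a₃ * (w₁ + w₂) + V.a₄ * z₂ * (w₁ + w₂) +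
      V.a₆ * (w₁ * w₁ + w₁ * w₂ + w₂ * w₂))) = z₁ * z₁ + z₁ * z₂ + z₂ * z₂ + V.a₁ * w₁ +
      V.a₂ * (z₁ + z₂) * w₁ + V.a₄ * w₁ * w₁ := by
    rw [hl, mul_right_comm, hu, one_mul]
  have s1 : (1 + V.a₂ * l + V.a₄ * l ^ 2 + V.a₆ * l ^ 3) * (z₁ + z₂ + z₃) =
      -(V.a₁ * l + V.a₂ * n + V.a₃ * l ^ 2 + 2 * V.a₄ * l * n + 3 * V.a₆ * l ^ 2 * n) := by
    rw [h3]
    linear_combination -(V.a₁ * l + V.a₂ * n + V.a₃ * l ^ 2 + 2 * V.a₄ * l * n +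
      3 * V.a₆ * l ^ 2 * n) * hv
  clear hl hu h1 h2 dl
  subst hn hn'
  have s2 : (1 + V.a₂ * l + V.a₄ * l ^ 2 + V.a₆ * l ^ 3) * (z₁ * z₂ + z₁ * z₃ + z₂ * z₃) =
      V.a₁ * n + 2 * V.a₃ * l * n + V.a₄ * n ^ 2 + 3 * V.a₆ * l * n ^ 2 - l := by
    linear_combination (z₁ + z₂) * s1 + m
  have s3 : (1 + V.a₂ * l + V.a₄ * l ^ 2 + V.a₆ * l ^ 3) * (z₁ * z₂ * z₃) =
      -(V.a₃ * n ^ 2 + V.a₆ * n ^ 3 - n) := by
    linear_combination z₁ * s2 - z₁ ^ 2 * s1 - e₁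
  exact ⟨(z₃, l * z₃ + n), l, n, ⟨by linear_combination z₃ * s2 - z₃ ^ 2 * s1 - s3, t3,
    dvd_add (tl.mul_right _) tn⟩, ⟨rfl, rfl, rfl, hD, s1, s2, s3⟩, d3⟩

theorem Fm.ext (h : Fm V t p) (k : Fm V t q) (e : p.1 = q.1) : p = q := by
  obtain ⟨_, _, _, -, a, -⟩ := h.third ht k
  exact Prod.ext e (by rw [a.e1, a.e2, e])

omit ht in
theorem ex_fm [HenselianRing R (Ideal.span {t})] {z : R} (hz : t ∣ z) : ∃ w, Fm V t (z, w) := by
  open Polynomial in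
  obtain ⟨v, h1, h2⟩ := HenselianRing.is_henselian (I := Ideal.span {t}) (X ^ 3 +
    (C (V.a₁ * z + V.a₂ * z ^ 2 - 1) * X ^ 2 + C (V.a₃ * z ^ 3 + V.a₄ * z ^ 4) * X +
      C (V.a₆ * z ^ 6))) (monic_X_pow_add (by compute_degree!)) 1
    (Ideal.mem_span_singleton.2 (hz.trans ⟨V.a₁ + V.a₂ * z + V.a₃ * z ^ 2 + V.a₄ * z ^ 3 +
      V.a₆ * z ^ 5, by simp; ring⟩)) (by
        convert isUnit_one
        rw [← map_one (Ideal.Quotient.mk _), Ideal.Quotient.eq]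
        exact Ideal.mem_span_singleton.2 (hz.trans ⟨2 * V.a₁ + 2 * V.a₂ * z + V.a₃ * z ^ 2 +
          V.a₄ * z ^ 3, by simp [-map_pow, -map_mul, -map_add, -map_sub]; ring⟩))
  obtain ⟨u, hu⟩ := (Ideal.isUnit_of_sub_one_mem_jacobson_bot v
    (HenselianRing.jac h2)).exists_right_inv
  simp only [Polynomial.IsRoot.def, Polynomial.eval_add, Polynomial.eval_mul, Polynomial.eval_pow,
    Polynomial.eval_C, Polynomial.eval_X] at h1
  refine ⟨z ^ 3 * u, ?_, hz, ((hz.trans (dvd_pow_self z three_ne_zero)).mul_right u :)⟩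
  dsimp only
  linear_combination -z ^ 3 * u ^ 3 * h1 + z ^ 3 * ((v * u) ^ 2 + v * u + 1 +
    u * (V.a₁ * z + V.a₂ * z ^ 2 - 1) * (v * u + 1) + u ^ 2 * (V.a₃ * z ^ 3 + V.a₄ * z ^ 4)) * hu

end ring

section field

variable {K : Type} [Field K] {E : WeierstrassCurve K} {p q r : K × K}

/-- the point of the curve -/
def pw (E : WeierstrassCurve K) (p : K × K) : E.toAffine.Point :=
  if p.2 = 0 then 0 else pt E (p.1 / p.2) (-1 / p.2)

theorem pw_zero (h : p.2 = 0) : pw E p = 0 := if_pos h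

theorem Zw.some (h : Zw E p) (n : p.2 ≠ 0) : ∃ k, pw E p = .some (p.1 / p.2) (-1 / p.2) k := by
  obtain ⟨z, w⟩ := p
  obtain ⟨e, u⟩ := h
  dsimp only at *
  have k : E.toAffine.Nonsingular (z / w) (-1 / w) := by
    refine (nonsing_iff _ _).2 ⟨?_, by_contra fun c => u.ne_zero ?_⟩
    · rw [equation_iff]
      field_simp
      linear_combination e
    · simp only [not_or, not_not, phi, psi] at c
      obtain ⟨a, b⟩ := c
      field_simp at a b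
      exact mul_left_cancel₀ n (by linear_combination 3 * e + z * a + w * b)
  exact ⟨k, (if_neg n).trans (pt_of k)⟩

theorem Zw.z0 (h : Zw E p) (n : p.2 = 0) : p.1 = 0 :=
  pow_eq_zero_iff three_ne_zero |>.1 (by simpa [n] using h.eq.symm)

theorem ver {l D : K} (h : Zw E p) (k : Zw E q) (e1 : p.2 = l * p.1) (e2 : q.2 = l * q.1)
    (s1 : D * (p.1 + q.1) = -(E.a₁ * l + E.a₃ * l ^ 2)) (s2 : D * (p.1 * q.1) = -l) :
    pw E p + pw E q = 0 := by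
  by_cases l0 : l = 0
  · rw [pw_zero (by rw [e1, l0, zero_mul]), pw_zero (by rw [e2, l0, zero_mul]), add_zero]
  obtain ⟨a, b⟩ := mul_ne_zero_iff.1 (right_ne_zero_of_mul (s2 ▸ neg_ne_zero.2 l0))
  obtain ⟨_, c⟩ := h.some (e1 ▸ mul_ne_zero l0 a)
  obtain ⟨_, d⟩ := k.some (e2 ▸ mul_ne_zero l0 b)
  rw [c, d]
  refine Point.add_of_Y_eq ?_ ?_
  · rw [e1, e2]; field_simp
  · rw [negY, e1, e2]
    field_simp
    exact mul_left_cancel₀ l0 (by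
      linear_combination (p.1 * q.1) * s1 - (p.1 + q.1) * s2)

/-- **three points on a line** -/
theorem Ln.sum {l n : K} (L : Ln E p q r l n) (h : Zw E p) (k : Zw E q) (m : Zw E r) :
    pw E p + pw E q + pw E r = 0 := by
  obtain ⟨e1, e2, e3, D, s1, s2, s3⟩ := L
  replace D := D.ne_zero
  by_cases n0 : n = 0
  · subst n0
    rw [add_zero] at e1 e2 e3
    have v := fun {p q} => @ver K _ E p q l (1 + E.a₂ * l + E.a₄ * l ^ 2 + E.a₆ * l ^ 3)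
    rcases mul_eq_zero.1 ((mul_eq_zero.1 (s3.trans (by ring))).resolve_left D) with c | c
    · rcases mul_eq_zero.1 c with c | c <;> rw [c] at s1 s2
      · rw [pw_zero (by rw [e1, c, mul_zero]), zero_add]
        exact v k m e2 e3 (by linear_combination s1) (by linear_combination s2)
      · rw [pw_zero (p := q) (by rw [e2, c, mul_zero]), add_zero]
        exact v h m e1 e3 (by linear_combination s1) (by linear_combination s2)
    · rw [c] at s1 s2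
      rw [pw_zero (p := r) (by rw [e3, c, mul_zero]), add_zero]
      exact v h k e1 e2 (by linear_combination s1) (by linear_combination s2)
  have w : ∀ {p : K × K}, Zw E p → p.2 = l * p.1 + n → p.2 ≠ 0 ∧
      -1 / p.2 = l / n * (p.1 / p.2) - 1 / n := fun {p} h e => by
    have : p.2 ≠ 0 := fun c => n0 (by rw [c, h.z0 c] at e; simpa using e.symm)
    exact ⟨this, by field_simp; linear_combination e⟩
  obtain ⟨w1, y1⟩ := w h e1
  obtain ⟨w2, y2⟩ := w k e2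
  obtain ⟨w3, y3⟩ := w m e3
  obtain ⟨h1, c1⟩ := h.some w1
  obtain ⟨h2, c2⟩ := k.some w2
  obtain ⟨h3, c3⟩ := m.some w3
  have e0 : (1 + E.a₂ * l + E.a₄ * l ^ 2 + E.a₆ * l ^ 3) * (p.2 * q.2 * r.2) = n ^ 3 := by
    rw [e1, e2, e3]
    linear_combination l ^ 3 * s3 + l ^ 2 * n * s2 + l * n ^ 2 * s1
  have S1 : p.1 / p.2 + q.1 / q.2 + r.1 / r.2 = (l / n) ^ 2 + E.a₁ * (l / n) - E.a₂ := by
    rw [show _ + _ = (p.1 * q.2 * r.2 + p.2 * q.1 * r.2 + p.2 * q.2 * r.1) / (p.2 * q.2 * r.2) by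
      field_simp, ← mul_div_mul_left _ _ D, e0, show _ * _ = n * l ^ 2 + E.a₁ * l * n ^ 2 -
        E.a₂ * n ^ 3 by
      rw [e1, e2, e3]; linear_combination 3 * l ^ 2 * s3 + 2 * l * n * s2 + n ^ 2 * s1]
    field_simp
  have S2 : p.1 / p.2 * (q.1 / q.2) + p.1 / p.2 * (r.1 / r.2) + q.1 / q.2 * (r.1 / r.2) =
      E.a₄ + 2 * (l / n) * (1 / n) + E.a₁ * (1 / n) - E.a₃ * (l / n) := by
    rw [show _ + _ = (p.1 * q.1 * r.2 + p.1 * q.2 * r.1 + p.2 * q.1 * r.1) / (p.2 * q.2 * r.2) by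
      field_simp, ← mul_div_mul_left _ _ D, e0, show _ * _ = E.a₄ * n ^ 3 + 2 * l * n +
        E.a₁ * n ^ 2 - E.a₃ * l * n ^ 2 by
      rw [e1, e2, e3]; linear_combination 3 * l * s3 + n * s2]
    field_simp
  rw [c1, c2, c3, add_eq_zero_iff_eq_neg, Point.neg_some]
  clear c1 c2 c3
  generalize p.1 / p.2 = x₁, q.1 / q.2 = x₂, r.1 / r.2 = x₃, -1 / p.2 = y₁, -1 / q.2 = y₂,
    -1 / r.2 = y₃, l / n = L, 1 / n = N at *
  have X : E.toAffine.addX x₁ x₂ L = x₃ := by rw [addX]; linear_combination -S1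
  have Y : E.toAffine.addY x₁ x₂ y₁ L = E.toAffine.negY x₃ y₃ := by
    rw [addY, negAddY, X, y1, y3]; congr 1; ring
  by_cases c : x₁ = x₂
  · subst c
    obtain rfl : y₁ = y₂ := y1.trans y2.symm
    have t : phi E x₁ y₁ = L * psi E x₁ y₁ := by
      rw [phi, psi, y1]; linear_combination 2 * x₁ * S1 - S2
    exact (db h1 (fun z => ((nonsing_iff _ _).1 h1).2.elim (fun a => a (by rw [t, z, mul_zero]))
      fun a => a z) t X Y).elim fun _ a => (two_zsmul _).symm.trans a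
  · exact (ad h1 h2 c (by rw [y1, y2]; ring) X Y).elim fun _ a => a

end field

section grp

variable {R G : Type} [CommRing R] [AddCommGroup G] {V : WeierstrassCurve R} {t : R}

/-- the points with a parameter modulo `d ^ 2` -/
def Hd (ht : ∀ x, t ∣ x → IsUnit (1 - x)) (π : R × R → G) (h0 : π 0 = 0)
    (h : ∀ p q r l n, Zw V p → Zw V q → Zw V r → Ln V p q r l n → π p + π q + π r = 0) (d : R) :
    AddSubgroup (G × R) :=
  have ng : ∀ p, Fm V t p → d ∣ p.1 → ∃ r, Fm V t r ∧ π r = -π p ∧ d ∣ r.1 ∧ d ^ 2 ∣ p.1 + r.1 :=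
    fun p a b => by
      obtain ⟨r, l, n, c1, c2, c3⟩ := a.third ht .zero
      have := h _ _ _ _ _ (a.zw ht) (Fm.zero.zw ht) (c1.zw ht) c2
      have e : d ^ 2 ∣ p.1 + r.1 := by simpa using c3 d b (dvd_zero _)
      exact ⟨r, c1, eq_neg_of_add_eq_zero_right (by rwa [h0, add_zero] at this),
        (dvd_add_right b).1 ((dvd_pow_self d two_ne_zero).trans e), e⟩
  { carrier := {x | ∃ p, Fm V t p ∧ π p = x.1 ∧ d ∣ p.1 ∧ d ^ 2 ∣ p.1 - x.2}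
    zero_mem' := ⟨0, .zero, h0, dvd_zero _, by simp⟩
    neg_mem' := fun {x} ⟨p, a, b, c, e⟩ => (ng p a c).imp fun r ⟨f1, f2, f3, f4⟩ =>
      ⟨f1, f2.trans (congrArg _ b), f3, by convert f4.sub e using 1; simp⟩
    add_mem' := fun {x y} ⟨p, a, b, c, e⟩ ⟨q, a', b', c', e'⟩ => by
      obtain ⟨r, l, n, c1, c2, c3⟩ := a.third ht a'
      replace c3 := c3 d c c'
      refine (ng r c1 ((dvd_add_right (dvd_add c c')).1
        ((dvd_pow_self d two_ne_zero).trans c3))).imp fun s ⟨f1, f2, f3, f4⟩ => ⟨f1, ?_, f3, ?_⟩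
      · rw [f2, Prod.fst_add, ← b, ← b']
        exact (eq_neg_of_add_eq_zero_left (h _ _ _ _ _ (a.zw ht) (a'.zw ht) (c1.zw ht) c2)).symm
      · convert (f4.sub c3).add (e.add e') using 1
        simp; ring }

end grp

end Vale.Agent.P014W.Hon
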