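import Vale.Agent.P014W.Hn
import Vale.Agent.P014W.Frm

/-! # P014W: row HP2 from the theorem of Honda -/

set_option autoImplicit false
set_option linter.all false

open scoped Classical
open WeierstrassCurve P179W

noncomputable section

namespace Vale.Agent.P014W

open Vale.Agent.P014T Vale.Agent.P014T.Lc

theorem hp2 (H : HON2) : HP2 := fun A B hD hn => by
  obtain ⟨κ, a, b, W, c, d, e⟩ := Frm.frm A B hD hn
  refine ⟨κ, a, b, fun ι P hι L hL => ?_⟩
  obtain ⟨L', u, pt, l, u0, k⟩ := e ι P hι L hL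
  have hc : CoeffIn (W⁄ℂ_[2]) {z | nv ℂ_[2] z ≤ 1} := by
    have := Frm.cfq (nv ℂ_[2]) W
    rwa [← Frm.eq_bc W] at this
  have s := fun t (m : ‖t‖ < 1) => Lc.surj hc (z := t)
    (by simpa [WeierstrassCurve.baseChange] using c) m
  choose! Q q z using s
  have f : ∀ R, KerV (nv ℂ_[2]) R → L' (Q (zf R)) = L' R := fun R r =>
    congrArg L' (zf_inj hc (q _ (zf_lt hc r)) r (z _ (zf_lt hc r)))
  refine ⟨fun t => L' (Q t), u, pt, H W _ κ d L' l _ f fun t m => ⟨_, q t m, z t m⟩, u0,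
    fun t m => ⟨(k t m).1, ?_⟩⟩
  obtain ⟨R, r, i, j⟩ := (k t m).2
  rw [j, ← i, ← f R r]

end Vale.Agent.P014W
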