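import Vale.Agent.P014W.Lev

/-! # P014W, row KEY: from the bounded function to one side of the tower -/

set_option autoImplicit false
set_option linter.all false

open scoped Classical UpperHalfPlane
open PadicInt

noncomputable section

namespace Vale.Agent.P014W.Tw

open Vale.Agent.P022 (Qb)
open Vale.Agent.P027M.M (io)
open P004N (RN)

/-- the solution of the recursion is bounded -/
theorem bd_sol {Γ : Type} [CommGroup Γ] {ι : Qb →+* ℂ_[2]} {c : ℂ} {e κ : ℤ} {X Y : Qb}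
    {F : ℕ → Γ → ℂ} {C : ℝ} (hX : Y * X = 1) (nY : ‖ι Y‖ = 1) (ne : 2 - e * X + κ * X ^ 2 ≠ 0)
    (H : ∀ J s, ∃ (φ : ℕ → Qb) (g : ℕ → ℂ_[2]), ∀ k ≤ J, io (Y ^ k * φ k) * c = F k s ∧
      2 * g k - e * ι X * g (k - 1) + κ * ι X ^ 2 * g (k - 2) = ι (φ k) ∧ ‖g k‖ ≤ C) :
    Bd ι c (sol e κ (io X) F) := by
  refine ⟨C, fun J s => ?_⟩
  obtain ⟨φ, g, H⟩ := H J s
  have x := congrArg ι hX
  rw [map_mul, map_one] at x
  have z : (0 ≤ J) → ∃ b, io b * c = sol e κ (io X) F 0 s ∧ ι b = ι Y ^ 0 * g 0 := fun l => by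
    obtain ⟨p, q, -⟩ := H 0 l
    refine ⟨φ 0 / (2 - e * X + κ * X ^ 2), ?_, ?_⟩
    · simp only [sol, ← p, map_div₀, map_add, map_sub, map_mul, map_pow, map_intCast, map_ofNat]
      ring
    · rw [map_div₀, div_eq_iff ((map_ne_zero ι).2 ne), ← q]
      simp only [map_add, map_sub, map_mul, map_pow, map_intCast, map_ofNat]
      ring
  have k : ∀ k ≤ J, ∃ b, io b * c = sol e κ (io X) F k s ∧ ι b = ι Y ^ k * g k := fun k => by
    induction k using Nat.twoStepInduction with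
    | zero => exact z
    | one =>
      intro l
      obtain ⟨p, q, -⟩ := H 1 l
      obtain ⟨b, u, v⟩ := z J.zero_le
      refine ⟨(Y ^ 1 * φ 1 + (e - κ * X) * b) / 2, ?_, ?_⟩ <;>
        simp only [sol, map_div₀, map_add, map_sub, map_mul, map_pow, map_intCast, map_ofNat,
          Nat.reduceSub] at p q u ⊢
      · linear_combination p / 2 + (e - κ * io X) / 2 * u
      · linear_combination -ι Y / 2 * q + (e - κ * ι X) / 2 * v - (e - κ * ι X) * g 0 / 2 * x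
    | more j a b =>
      intro l
      obtain ⟨p, q, -⟩ := H _ l
      obtain ⟨a, u, v⟩ := a (by omega)
      obtain ⟨b, u', v'⟩ := b (by omega)
      refine ⟨(Y ^ (j + 2) * φ (j + 2) + e * b - κ * a) / 2, ?_, ?_⟩ <;>
        simp only [sol, map_div₀, map_add, map_sub, map_mul, map_pow, map_intCast, map_ofNat,
          Nat.add_sub_cancel, show j + 2 - 1 = j + 1 from rfl] at p q ⊢
      · linear_combination p / 2 + e / 2 * u' - κ / 2 * u
      · linear_combination -ι Y ^ (j + 2) / 2 * q + e / 2 * v' - κ / 2 * v - (e * ι Y ^ (j + 1) *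
          g (j + 1) - κ * ι Y ^ j * g j * (ι Y * ι X + 1)) / 2 * x
  obtain ⟨b, u, v⟩ := k J le_rfl
  exact ⟨b, u, by rw [v, norm_mul, norm_pow, nY, one_pow, one_mul]; exact (H J le_rfl).2.2⟩

variable {N m : ℕ} {G : ℍ → ℂ} {a : ℕ → ℤ} {s : ℂ} {ψ : DirichletCharacter Qb m}

/-- **one side** -/
theorem side (hec : HEC) (h : RN N G a) {ι : Qb →+* ℂ_[2]} {c0 : ℝ} {c : ℕ} {e κ : ℤ} {X : Qb}
    (hm : m.Prime) (n : ¬ m ∣ 2 * N) (ψ1 : ψ ≠ 1) (hX : ψ 2 * X = 1)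
    (ne : 2 - e * X + κ * X ^ 2 ≠ 0) (c1 : 1 < c) (c2 : ¬ (2 : ℤ) ∣ c) {C : ℝ}
    (gb : ∀ J, 2 ≤ J → ∃ (f : ZMod (2 ^ J) → Qb) (g : ZMod (2 ^ J) → ℂ_[2]), ∀ z,
      io (f z) * c0 = -Complex.I * (c ^ 4 * Fb N a s ψ (fr z) -
        2 * c ^ 3 * Fb N a s ψ (fr ((c : ZMod (2 ^ J))⁻¹ * z)) +
        c ^ 2 * Fb N a s ψ (fr ((c * c : ZMod (2 ^ J))⁻¹ * z))) ∧
      2 * g z - e * ι X * g (2 * z) + κ * ι X ^ 2 * g (4 * z) = ι (f z + f (-z)) ∧ ‖g z‖ ≤ C) :
    ∃ D L, au L ≠ 0 ∧ Sd ι c0 ta e κ (io X) (-Complex.I * c ^ 4 * Ph a s ψ 2 0)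
      (fun i k => io (ψ 2) ^ i * (-Complex.I * c ^ 4) * lev (Ph a s ψ 2) i k) D L := by
  have N0 : N ≠ 0 := fun z => n (by simp [z])
  obtain ⟨L, l0, dp⟩ := dep (s := s) (ψ := ψ) hec h hm (fun z => n (z.mul_left 2)) N N0 dvd_rfl
  have k := fun r => hec N G a s m ψ 2 r h hm two_ne_zero
  have k' := fun r => hec N G a s m ψ (N * 2) r h hm (mul_ne_zero N0 two_ne_zero)
  have pe : Pe (Ph a s ψ 2) := fun r => (k r).1
  have fl := fun r => (k r).2.1 dvd_rfl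
  have fb : ∀ r, Fb N a s ψ r = Ph a s ψ (N * 2) r := fun r => by
    rw [← (k' r).2.2.1 ψ1, Ph, show ((N * 2 * m : ℕ) : ℤ) = 2 * N * m by push_cast; ring, Fb]
  have c' : (c : ℂ) ≠ 0 := Nat.cast_ne_zero.2 (by omega)
  have ne' := (map_ne_zero io).2 ne
  have x := congrArg io hX
  simp only [map_add, map_sub, map_mul, map_pow, map_intCast, map_ofNat, map_one] at ne' x
  refine ⟨sol e κ (io X) fun i => op ((-1, -1) :: (1 / c, (un c)⁻¹) :: (1 / c, (un c)⁻¹) :: L)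
    fun k => io (ψ 2) ^ i * (-Complex.I * c ^ 4) * lev (Ph a s ψ 2) i k, _, ?_, bd_sol (C := C) hX ?_ ne fun J t => ?_, funext fun t => ?_, funext fun t => ?_,
    fun i => funext fun t => ?_, fun i j l => funext fun t => ?_, fun t => mul_div_cancel₀ _ ne',
    fun t => mul_div_cancel₀ _ (two_ne_zero' ℂ), fun i t => mul_div_cancel₀ _ (two_ne_zero' ℂ), ne',
    right_ne_zero_of_mul_eq_one x⟩
  · have : 1 - io (1 / c : Qb) ≠ 0 := by
      rw [map_div₀, map_one, map_natCast, sub_ne_zero, ne_comm, Ne, div_eq_one_iff_eq c', eq_comm,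
        Nat.cast_eq_one]
      omega
    exact mul_ne_zero (by norm_num) (mul_ne_zero this (mul_ne_zero this l0))
  · have := congrArg (‖ι ·‖) (pw hm (left_ne_zero_of_mul_eq_one hX))
    simp only [map_pow, norm_pow, map_one, norm_one] at this
    exact (pow_eq_one_iff_of_nonneg (norm_nonneg _) (by have := hm.two_le; omega)).1 this
  · obtain ⟨f, g, gb⟩ := gb (J + 2) (by omega)
    have w : (c : ZMod (2 ^ (J + 2))) * toZModPow (J + 2) ((un c)⁻¹ : ℤ_[2]ˣ) = 1 := by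
      rw [← map_natCast (toZModPow (J + 2) : ℤ_[2] →+* _), ← Int.cast_natCast, ← un_val c2,
        ← map_mul, Units.mul_inv, map_one]
    have w2 : (c * c : ZMod (2 ^ (J + 2)))⁻¹ = toZModPow (J + 2) ((un c)⁻¹ : ℤ_[2]ˣ) *
        toZModPow (J + 2) ((un c)⁻¹ : ℤ_[2]ˣ) :=
      ZMod.inv_eq_of_mul_eq_one _ _ _ (by rw [mul_mul_mul_comm, w, one_mul])
    have z0 : (2 : ZMod (2 ^ (J + 2))) ^ (J + 2) = 0 := by exact_mod_cast ZMod.natCast_self _
    have z1 : ∀ j ≤ J + 2, 2 * (2 ^ (J + 2 - j) * toZModPow (J + 2) (t : ℤ_[2])) =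
        2 ^ (J + 2 - (j - 1)) * toZModPow (J + 2) (t : ℤ_[2]) := fun j l => by
      obtain _ | j := j
      · rw [Nat.sub_zero, z0, zero_mul, mul_zero]
      · rw [← mul_assoc, ← pow_succ', show J + 2 - (j + 1) + 1 = J + 2 - (j + 1 - 1) by omega]
    refine ⟨fun j => f (2 ^ (J + 2 - j) * toZModPow (J + 2) (t : ℤ_[2])) +
      f (-(2 ^ (J + 2 - j) * toZModPow (J + 2) (t : ℤ_[2]))),
      fun j => g (2 ^ (J + 2 - j) * toZModPow (J + 2) (t : ℤ_[2])), fun j l => ⟨?_, ?_, (gb _).2.2⟩⟩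
    · have v : ∀ t : ℤ_[2]ˣ, io (f (2 ^ (J + 2 - j) * toZModPow (J + 2) (t : ℤ_[2]))) * c0 =
          -Complex.I * (c ^ 4 * lev (Ph a s ψ (N * 2)) j t -
            2 * c ^ 3 * lev (Ph a s ψ (N * 2)) j ((un c)⁻¹ * t : ℤ_[2]ˣ) +
            c ^ 2 * lev (Ph a s ψ (N * 2)) j ((un c)⁻¹ * ((un c)⁻¹ * t) : ℤ_[2]ˣ)) := fun t => by
        have pe' : Pe (Ph a s ψ (N * 2)) := fun r => (k' r).1
        simp only [(gb _).1, fb, w2, ZMod.inv_eq_of_mul_eq_one _ _ _ w, Units.val_mul, map_mul,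
          ← pe'.fr (show j ≤ J + 2 by omega), mul_left_comm _ ((2 : ZMod (2 ^ (J + 2))) ^ _),
          mul_assoc]
      have v1 := v t
      have v2 := v (-t)
      rw [Units.val_neg, map_neg, mul_neg, ← Units.val_neg] at v2
      simp only [op_cons, Module.End.mul_apply, ← dp, fa_app, map_mul, map_add, map_pow, map_neg,
        map_one, map_div₀, map_natCast, neg_one_mul]
      field_simp
      linear_combination io (ψ 2) ^ j * (v1 + v2)
    · beta_reduce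
      rw [← (gb _).2.1, show j - 2 = j - 1 - 1 from rfl, ← z1 (j - 1) (by omega), ← z1 j (by omega),
        ← mul_assoc (2 : ZMod _) 2, show (2 * 2 : ZMod (2 ^ (J + 2))) = 4 by norm_num]
  · rw [pe.lev 0 (by simp)]
    simp
  · rw [pe.lev 1 (by simpa using two_dvd t), ← eq_inv_of_mul_eq_one_left x,
      show ((1 : ℤ) : ℚ) / 2 ^ 1 = 0 + 1 / 2 by norm_num, fl]
    ring
  · change _ * lev _ _ (ta i * t : ℤ_[2]ˣ) = -(_ * _)
    rw [Units.val_mul, pe.fl fl, mul_neg]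
  · change _ * lev _ _ (ta i * t : ℤ_[2]ˣ) = _ * _
    rw [Units.val_mul, pe.iv l]

end Vale.Agent.P014W.Tw
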