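import Vale.Agent.P014W.St

/-! # P014W, row KEY: words and rows -/

set_option autoImplicit false
set_option linter.all false

open scoped Classical

noncomputable section

namespace Vale.Agent.P014W

open Vale.Agent.P022 (Qb)
open P004N (RN ALw)
open Vale.Agent.P027M.M (io)

/-- the value without the numbers which are not prime to `S` -/
def Ph (a : ℕ → ℤ) (s : ℂ) {m : ℕ} (ψ : DirichletCharacter Qb m) (S : ℕ) (r : ℚ) : ℂ :=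
  Ls a s fun n => if IsCoprime n (S : ℤ) then uw ψ r n else 0

/-- the factor of the form -/
def Pf (N : ℕ) (a : ℕ → ℤ) (x : Qb) : Qb := 2 - a 2 * x + if 2 ∣ N then 0 else x ^ 2

/-- the bracket vanishes at infinitely many points -/
def Br (N : ℕ) (a : ℕ → ℤ) (e κ : ℤ) : Prop := ∃ (s : ℤ) (t : ℕ), (s = 1 ∨ s = -1) ∧
  ∀ Xs : Finset Qb, ∃ x ∉ Xs, x ≠ 0 ∧
    s * x ^ t * (e - κ * x - x⁻¹) * Pf N a x * (2 - e * x⁻¹ + κ * x⁻¹ ^ 2) =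
      (e - κ * x⁻¹ - x) * Pf N a x⁻¹ * (2 - e * x + κ * x ^ 2)

/-- shifts and Hecke operators -/
def HEC : Prop := ∀ N G a s (m : ℕ) (ψ : DirichletCharacter Qb m) (S : ℕ) (r : ℚ), RN N G a →
  m.Prime → S ≠ 0 → (∀ k : ℤ, Ph a s ψ S (r + k) = Ph a s ψ S r) ∧
    (2 ∣ S → Ph a s ψ S (r + 1 / 2) = -Ph a s ψ S r) ∧
    (ψ ≠ 1 → Ph a s ψ (S * m) r = Ph a s ψ S r) ∧
    ∀ (p : ℕ) (Y : Qb), p.Prime → ¬ p ∣ S → ψ p * Y = 1 → Ph a s ψ (p * S) r =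
      Ph a s ψ S r - a p / p * io Y * Ph a s ψ S (p * r) +
        if p ∣ N then 0 else io Y ^ 2 / p * Ph a s ψ S (p ^ 2 * r)

/-- the involutions of Atkin and Lehner -/
def ALS : Prop := ∀ N G a s (m : ℕ) (ψ : DirichletCharacter Qb m) (Q R D : ℕ) (ε : ℝ) (z z' : ℤ)
  (Y : Qb), RN N G a → m.Prime → Q * R = N → ALw N Q G ε → R ∣ D → D ≠ 0 →
  (D : ℤ) ∣ Q * m ^ 2 * z * z' + 1 → ψ ((-(Q * D ^ 2) : ℤ) : ZMod m) * Y = 1 →
  Ph a s ψ 1 (z / D) = -ε * io Y * Ph a s ψ⁻¹ 1 (z' / D)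

/-- the end -/
def BRF : Prop := ∀ N G a (e κ : ℤ), RN N G a → Cs e κ → Br N a e κ →
  a 2 = e ∧ a (2 ^ 2) = e ^ 2 - 2 * κ

end Vale.Agent.P014W
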