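import Vale.Agent.P014W.Twr
import Vale.Agent.P004N.H461.Cf

/-! # P014W, row KEY: one side of the tower -/

set_option autoImplicit false
set_option linter.all false

open scoped Classical UpperHalfPlane
open PadicInt

noncomputable section

namespace Vale.Agent.P014W.Tw

open Vale.Agent.P022 (Qb)
open Vale.Agent.P027M.M (io)
open P004N (RN)

/-- periodic functions -/
def Pe (H : ℚ → ℂ) : Prop := ∀ (r : ℚ) (k : ℤ), H (r + k) = H r

/-- the values at level `2 ^ i` -/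
def lev (H : ℚ → ℂ) (i : ℕ) (x : ℤ_[2]) : ℂ := H (x.appr i / 2 ^ i)

/-- an odd number as a unit -/
def un (k : ℤ) : ℤ_[2]ˣ := if h : IsUnit (k : ℤ_[2]) then h.unit else 1

theorem un_val {k : ℤ} (h : ¬ 2 ∣ k) : (un k : ℤ_[2]) = k := by
  have : IsUnit (k : ℤ_[2]) := by_contra fun e =>
    h ((norm_int_lt_one_iff_dvd k).1 (not_isUnit_iff.1 e))
  rw [un, dif_pos this, IsUnit.unit_spec]

variable {H : ℚ → ℂ} {i j : ℕ} {x : ℤ_[2]} {u v : ℤ}

theorem ap (i : ℕ) (x : ℤ_[2]) : (2 : ℤ_[2]) ^ i ∣ x - (x.appr i : ℤ) := by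
  simpa using Ideal.mem_span_singleton.1 (appr_spec i x)

theorem dv (h : (2 : ℤ_[2]) ^ i ∣ u) : (2 : ℤ) ^ i ∣ u := by
  simpa using (pow_p_dvd_int_iff (p := 2) i u).1 (by simpa using h)

theorem Pe.cg (h : Pe H) (d : (2 : ℤ) ^ i ∣ u - v) : H (u / 2 ^ i) = H (v / 2 ^ i) := by
  obtain ⟨k, e⟩ := d
  rw [← h (v / 2 ^ i) k, sub_eq_iff_eq_add.1 e]
  congr 1
  push_cast
  field_simp
  ring

theorem Pe.lev (h : Pe H) (u : ℤ) (d : (2 : ℤ_[2]) ^ i ∣ x - u) : lev H i x = H (u / 2 ^ i) :=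
  h.cg (u := x.appr i) (dv (by simpa using d.sub (ap i x)))

theorem two_dvd (s : ℤ_[2]ˣ) : (2 : ℤ_[2]) ∣ s - 1 := by
  have a := ap 1 (s : ℤ_[2])
  rw [pow_one] at a
  rcases Int.even_or_odd' ((s : ℤ_[2]).appr 1 : ℤ) with ⟨k, e | e⟩ <;> rw [e] at a
  · exact absurd s.isUnit (not_isUnit_iff.2 ((norm_lt_one_iff_dvd _).2 (by
      simpa using a.add (dvd_mul_right 2 (k : ℤ_[2])))))
  · have := a.add (dvd_mul_right 2 (k : ℤ_[2]))
    push_cast at this
    rwa [show (s : ℤ_[2]) - (2 * k + 1) + 2 * k = s - 1 by ring] at this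

theorem Pe.mul (h : Pe H) (p : ℤ) : H (p * (x.appr i / 2 ^ i)) = Tw.lev H i (p * x) := by
  rw [h.lev (p * x.appr i) (by simpa [mul_sub] using (ap i x).mul_left p)]
  congr 1
  push_cast
  ring

theorem Pe.dbl (h : Pe H) : H (2 ^ j * (x.appr (i + j) / 2 ^ (i + j))) = Tw.lev H i x := by
  rw [h.lev (x.appr (i + j)) ((pow_dvd_pow _ le_self_add).trans (ap _ x))]
  congr 1
  push_cast
  field_simp
  ring

theorem Pe.fr (h : Pe H) {J : ℕ} (l : i ≤ J) :
    H (fr (2 ^ (J - i) * toZModPow J x : ZMod (2 ^ J))) = Tw.lev H i x := by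
  obtain ⟨j, rfl⟩ := Nat.exists_eq_add_of_le l
  obtain ⟨y, e⟩ := ap i x
  rw [Nat.add_sub_cancel_left, P014W.fr, ← Int.cast_natCast, h.cg (v := 2 ^ j * x.appr i), Tw.lev]
  · congr 1
    push_cast
    field_simp
    ring
  · have z : (2 : ZMod (2 ^ (i + j))) ^ (i + j) = 0 := by exact_mod_cast ZMod.natCast_self _
    have := (ZMod.intCast_zmod_eq_zero_iff_dvd (((2 ^ j * toZModPow (i + j) x :
      ZMod (2 ^ (i + j))).val : ℤ) - 2 ^ j * x.appr i) (2 ^ (i + j))).1 (by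
        have := congrArg (toZModPow (i + j)) e
        push_cast at this ⊢
        rw [map_sub, map_mul, map_pow, map_natCast, map_ofNat] at this
        rw [ZMod.natCast_zmod_val]
        linear_combination 2 ^ j * this + toZModPow (i + j) y * z)
    exact_mod_cast this

/-- the elements which flip the top level -/
def ta (i : ℕ) : ℤ_[2]ˣ := un (1 + 2 ^ (i + 1))

theorem ta_val (i : ℕ) : (ta i : ℤ_[2]) = 1 + 2 ^ (i + 1) := by
  rw [ta, un_val (by omega)]
  push_cast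
  rfl

theorem Pe.iv (h : Pe H) (l : j ≤ i + 1) : Tw.lev H j (ta i * x) = Tw.lev H j x :=
  h.lev (x.appr j) (by
    rw [ta_val, show (1 + 2 ^ (i + 1)) * x - (x.appr j : ℤ) =
      x - (x.appr j : ℤ) + 2 ^ (i + 1) * x by ring]
    exact (ap j x).add ((pow_dvd_pow _ l).mul_right x))

theorem Pe.fl (h : Pe H) (k : ∀ r, H (r + 1 / 2) = -H r) (s : ℤ_[2]ˣ) :
    Tw.lev H (i + 2) (ta i * s) = -Tw.lev H (i + 2) s := by
  rw [h.lev ((s : ℤ_[2]).appr (i + 2) + 2 ^ (i + 1)), Tw.lev, ← k]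
  · congr 1
    push_cast
    field_simp
    ring
  · obtain ⟨y, e⟩ := two_dvd s
    obtain ⟨z, f⟩ := ap (i + 2) (s : ℤ_[2])
    refine ⟨z + y, ?_⟩
    rw [ta_val]
    push_cast at f ⊢
    linear_combination f + 2 ^ (i + 1) * e

/-- the solution of the recursion -/
def sol {Γ : Type} (e κ x : ℂ) (F : ℕ → Γ → ℂ) : ℕ → Γ → ℂ
  | 0 => fun s => F 0 s / (2 - e * x + κ * x ^ 2)
  | 1 => fun s => (F 1 s + (e - κ * x) * (F 0 s / (2 - e * x + κ * x ^ 2))) / 2
  | i + 2 => fun s => (F (i + 2) s + e * sol e κ x F (i + 1) s - κ * sol e κ x F i s) / 2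

variable {N m : ℕ} {G : ℍ → ℂ} {a : ℕ → ℤ} {s : ℂ} {ψ : DirichletCharacter Qb m}

theorem pw (hm : m.Prime) {p : ZMod m} (h : ψ p ≠ 0) : ψ p ^ (m - 1) = 1 := by
  have := Fact.mk hm
  rw [← map_pow, ZMod.pow_card_sub_one_eq_one fun z => h (by rw [z, MulChar.map_zero]), map_one]

theorem ne0 (hm : m.Prime) {p : ℕ} (h : ¬ m ∣ p) : ψ p ≠ 0 := by
  have := Fact.mk hm
  exact ((IsUnit.mk0 _ (mt (ZMod.natCast_eq_zero_iff _ _).1 h)).map ψ).ne_zero

/-- the odd bad primes -/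
theorem dep (hec : HEC) (h : RN N G a) (hm : m.Prime) (n : ¬ m ∣ N) (S : ℕ) : S ≠ 0 → S ∣ N →
    ∃ L : List (Qb × ℤ_[2]ˣ), au L ≠ 0 ∧ ∀ i (y : ℂ),
      (fun k : ℤ_[2]ˣ => y * lev (Ph a s ψ (S * 2)) i k) =
        op L fun k : ℤ_[2]ˣ => y * lev (Ph a s ψ 2) i k := by
  induction S using induction_on_primes with
  | zero => exact fun z => absurd rfl z
  | one => exact fun _ _ => ⟨[], by simp [au], fun _ _ => rfl⟩
  | prime_mul p S hp ih =>
    intro S0 d
    have S1 := right_ne_zero_of_mul S0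
    have pN := dvd_of_mul_right_dvd d
    obtain ⟨L, l0, e⟩ := ih S1 (dvd_of_mul_left_dvd d)
    by_cases c : p ∣ S * 2
    · refine ⟨L, l0, fun i y => Eq.trans ?_ (e i y)⟩
      have : ∀ n : ℤ, IsCoprime n (p * S * 2 : ℕ) ↔ IsCoprime n (S * 2 : ℕ) := fun n => by
        rw [mul_assoc, Nat.cast_mul p, IsCoprime.mul_right_iff]
        exact and_iff_right_of_imp (.of_isCoprime_of_dvd_right · (Int.natCast_dvd_natCast.2 c))
      simp only [lev, Ph, this]
    have p0 : ψ p ≠ 0 := ne0 hm fun z => n (z.trans pN)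
    have p1 : (p : Qb) ≠ 0 := Nat.cast_ne_zero.2 hp.ne_zero
    have k := fun r => hec N G a s m ψ (S * 2) r h hm (mul_ne_zero S1 two_ne_zero)
    refine ⟨(a p / p * (ψ p)⁻¹, un p) :: L, mul_ne_zero (sub_ne_zero.2 fun z => ?_) l0,
      fun i y => funext fun t => ?_⟩
    · have z' : (a p : Qb) = p * ψ p := by
        have := (io : Qb →+* ℂ).injective ((map_one io).trans z)
        field_simp at this
        exact this.symm
      have c := P004N.H461.pfCf N G a h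
      by_cases q : p ^ 2 ∣ N
      · exact mul_ne_zero p1 p0 (by rw [← z', c.bad2 p hp q, Int.cast_zero])
      · have : ((a p ^ 2 : ℤ) : Qb) ^ (m - 1) = ((p ^ (2 * (m - 1)) : ℕ) : Qb) := by
          push_cast
          rw [z', ← pow_mul, mul_pow, mul_comm 2, pow_mul (ψ p), pw hm p0, one_pow, mul_one]
        rw [c.bad1 p hp pN q, Int.cast_one, one_pow, eq_comm, Nat.cast_eq_one] at this
        exact (Nat.pow_eq_one.1 this).elim hp.ne_one (by have := hm.two_le; omega)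
    · have o : ¬ (2 : ℤ) ∣ p := fun z => c (by
        rw [← (Nat.prime_dvd_prime_iff_eq Nat.prime_two hp).1 (Int.natCast_dvd_natCast.1 z)]
        exact dvd_mul_left _ _)
      rw [op_cons, Module.End.mul_apply, ← e, fa_app, lev, mul_assoc p,
        (k _).2.2.2 p _ hp c (mul_inv_cancel₀ p0), if_pos pN, Units.val_mul, un_val o,
        ← Pe.mul fun r => (k r).1]
      simp only [lev, map_mul, map_div₀, map_intCast, map_natCast, Int.cast_natCast]
      ring

end Vale.Agent.P014W.Tw
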