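import Vale.Agent.P014W.St
import Vale.Agent.P014T.Rk.Alg

/-! # P014W: the paired values are linear in periodic weights -/

set_option autoImplicit false
set_option linter.all false

open Complex
open scoped Classical Real MatrixGroups ComplexConjugate UpperHalfPlane

noncomputable section

namespace Vale.Agent.P014W.Li

open P014T P014T.Rk P014T.An P004N P004Z
open P027M.M (io)
open P022K.QT.Cu (E io_E)
open Es (LL sy)
open Pu (ParY)
open Rc (Vol)

/-- periodic weights -/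
def Pz (w : ℤ → ℂ) : Prop := ∃ L : ℕ, L ≠ 0 ∧ Function.Periodic w L

variable {N L : ℕ} {G : ℍ → ℂ} {a : ℕ → ℤ} {s : ℂ} {w w' : ℤ → ℂ}

theorem Pz.pos (k : Pz w) : Pw fun n => w n :=
  k.imp fun L k => ⟨k.1, fun n => by simp only [Nat.cast_add, k.2 n]⟩

theorem Pz.neg (k : Pz w) : Pw fun n => w (-n) :=
  k.imp fun L k => ⟨k.1, fun n => by simp only [Nat.cast_add, neg_add, k.2.neg (-n)]⟩

theorem Pz.op (k : Pz w) (k' : Pz w') (f : ℂ → ℂ → ℂ) : Pz fun n => f (w n) (w' n) := by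
  obtain ⟨L, n, k⟩ := k
  obtain ⟨L', n', k'⟩ := k'
  refine ⟨L * L', mul_ne_zero n n', fun x => ?_⟩
  have e : w' (x + L * L') = w' x := k'.nat_mul L x
  have e' : w (x + L * L') = w x := mul_comm (L : ℤ) L' ▸ k.nat_mul L' x
  simp only [Nat.cast_mul, e, e']

theorem pz_mod (hL : L ≠ 0) (w : ZMod L → ℂ) : Pz fun n => w n := ⟨L, hL, fun n => by simp⟩

theorem pz_const (x : ℂ) : Pz fun _ => x := ⟨1, one_ne_zero, fun _ => rfl⟩

theorem pz_E (r : ℚ) : Pz fun n => io (E (n * r)) := ⟨r.den, r.den_nz, fun n => by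
  simp only [Int.cast_add, Int.cast_natCast, add_mul, P022K.QT.Cu.E_add, r.den_mul_eq_num,
    P022K.QT.Cu.E_int, mul_one]⟩

theorem Pz.mul (k : Pz w) (c : ℤ) : Pz fun n => w (c * n) :=
  k.imp fun L k => ⟨k.1, fun n => by simp only [mul_add]; exact k.2.int_mul c _⟩

theorem Pz.cop (k : Pz w) {S : ℤ} (hS : S ≠ 0) : Pz fun n => if IsCoprime n S then w n else 0 := by
  have := k.op (w' := fun n => if IsCoprime n S then 1 else 0) ⟨S.natAbs, by simpa, fun n => by
    obtain ⟨c, e⟩ := Int.dvd_natAbs.2 (dvd_refl S)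
    simp only [e, IsCoprime.add_mul_left_left_iff]⟩ (· * ·)
  simpa only [mul_ite, mul_one, mul_zero] using this

theorem pz_sum {ι : Type*} (T : Finset ι) {f : ι → ℤ → ℂ} (k : ∀ i ∈ T, Pz (f i)) :
    Pz fun n => ∑ i ∈ T, f i n :=
  (funext fun n => Finset.sum_apply n T f) ▸ Finset.sum_induction f Pz
    (fun _ _ k k' => k.op k' (· + ·)) (pz_const 0) k

theorem Ls_smul (a : ℕ → ℤ) (s x : ℂ) (w : ℤ → ℂ) : Ls a s (fun n => x * w n) = x * Ls a s w := by
  simp only [Ls, Lw_smul]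
  ring

theorem Ls_zero (a : ℕ → ℤ) (s : ℂ) : Ls a s (fun _ => 0) = 0 := by
  simpa using Ls_smul a s 0 0

variable (h : RN N G a)
include h

theorem Ls_add (k : Pz w) (k' : Pz w') : Ls a s (fun n => w n + w' n) = Ls a s w + Ls a s w' := by
  simp only [Ls, Lw_add h k.pos k'.pos, Lw_add h k.neg k'.neg]
  ring

theorem Ls_sub (k : Pz w) (k' : Pz w') : Ls a s (fun n => w n - w' n) = Ls a s w - Ls a s w' := by
  simp only [Ls, Lw_sub h k.pos k'.pos, Lw_sub h k.neg k'.neg]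
  ring

theorem Ls_sum {ι : Type*} (T : Finset ι) {f : ι → ℤ → ℂ} (k : ∀ i ∈ T, Pz (f i)) :
    Ls a s (fun n => ∑ i ∈ T, f i n) = ∑ i ∈ T, Ls a s (f i) := by
  simp only [Ls, Lw_sum h T fun i m => (k i m).pos, Lw_sum h T fun i m => (k i m).neg,
    Finset.sum_mul, Finset.sum_sub_distrib]

/-- the Fourier expansion of the weight -/
theorem Ls_hat [NeZero L] (w : ZMod L → ℂ) : -Complex.I * Ls a s (fun n => w n) =
    2 / L * ∑ j, ZMod.dft w j * (Lj a L j * conj s).im := by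
  simp only [Ls, Int.cast_neg, Int.cast_natCast]
  rw [Lw_hat h, Lw_neg h, Finset.sum_mul, Finset.sum_mul, ← Finset.sum_sub_distrib,
    Finset.mul_sum, Finset.mul_sum]
  refine Finset.sum_congr rfl fun j _ => ?_
  have := sub_conj (Lj a L j * conj s)
  rw [map_mul, conj_conj] at this
  push_cast at this
  linear_combination -Complex.I * (L : ℂ)⁻¹ * ZMod.dft w j * this -
    2 / L * ZMod.dft w j * (Lj a L j * conj s).im * I_sq

variable {A B : ℤ} {d : ℕ} {I : ℍ → ℂ} {x y : P022.H218.L3.Mer}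

/-- the values at the cusps -/
theorem lw_mem (p : ParY N a A B d I x y) (r : ℚ) : Lw a (fun n => ee (n * r)) ∈ LL I := by
  obtain ⟨A', B', Λ, x', y', p⟩ := p.par
  obtain ⟨g, u, v⟩ := (Int.isCoprime_iff_gcd_eq_one.2 r.reduced :
    IsCoprime r.num (r.den : ℤ)).exists_SL2_col 0
  have w0 : (d : ℂ) ≠ 0 := Nat.cast_ne_zero.2 p.wpos.ne'
  have e := Lw_cusp h g (by rw [v]; exact_mod_cast r.den_nz)
    (((Es.tend h p g).const_mul (d : ℂ)).congr fun z => by rw [p.I_eq, mul_div_cancel₀ _ w0])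
  rw [u, v, Int.cast_natCast, ← Rat.cast_def] at e
  rw [e, ← nsmul_eq_mul]
  exact nsmul_mem (Es.cv_mem I g) d

omit h in
theorem vol_im {Λ : Submodule ℤ ℂ} {c : ℝ} (v : Vol Λ c) {z : ℂ} (k : z ∈ Λ) (k' : s ∈ Λ) :
    ∃ e : ℤ, (z * conj s).im = e * c := by
  obtain ⟨u, v, m, rfl⟩ := v
  obtain ⟨i, j, rfl⟩ := (m _).1 k
  obtain ⟨i', j', rfl⟩ := (m _).1 k'
  rcases abs_choice (conj u * v).im with e | e <;> rw [e]
  · exact ⟨j * i' - i * j', by simp; ring⟩
  · exact ⟨i * j' - j * i', by simp; ring⟩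

end Vale.Agent.P014W.Li
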