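import Vale.Agent.P014T.Rc.Par
import Vale.Agent.P014W.St

/-! # P014W: every small algebraic point comes from the disc -/

set_option linter.all false

open scoped Classical MatrixGroups UpperHalfPlane IntermediateField NNReal
open CongruenceSubgroup NumberField PowerSeries Filter Topology

noncomputable section

namespace Vale.Agent.P014W.Par

open Vale.Agent.P022 (Qb GQ)
open Vale.Agent.P022D.W (dec)
open Vale.Agent.P004S.Ga (K)
open Vale.Agent.P004M.TE (Cv Pt pa ga pa_some ga_some crv_map pa_inj)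
open P004N (RN)
open P179W (KerV)
open Vale.Agent.P027M.M (Mdl FF L cv mdl)
open Vale.Agent.P014T
open Ah (Ind am AA mem_AA)
open Dc (Vf jL jv)
open Pu (ParY)
open Sb (Gd Lm)
open Lc (nv zf Lg)
open Wm (Fx)

theorem prop {S : Set ℂ_[2]} (f : S.Finite) (h : ∀ x ∈ S, x ∈ AA) :
    ProperSpace (IntermediateField.adjoin K S) := by
  have := f.to_subtype
  have := IntermediateField.finiteDimensional_adjoin (K := K) (S := S)
    fun x m => (mem_AA.1 (h x m)).isIntegral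
  exact FiniteDimensional.proper K _

theorem adj_AA {S : Set ℂ_[2]} (h : ∀ x ∈ S, x ∈ AA) {z : ℂ_[2]}
    (m : z ∈ IntermediateField.adjoin K S) : z ∈ AA :=
  (IntermediateField.adjoin_le_iff.2 h : _ ≤ algebraicClosure K ℂ_[2]) m

/-- algebraic numbers are good -/
theorem gd_AA {x : ℂ_[2]} (h : x ∈ AA) (x0 : x ≠ 0) : Gd x := by
  have := prop (Set.finite_singleton x) (by simpa using h)
  have p := norm_pos_iff.2 x0
  choose k hk using fun n : ℕ => exists_mem_Ioc_zpow (pow_pos p n) one_lt_two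
  let y : K⟮x⟯ := ⟨x, IntermediateField.mem_adjoin_simple_self K x⟩
  let u : ℕ → K⟮x⟯ := fun n => y ^ n * 2 ^ (k n + 1)
  have e : ∀ n, ((u n : K⟮x⟯) : ℂ_[2]) = x ^ n * 2 ^ (k n + 1) := fun n => by
    have := map_zpow₀ (K⟮x⟯).val 2 (k n + 1)
    rw [map_ofNat] at this
    exact congrArg₂ (· * ·) (map_pow (K⟮x⟯).val y n) this
  have n : ∀ n, ‖u n‖ = ‖x‖ ^ n / 2 ^ (k n + 1) := fun n => by
    change ‖((u n : K⟮x⟯) : ℂ_[2])‖ = _
    rw [e, norm_mul, norm_pow, norm_zpow, Ah.two_C, one_div, inv_zpow, div_eq_mul_inv]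
  obtain ⟨a, -, φ, hφ, t⟩ := (isCompact_closedBall (0 : K⟮x⟯) 1).tendsto_subseq (x := u)
    fun i => by
      rw [mem_closedBall_zero_iff, n, div_le_one (by positivity)]
      exact (hk i).2
  obtain ⟨i, hi⟩ := Metric.cauchySeq_iff'.1 t.cauchySeq (1 / 2) (by norm_num)
  have h1 := hi (i + 1) i.le_succ
  obtain ⟨d, hd⟩ := Nat.exists_eq_add_of_lt (hφ i.lt_add_one)
  have h2 : 1 / 2 < ‖u (φ i)‖ := by
    rw [n, lt_div_iff₀ (by positivity), zpow_add_one₀ two_ne_zero]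
    linarith [(hk (φ i)).1]
  have u0 : ((u (φ i) : K⟮x⟯) : ℂ_[2]) ≠ 0 := norm_pos_iff.1 (lt_trans (by norm_num) h2)
  refine ⟨(d + 1, k (φ i) - k (φ (i + 1))), d.succ_pos, ?_⟩
  rw [show 1 - x ^ (d + 1) / 2 ^ (k (φ i) - k (φ (i + 1))) =
      -(((u (φ (i + 1)) - u (φ i) : K⟮x⟯) : ℂ_[2]) / u (φ i)) by
    rw [AddSubgroupClass.coe_sub, sub_div, div_self u0, e, e, zpow_sub₀ two_ne_zero,
      zpow_add_one₀ two_ne_zero, zpow_add_one₀ two_ne_zero]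
    generalize k (φ (i + 1)) = z
    rw [hd]
    field_simp
    ring, norm_neg, norm_div, div_lt_one (norm_pos_iff.2 u0)]
  rw [Function.comp, Function.comp, dist_eq_norm] at h1
  exact h1.trans h2

/-- the parameter of an algebraic invariant is algebraic -/
theorem jv_AA {q : ℂ_[2]} (q0 : q ≠ 0) (q1 : ‖q‖ < 1) (h : jv q ∈ AA) : q ∈ AA := by
  have := prop (Set.finite_singleton (jv q)) (by simpa using h)
  let y : K⟮jv q⟯ := ⟨_, IntermediateField.mem_adjoin_simple_self K _⟩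
  have n : 1 < ‖y‖ := by
    change 1 < ‖jv q‖
    rw [Dc.norm_jv q1]
    exact (one_lt_inv₀ (norm_pos_iff.2 q0)).2 q1
  let _ : NontriviallyNormedField K⟮jv q⟯ := { non_trivial := ⟨y, n⟩ }
  obtain ⟨t, t0, t1, t2⟩ := Dc.ex_jv n
  have e := Dc.jv_map (K⟮jv q⟯).val.toRingHom (fun _ => rfl) t1
  rw [t2] at e
  rw [← Dc.jv_inj (q := (K⟮jv q⟯).val.toRingHom t) ((map_ne_zero _).2 t0) t1 q0 q1 e]
  exact adj_AA (by simpa using h) t.2

variable {A B : ℤ}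

theorem ker {F : Type} [NormedField F] [IsUltrametricDist F] [ProperSpace F] [CharZero F]
    (hD : 4 * A ^ 3 + 27 * B ^ 2 ≠ 0) (σ : F →+* ℂ_[2]) (hσ : ∀ x, ‖σ x‖ = ‖x‖) {c d : F}
    (n : (Cv ℂ_[2] (A : ℚ) (B : ℚ)).Nonsingular (σ c) (σ d)) :
    ∃ m : ℕ, 0 < m ∧ KerV (nv _) (m • WeierstrassCurve.Affine.Point.some _ _ n) := by
  have m : (Cv F (A : ℚ) (B : ℚ)).Nonsingular c d :=
    (WeierstrassCurve.Affine.map_nonsingular _ σ.injective c d).1 (by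
      have := crv_map σ (σ.toRatAlgHom.commutes (A : ℚ)) (σ.toRatAlgHom.commutes (B : ℚ))
      exact (congrArg (fun W : WeierstrassCurve ℂ_[2] => W.toAffine.Nonsingular (σ c) (σ d))
        this).mpr n)
  have f := Lc.fin1 (Lc.cfs F A B) (by
    rw [Pu.disc, map_intCast, map_intCast]
    exact mul_ne_zero (by norm_num) (by exact_mod_cast hD))
  refine ⟨_, Nat.pos_of_ne_zero f, ?_⟩
  have k := AddSubgroup.nsmul_index_mem (Lc.E1 (Lc.cfs F A B)) (.some c d m)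
  rw [show WeierstrassCurve.Affine.Point.some _ _ n = pa σ.toRatAlgHom (.some c d m) from
    (pa_some σ.toRatAlgHom m).symm, ← map_nsmul]
  generalize (Lc.E1 (Lc.cfs F A B)).index • WeierstrassCurve.Affine.Point.some c d m = T at k ⊢
  rcases T with _ | ⟨u, v, o⟩
  · trivial
  · rw [pa_some]
    exact fun e => k ((hσ u).symm.trans_le e)

/-- a multiple of an algebraic point is small -/
theorem small (hD : 4 * A ^ 3 + 27 * B ^ 2 ≠ 0) (ι : Qb →+* ℂ_[2]) (R : Pt A B) {ρ : ℝ}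
    (r0 : 0 < ρ) : ∃ m : ℕ, 0 < m ∧ KerV (nv _) (pa ι.toRatAlgHom (m • R)) ∧
      ‖zf (pa ι.toRatAlgHom (m • R))‖ ≤ ρ := by
  have hc := Lc.cfs ℂ_[2] A B
  obtain ⟨m, m0, k⟩ : ∃ m : ℕ, 0 < m ∧ KerV (nv _) (m • pa ι.toRatAlgHom R) := by
    rcases R with _ | ⟨c, d, n⟩
    · exact ⟨1, one_pos, by rw [one_smul]; trivial⟩
    let F := IntermediateField.adjoin K {ι c, ι d}
    have : ProperSpace F := prop (Set.toFinite _) (by simp [Ah.emb_AA])
    rw [pa_some]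
    exact ker hD F.val.toRingHom (fun _ => rfl)
      (c := ⟨ι c, IntermediateField.subset_adjoin _ _ (by simp)⟩)
      (d := ⟨ι d, IntermediateField.subset_adjoin _ _ (by simp)⟩) _
  generalize hT : m • pa ι.toRatAlgHom R = T at k
  have z1 : ‖zf T‖ < 1 := Lc.zf_lt hc k
  have l1 : max (1 / 2) ‖zf T‖ < 1 := max_lt (by norm_num) z1
  have b : ∀ j : ℕ, ‖zf (2 ^ j • T)‖ ≤ max (1 / 2) ‖zf T‖ ^ j * ‖zf T‖ := fun j => by
    induction j with
    | zero => simp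
    | succ j ih =>
      have e : ‖zf (2 • 2 ^ j • T) - ((2 : ℕ) : ℂ_[2]) * zf (2 ^ j • T)‖ ≤ ‖zf (2 ^ j • T)‖ ^ 2 := by
        exact_mod_cast Lc.nsmul_le hc ((Lc.E1 hc).nsmul_mem k (2 ^ j)) 2
      have i2 := ih.trans (mul_le_of_le_one_left (norm_nonneg _) (pow_le_one₀ (by positivity) l1.le))
      rw [pow_succ', mul_smul, pow_succ', mul_assoc, ← sub_add_cancel (zf (2 • 2 ^ j • T))
        (((2 : ℕ) : ℂ_[2]) * zf (2 ^ j • T))]
      refine (IsUltrametricDist.norm_add_le_max _ _).trans (max_le (e.trans ?_) ?_)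
      · rw [sq]
        exact mul_le_mul (i2.trans (le_max_right _ _)) ih (norm_nonneg _) (by positivity)
      · rw [norm_mul, Nat.cast_ofNat, Ah.two_C]
        exact mul_le_mul (le_max_left _ _) ih (norm_nonneg _) (by positivity)
  obtain ⟨j, hj⟩ := exists_pow_lt_of_lt_one r0 l1
  have e : pa ι.toRatAlgHom ((2 ^ j * m) • R) = 2 ^ j • T := by rw [map_nsmul, mul_smul, hT]
  exact ⟨2 ^ j * m, by positivity, e ▸ (Lc.E1 hc).nsmul_mem k _, e ▸ (b j).trans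
    ((mul_le_of_le_one_right (by positivity) z1.le).trans hj.le)⟩

theorem pw_lip {s t : ℂ_[2]} {r : ℝ} (hs : ‖s‖ ≤ r) (ht : ‖t‖ ≤ r) (k : ℕ) :
    ‖s ^ (k + 1) - t ^ (k + 1)‖ ≤ r ^ k * ‖s - t‖ := by
  have r0 := (norm_nonneg _).trans hs
  induction k with
  | zero => simp
  | succ k ih =>
    rw [show s ^ (k + 1 + 1) - t ^ (k + 1 + 1) = s * (s ^ (k + 1) - t ^ (k + 1)) +
      t ^ (k + 1) * (s - t) by ring]
    refine (IsUltrametricDist.norm_add_le_max _ _).trans (max_le ?_ ?_)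
    · rw [norm_mul, pow_succ' r, mul_assoc]
      gcongr
    · rw [norm_mul, norm_pow]
      gcongr

variable {c : ℕ → ℂ_[2]} (c0 : c 0 = 0) (c1 : c 1 = 1) (hc : ∀ k, ‖c k‖ ≤ 1)
include c0 c1 hc

theorem lip {s t : ℂ_[2]} (hs : ‖s‖ ≤ 1 / 4) (ht : ‖t‖ ≤ 1 / 4) :
    ‖Lm s (mk c) - s - (Lm t (mk c) - t)‖ ≤ 1 / 2 * ‖s - t‖ := by
  have a := Sb.sm_term Ah.two_C hc (x := s) (by linarith)
  have b := Sb.sm_term Ah.two_C hc (x := t) (by linarith)
  simp only [Lm, coeff_mk]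
  rw [← a.sum_add_tsum_nat_add 2, ← b.sum_add_tsum_nat_add 2]
  simp only [Finset.sum_range_succ, Finset.sum_range_zero, c0, c1, zero_mul, zero_div, zero_add,
    one_mul, pow_one, Nat.cast_one, div_one, add_sub_cancel_left]
  rw [← ((summable_nat_add_iff 2).2 a).tsum_sub ((summable_nat_add_iff 2).2 b)]
  refine IsUltrametricDist.norm_tsum_le_of_forall_le fun k => ?_
  have n := Sb.n_term Ah.two_C (hc (k + 2)) (x := 1) (k + 2)
  rw [one_pow, mul_one, norm_one, one_pow, mul_one] at n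
  have : ((k + 2 : ℕ) : ℝ) ≤ 2 * 4 ^ k := by
    exact_mod_cast (by have := @Nat.lt_pow_self k 4 (by norm_num); omega : k + 2 ≤ 2 * 4 ^ k)
  rw [← sub_div, ← mul_sub, mul_div_right_comm, norm_mul]
  refine (mul_le_mul (n.trans this) (pw_lip hs ht (k + 1)) (norm_nonneg _)
    (by positivity)).trans_eq ?_
  rw [pow_succ, ← mul_assoc, ← mul_assoc, mul_assoc 2, ← mul_pow]
  ring

theorem Lm0 : Lm 0 (mk c) = 0 := by
  rw [Lm, coeff_mk, c0, zero_mul, zero_add]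
  exact (tsum_congr fun k => by cases k <;> simp).trans tsum_zero

theorem Lm_inj {s t : ℂ_[2]} (hs : ‖s‖ ≤ 1 / 4) (ht : ‖t‖ ≤ 1 / 4)
    (e : Lm s (mk c) = Lm t (mk c)) : s = t := by
  have := lip c0 c1 hc hs ht
  rw [e, sub_sub_sub_cancel_left, norm_sub_rev] at this
  exact sub_eq_zero.1 (norm_le_zero_iff.1 (by linarith))

theorem Lm_surj {y : ℂ_[2]} (hy : ‖y‖ ≤ 1 / 4) : ∃ q, ‖q‖ ≤ ‖y‖ ∧ Lm q (mk c) = y := by
  obtain ⟨t, ht, e⟩ := Lc.fix (T := fun t => y - (Lm t (mk c) - t)) (M := nv _ y) (c := 1 / 2)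
    (by norm_num)
    (fun t ht => (nv _).map_sub_le le_rfl (by
      have := lip c0 c1 hc (le_trans ht hy) (t := 0) (by simp)
      rw [Lm0 c0 c1 hc, sub_zero, sub_zero, sub_zero] at this
      exact this.trans ((mul_le_of_le_one_left (norm_nonneg _) (by norm_num)).trans ht)))
    fun s t hs ht => by
      have := lip c0 c1 hc (le_trans hs hy) (le_trans ht hy)
      rw [sub_sub_sub_cancel_left, Valuation.map_sub_swap]
      exact_mod_cast this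
  exact ⟨t, ht, by linear_combination -e⟩

omit c0 c1 hc

/-- **every small algebraic point comes from the disc** -/
theorem par {N : ℕ} {G I : ℍ → ℂ} {a : ℕ → ℤ} {w : ℕ} {x y : FF} {ι : Qb →+* ℂ_[2]}
    {P : Ideal (𝓞 Qb)} (h : Ind ι P) (r : RN N G a) (p : ParY N a A B w I (cv x) (cv y))
    {l : (Cv ℂ_[2] (A : ℚ) (B : ℚ)).Point →+ ℂ_[2]} (k : Lg 2 _ l) :
    ∃ ρ : ℝ, 0 < ρ ∧ ρ < 1 / 2 ∧ (∃ T ∈ Fx A B (dec P), l (pa ι.toRatAlgHom T) ≠ 0) ∧
      ∀ R : Pt A B, R ≠ 0 → KerV (nv _) (pa ι.toRatAlgHom R) →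
      ‖zf (pa ι.toRatAlgHom R)‖ ≤ ρ → ∃ q : ℂ_[2], q ≠ 0 ∧ ‖q‖ < 1 ∧ q ∈ AA ∧ Gd q ∧
        (∃ b, jv q = ι b) ∧ (∀ g ∈ dec P, ga g R = R → h.ro g q = q) ∧
        (∃ c d n, R = .some c d n ∧ Vf ι 1 q x (ι c) ∧ Vf ι 1 q y (ι d)) ∧
        w * l (pa ι.toRatAlgHom R) = Lm q (mk fun n => (a n : ℂ_[2])) := by
  have hc := Lc.cfs ℂ_[2] A B
  obtain ⟨X⟩ := mdl
  obtain ⟨s, t, h1, h2, h3⟩ := Dc.pw_ex r p.toPw rfl rfl
  have e : ∀ z : ℤ, algebraMap ℚ ℂ_[2] z = z := fun z => map_intCast _ z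
  obtain ⟨ρ, k1, -, k3⟩ := Dc.par0 Nat.prime_two (by exact_mod_cast Ah.two_lt) ι
    ((map_intCast ι A).trans (e A).symm) ((map_intCast ι B).trans (e B).symm)
    (e A ▸ IsUltrametricDist.norm_intCast_le_one _ A)
    (e B ▸ IsUltrametricDist.norm_intCast_le_one _ B) (by rw [e, e]; exact_mod_cast p.disc) k
    one_pos h1 h2 h3
  rw [Dc.map_gw, Dc.itg_gw] at k3
  have w0 : (w : ℂ_[2]) ≠ 0 := Nat.cast_ne_zero.2 p.wpos.ne'
  have ev (q : ℂ_[2]) : w * P022K.FI.ev q (Dc.lw ℂ_[2] a w) = Lm q (mk fun n => (a n : ℂ_[2])) := by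
    rw [Lm, coeff_mk, r.zero, Int.cast_zero, zero_mul, zero_add, P022K.FI.ev, ← tsum_mul_left]
    refine tsum_congr fun n => ?_
    rw [Dc.lw, coeff_mk, coeff_mk, smul_eq_mul, ← div_div, ← mul_assoc, mul_div_cancel₀ _ w0,
      div_mul_eq_mul_div]
  have a0 : ((a 0 : ℤ) : ℂ_[2]) = 0 := by simp [r.zero]
  have a1 : ((a 1 : ℤ) : ℂ_[2]) = 1 := by simp [r.one]
  have a2 : ∀ n, ‖((a n : ℤ) : ℂ_[2])‖ ≤ 1 := fun _ => IsUltrametricDist.norm_intCast_le_one _ _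
  have t2 : ‖((2 : ℕ) : ℂ_[2])‖ = 1 / 2 := by exact_mod_cast Ah.two_C
  refine ⟨min ρ (1 / 4), lt_min k1 (by norm_num), min_lt_of_right_lt (by norm_num), ?_,
    fun R R0 kR zR => ?_⟩
  · obtain ⟨j, hj⟩ := exists_pow_lt_of_lt_one (lt_min k1 (show (0 : ℝ) < 1 / 4 by norm_num))
      (show (1 / 2 : ℝ) < 1 by norm_num)
    obtain ⟨q, q0, q1, -, q3⟩ := Rc.Par.ex_q j.succ_pos
    have q2 : ‖am q‖ ≤ min ρ (1 / 4) := q1.trans_le
      ((pow_le_pow_of_le_one (by norm_num) (by norm_num) j.le_succ).trans hj.le)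
    have q4 : ‖am q‖ < 1 := q2.trans_lt (min_lt_of_right_lt (by norm_num))
    have hb : jv (am q) = ι (2 ^ j.succ)⁻¹ := by rw [q3, map_inv₀, map_pow, map_ofNat]
    obtain ⟨c, d, n, v1, v2, -, -, v⟩ := k3 _ q0 (q2.trans (min_le_left _ _))
    obtain ⟨c, rfl⟩ := Rc.Par.alg r.pos q0 q4 hb (Pu.mem_L p.xm) v1
    obtain ⟨d, rfl⟩ := Rc.Par.alg r.pos q0 q4 hb (Pu.mem_L p.ym) v2
    have m : (Cv Qb (A : ℚ) (B : ℚ)).Nonsingular c d :=
      (WeierstrassCurve.Affine.map_nonsingular _ ι.injective c d).1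
        (crv_map ι (ι.toRatAlgHom.commutes (A : ℚ)) (ι.toRatAlgHom.commutes (B : ℚ)) ▸ n :)
    refine ⟨.some c d m, fun g hg => ?_, fun z => ?_⟩
    · rw [ga_some]
      exact (WeierstrassCurve.Affine.Point.some.injEq ..).mpr
        ⟨Rc.Par.fix h hg (h.ro_am g q) p.xq v1, Rc.Par.fix h hg (h.ro_am g q) p.yq v2⟩
    · have := Rc.Par.nrm_Lm q0 (q2.trans (min_le_right _ _)) a0 a1 a2
      rw [pa_some] at z
      rw [← ev, ← v, show l (.some (ι c) (ι d) n) = 0 from z, mul_zero, norm_zero] at this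
      exact q0 (norm_eq_zero.1 this.symm)
  have z2 : ‖zf (pa ι.toRatAlgHom R)‖ < ‖((2 : ℕ) : ℂ_[2])‖ :=
    t2 ▸ zR.trans_lt (min_lt_of_right_lt (by norm_num))
  have n1 : ‖w * l (pa ι.toRatAlgHom R)‖ ≤ min ρ (1 / 4) := by
    rw [norm_mul, k.norm hc kR z2]
    exact (mul_le_of_le_one_left (norm_nonneg _)
      (IsUltrametricDist.norm_natCast_le_one _ w)).trans zR
  obtain ⟨q, q2, hq⟩ := Lm_surj a0 a1 a2 (n1.trans (min_le_right _ _))
  replace q2 := q2.trans n1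
  have inj {T} (kT : KerV (nv _) T) (zT : ‖zf T‖ < ‖((2 : ℕ) : ℂ_[2])‖)
      (e : l T = l (pa ι.toRatAlgHom R)) : T = pa ι.toRatAlgHom R := by
    have m := (Lc.Fo hc (nv _ ((2 : ℕ) : ℂ_[2])) (by
      change (0 : ℝ) < ‖((2 : ℕ) : ℂ_[2])‖
      rw [t2]; norm_num)).sub_mem (x := T) (y := pa ι.toRatAlgHom R) ⟨kT, zT⟩ ⟨kR, z2⟩
    have := k.norm hc m.1 m.2
    rw [map_sub, e, sub_self, norm_zero, eq_comm, norm_eq_zero] at this
    exact sub_eq_zero.1 (Lc.zf_eq_zero hc m.1 this)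
  have q0 : q ≠ 0 := fun e => R0 (pa_inj ι.toRatAlgHom ((inj (T := 0) trivial (by
    rw [Lc.zf_zero, norm_zero, t2]; norm_num) (by
    rw [e, Lm0 a0 a1 a2] at hq
    rw [map_zero, (mul_eq_zero.1 hq.symm).resolve_left w0])).symm.trans (map_zero _).symm))
  have q1 : ‖q‖ < 1 := q2.trans_lt (min_lt_of_right_lt (by norm_num))
  obtain ⟨c, d, n, v1, v2, v3, v4, v⟩ := k3 q q0 (q2.trans (min_le_left _ _))
  have eR := inj (T := .some c d n) v3.not_ge (by rwa [← norm_neg, ← neg_div] at v4)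
    (mul_left_cancel₀ w0 (by rw [v, ev, hq]))
  rcases R with _ | ⟨c', d', n'⟩
  · exact (R0 rfl).elim
  rw [pa_some] at eR
  obtain ⟨rfl, rfl⟩ := (WeierstrassCurve.Affine.Point.some.injEq ..).mp eR
  have := Dc.cff (Gamma0 N) (Dc.fi_gamma r.pos (Pu.g_le N))
  obtain ⟨Q, hQ⟩ := Dc.ex_at (ι := ι) (e := algebraMap (L (Gamma0 N)) FF) one_pos
    (fun z => Dc.lf_of_mem one_pos (Gamma0_mem.2 (by rw [pow_one]; simp [ModularGroup.T])) z.2)
    (fun _ => rfl) q1 (z := ⟨x, Pu.mem_L p.xm⟩) (a := c') (fun e => by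
      have := h3.ord
      rw [show x = algebraMap Qb FF c' from congrArg Subtype.val e] at h1
      rw [h1.unique one_pos (P022K.QT.Cu.ex_const 1 c'), LaurentSeries.algebraMap_apply,
        HahnSeries.order_C] at this
      exact this.false) v1
  obtain ⟨b, hb, -⟩ := hQ.j one_pos q0 q1 (j := jL _) rfl
  rw [pow_one] at hb
  have qa := jv_AA q0 q1 (hb ▸ Ah.emb_AA ι b)
  refine ⟨q, q0, q1, qa, gd_AA qa q0, ⟨b, hb.symm⟩, fun g hg fx => ?_, ⟨c', d', n', rfl, v1, v2⟩,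
    hq.symm⟩
  rw [ga_some] at fx
  obtain ⟨e1, e2⟩ := (WeierstrassCurve.Affine.Point.some.injEq ..).mp fx
  have u1 := v1.gal X one_pos (h.ro g) (h.ro_nrm g) (h.ro_emb hg)
  have u2 := v2.gal X one_pos (h.ro g) (h.ro_nrm g) (h.ro_emb hg)
  rw [Pu.Rq.gal p.xq X g] at u1
  rw [Pu.Rq.gal p.yq X g] at u2
  have q3 := (h.ro_nrm g q).trans_le q2
  obtain ⟨c, d, m, f1, f2, -, -, f⟩ := k3 _ ((map_ne_zero _).2 q0) (q3.trans (min_le_left _ _))
  obtain rfl := (f1.uniq one_pos u1).trans ((h.ro_emb hg c').trans (congrArg ι e1))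
  obtain rfl := (f2.uniq one_pos u2).trans ((h.ro_emb hg d').trans (congrArg ι e2))
  exact Lm_inj a0 a1 a2 (q3.trans (min_le_right _ _)) (q2.trans (min_le_right _ _))
    (by rw [← ev, ← ev, ← f, ← v]; rfl)

/-- **a multiple of a point is a difference of two points of the disc** -/
theorem pard : PARD := fun N G a A B w I x y ι P h D l r p k le R hR => by
  have hc := Lc.cfs ℂ_[2] A B
  obtain ⟨ρ, r0, r1, ⟨T, hT, T0⟩, H⟩ := par h r p k
  have f {S : Pt A B} (m : S ∈ Fx A B D) (s0 : l (pa ι.toRatAlgHom S) ≠ 0)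
      (s1 : KerV (nv _) (pa ι.toRatAlgHom S)) (s2 : ‖zf (pa ι.toRatAlgHom S)‖ ≤ ρ) :
      ∃ q, Rd.Pq h D a w x y q S (l (pa ι.toRatAlgHom S)) :=
    (H S (fun e => s0 (by rw [e, map_zero, map_zero])) s1 s2).imp
      fun q ⟨b1, b2, b3, b4, b5, b6, b7, b8⟩ =>
        ⟨b1, b2, b3, b4, b5, fun g hg => b6 g (le hg) (m g hg), m, b7, b8⟩
  have n {S : Pt A B} {j : ℕ} (j0 : 0 < j) (s0 : l (pa ι.toRatAlgHom S) ≠ 0) :
      l (pa ι.toRatAlgHom (j • S)) ≠ 0 := by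
    rw [map_nsmul, map_nsmul, nsmul_eq_mul]
    exact mul_ne_zero (Nat.cast_ne_zero.2 j0.ne') s0
  obtain ⟨m, m0, m1, m2⟩ := small p.disc ι R r0
  by_cases e : m • R = 0
  · obtain ⟨j, j0, j1, j2⟩ := small p.disc ι T r0
    obtain ⟨q, hq⟩ := f (nsmul_mem (show T ∈ Fx A B D from fun g hg => hT g (le hg)) j) (n j0 T0) j1 j2
    exact ⟨fun _ => q, fun _ => j • T, m, fun _ => hq, m0.ne', by rw [e, sub_self]⟩
  have s0 : l (pa ι.toRatAlgHom (m • R)) ≠ 0 := fun z => by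
    have := k.norm hc m1 (m2.trans_lt (r1.trans_eq (by exact_mod_cast Ah.two_C.symm)))
    rw [z, norm_zero, eq_comm, norm_eq_zero] at this
    exact e (pa_inj ι.toRatAlgHom ((Lc.zf_eq_zero hc m1 this).trans (map_zero _).symm))
  have d := (Lc.Fl hc (nv _ (zf (pa ι.toRatAlgHom (m • R))))).nsmul_mem ⟨m1, le_rfl⟩ 2
  rw [← map_nsmul] at d
  obtain ⟨q1, h1⟩ := f (nsmul_mem hR m) s0 m1 m2
  obtain ⟨q0, h0⟩ := f (nsmul_mem (nsmul_mem hR m) 2) (n two_pos s0) d.1 (le_trans d.2 m2)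
  exact ⟨![q0, q1], ![2 • m • R, m • R], m, Fin.forall_fin_two.2 ⟨h0, h1⟩, m0.ne', by
    simp [two_nsmul]⟩

end Vale.Agent.P014W.Par
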