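import Vale.Agent.P014T.Rc.St

/-!
# P014W, block A2: the explicit reciprocity law over a subgroup of the decomposition group
(words and rows)
-/

set_option autoImplicit false
set_option linter.all false

open scoped Classical MatrixGroups Real ComplexConjugate UpperHalfPlane
open CongruenceSubgroup NumberField PowerSeries

noncomputable section

namespace Vale.Agent.P014W.Rd

open Vale.Agent.P022 (Qb GQ)
open Vale.Agent.P022D.W (dec)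
open Vale.Agent.P004S.Ga (K O)
open Vale.Agent.P004S.Aq (cy)
open Vale.Agent.P004F.Rc (mq hn)
open Vale.Agent.P004M.TE (Pt)
open P004N (RN)
open Vale.Agent.P027M.M (Mdl FF L cv io Lv)
open Vale.Agent.P022K.QT.Cu (E)
open P027M.K (SL)
open Vale.Agent.P019P (Plk CFF)
open P014T P014T.Rc
open Ah (Ind am AA)
open Dc (Vf jv)
open Sg (sF)
open Pu (ParY)
open Es (LL sy)
open Rk (Ph Lw)
open Sb (Gd Lm)
open Cp (Zn cp)
open Wm (Fx)

/-- a subgroup of the decomposition group, an invariant on it and a trace -/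
structure Sd (P : Ideal (𝓞 Qb)) where
  D : Subgroup GQ
  le : D ≤ dec P
  i : (GQ → GQ → K) → K ⧸ O
  iv : Sy.Iv D i
  tr : ℂ_[2] →+ ℂ_[2]

variable {ι : Qb →+* ℂ_[2]} {P : Ideal (𝓞 Qb)}

theorem lc_le {T : Type} {D D' : Subgroup GQ} (h : D' ≤ D) {f : GQ → T} (k : Sy.Lc D f) :
    Sy.Lc D' f := fun g hg => (k g (h hg)).filter_mono (nhdsWithin_mono _ h)

/-- the field of the symbol -/
def fd (h : Ind ι P) (V : Sd P) : Sy.Fd ℂ_[2] where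
  D := V.D
  e := ι
  ρ := h.ro
  A := AA
  ι := V.i
  mul _ hg _ hj x _ := h.ro_mul (V.le hg) (V.le hj) x
  emb _ hg := h.ro_emb (V.le hg)
  rt _ := Ah.AA_rt two_pos
  lc _ m := lc_le V.le (h.ro_lc m)
  iv := V.iv

/-- invariant under `D` -/
def Iq (h : Ind ι P) (D : Subgroup GQ) (μ : ℂ_[2] →₀ ℤ) : Prop := ∀ g ∈ D, ∀ q, μ (h.ro g q) = μ q

/-- the symbol over the support of `Av` -/
def sy2 (h : Ind ι P) (V : Sd P) {l : ℕ} [CFF Qb (L (Gamma l))]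
    (σ : GQ →* SL Qb (L (Gamma l))) {J : Type} [Fintype J] (s : J → GQ) (p : GQ → J → J)
    (W : J → ℤ) (Av : Plk Qb (L (Gamma l)) →₀ ℤ) (n : ℕ) (e : ℤ) (u v : L (Gamma l)) : K ⧸ O :=
  (fd h V).sym (fun g (y : Plk Qb (L (Gamma l)) × J) => (σ g • y.1, p g y.2))
    (Av.support ×ˢ Finset.univ) n (fun y => (e * Av y.1 * W y.2 : ℤ) * (cy (s y.2))⁻¹)
    (fun y => ι (P025H492.vl y.1 ((σ (s y.2)).1 u))) fun y => ι (P025H492.vl y.1 ((σ (s y.2)).1 v))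

/-- **the value of the symbol of two Siegel units** (the text of `Rc.EVAL` with a trace) -/
def EVL (h : Ind ι P) (V : Sd P) : Prop := ∀ M n l : ℕ, l = M * 2 ^ n → 0 < n → 0 < M → 2 ∣ M →
  ∃ e : ℤ, Odd e ∧ ∀ (c d : ℕ) (Y : Type) (α : GQ → Y → Y) (S : Finset Y) (τ : Y → K) (W : Y → ℤ)
    (v v' : Y → ZMod l × ZMod l) (t f g : Y → ℂ_[2]), c ^ 2 % 24 = 1 → d ^ 2 % 24 = 1 →
    c.Coprime l → d.Coprime l → Sy.Ds V.D α S → Sy.Tw V.D α S n τ →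
    f ∈ (fd h V).G α S → g ∈ (fd h V).G α S → (fun y => t y ^ l) ∈ (fd h V).G α S →
    (fun y => ι (E (1 / l)) ^ (v y).2.val * t y ^ (v y).1.val) ∈ (fd h V).G α S →
    (fun y => ι (E (1 / l)) ^ (v' y).2.val * t y ^ (v' y).1.val) ∈ (fd h V).G α S →
    (∀ j ∈ V.D, ∀ y ∈ S, W (α j y) = W y ∧ (v (α j y)).1 = (v y).1 ∧ (v' (α j y)).1 = (v' y).1) →
    (∀ y ∈ S, ‖t y‖ < 1 ∧ Gd (t y) ∧ (v y).1 ≠ 0 ∧ (v' y).1 ≠ 0 ∧
      IsUnit ((v y).1 * (v' y).2 - (v y).2 * (v' y).1) ∧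
      hn n * (τ y * (((v y).1 * (v' y).2 - (v y).2 * (v' y).1).val : ℕ) - W y) ∈ O ∧
      Vf ι l (t y) (sF c (rw l (v y))) (f y) ∧ Vf ι l (t y) (sF d (rw l (v' y))) (g y)) →
    ∃ θ : K, am θ = V.tr (∑ y ∈ S, W y * Lm (t y)
        (Es c l (ι (E (1 / l))) (v y) * Es d l (ι (E (1 / l))) (v' y))) ∧
      2 • (fd h V).sym α S n τ f g = mq (2 * e * θ / (M * 4 ^ n))

/-- a small point `q` of the disc, fixed by `D`, goes to `R`, and `Λ` is the logarithm of `R` -/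
structure Pq (h : Ind ι P) (D : Subgroup GQ) (a : ℕ → ℤ) (w : ℕ) (x y : FF) {A B : ℤ} (q : ℂ_[2])
    (R : Pt A B) (Λ : ℂ_[2]) : Prop where
  ne : q ≠ 0
  lt : ‖q‖ < 1
  aa : q ∈ AA
  gd : Gd q
  alg : ∃ b, jv q = ι b
  fx : ∀ g ∈ D, h.ro g q = q
  mem : R ∈ Fx A B D
  val : ∃ c d n, R = .some c d n ∧ Vf ι 1 q x (ι c) ∧ Vf ι 1 q y (ι d)
  lg : w * Λ = Lm q (PowerSeries.mk fun n => (a n : ℂ_[2]))

/-- **the explicit reciprocity law over `D`** -/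
def RECD (Kz : KZ) : Prop := ∀ (X : Mdl) N G a A B (w : ℕ) I x y
  (hD : 4 * ((A : ℤ) : ℚ) ^ 3 + 27 * ((B : ℤ) : ℚ) ^ 2 ≠ 0) ι P (h : Ind ι P) (V : Sd P)
  (q : Fin 2 → ℂ_[2]) (R : Fin 2 → Pt A B) (Λ : Fin 2 → ℂ_[2]), RN N G a →
  ParY N a A B w I (cv x) (cv y) → EVL h V → (∀ i, Pq h V.D a w x y (q i) (R i) (Λ i)) →
  (∀ j : ℤ, j ≠ 0 → j • (R 0 - R 1) ≠ 0) →
  ∃ k : ℤ, k ≠ 0 ∧ ∀ M n l : ℕ, l = M * 2 ^ n → 0 < n → 0 < M → 2 ∣ M → N ∣ l →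
    ∃ e : ℤ, Odd e ∧ ∀ (c d : ℕ) γ z, Ad N l c d γ →
      Kz X A B x y l n (sF c (rg l γ 0)) (sF d (rg l γ 1)) z →
      ∀ (J : Type) [Fintype J] s p (κ : J → ℤ) (ω : ZMod l → ℤ) R' c0, Wt l V.D s p κ ω →
        2 ^ n • R' = k • (R 0 - R 1) → Vol (LL I) c0 → ∃ (b : Qb) (θ : K),
          am θ = V.tr ((Λ 0 - Λ 1) * ι b) ∧
          io b * c0 = -Complex.I * (Lw a (fun n => sm c d ω n) * conj (sy I γ) -
            Lw a (fun n => sm c d ω (-n)) * sy I γ) ∧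
          Zn V.D n (zw s p (fun i => ω (κ i)) z) ∧
          4 • V.i (cp (Ki.wp hD) n (Bt.dd A B R') (zw s p (fun i => ω (κ i)) z)) =
            mq (2 * e * hn n * k * θ)

end Vale.Agent.P014W.Rd
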