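import Vale.Agent.P014W.Rd0
import Vale.Agent.P014T.Rc.Fev
import Vale.Agent.P014T.Rc.Pt
import Vale.Agent.P014T.Ev.Kz
import Vale.Agent.P014T.Ev.Evp

/-! # P014W, block A2: places, fibres and the pairing over a subgroup of the decomposition group -/

set_option linter.all false
set_option autoImplicit false

open scoped Classical MatrixGroups
open CongruenceSubgroup NumberField Finset

noncomputable section

namespace Vale.Agent.P014W.Rd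

open Vale.Agent.P022 (Qb GQ)
open Vale.Agent.P022D.W (dec)
open Vale.Agent.P004S.Ga (K O)
open Vale.Agent.P004S.Aq (cy O_of O_mul O_cy)
open Vale.Agent.P004F.Rc (mq hn)
open Vale.Agent.P004M.TE (Pt)
open P004N (RN)
open Vale.Agent.P027M.M
open P027M.K (Val SL)
open Vale.Agent.P019P
open Vale.Agent.P022K.QT.Cu (E E_nat)
open P014T P014T.Rc
open Pu (ParY)
open Rk (Ph)
open Cp (Zn cp)
open Wm (Fx)
open Sg (sF)
open Sb (Gd Lm)

open P004H.H666 Dc Ev in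
theorem evq : ∀ (X : Mdl) N G a A B w I (l n : ℕ) [CFF Qb (L (Gamma l))]
  (x y : L (Gamma l)) (hD : 4 * ((A : ℤ) : ℚ) ^ 3 + 27 * ((B : ℤ) : ℚ) ^ 2 ≠ 0)
  (σ : GQ →* SL Qb (L (Gamma l))), RN N G a → ParY N a A B w I (cv x) (cv y) → N ∣ l → Lv l →
  2 ^ n ∣ l → Ga X σ → ∃ e : ℤ, Odd e ∧ ∀ (u v : L (Gamma l)) z, Ev.Kz X A B x y l n u v z →
    ∀ ι P (h : Ah.Ind ι P) (V : Sd P) (J : Type) [Fintype J] s p (W : J → ℤ), Kc.Tr ⊤ (Dr.Hm l) s p →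
    (∀ g ∈ V.D, ∀ i, W (p g i) = W i) → ∀ R t R' f Av, R ∈ Fx A B V.D →
    t ∈ Fx A B V.D → 2 • t ≠ 0 → 2 • (t + R) ≠ 0 → 2 ^ n • R' = R →
    Hf σ V.D x y R t f Av → Zn V.D n (zw s p W z) ∧
      V.i (cp (Ki.wp hD) n (Bt.dd A B R') (zw s p W z)) = sy2 h V σ s p W Av n e u v := by
  intro X N G a A B w I l n _ x y hD σ r p Nl lv nl ga
  obtain ⟨e, o, H⟩ := Ev.evp A B hD n
  refine ⟨e, o, fun u v z kz ι P h V J _ s q W tr iv R t R' f Av mR mt t0 t1 hR hf => ?_⟩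
  have nn : (crv (((A : ℤ) : ℚ) : L (Gamma l)) (((B : ℤ) : ℚ) : L (Gamma l))).Nonsingular x y := by
    have := p.toPw.nsF r
    rwa [← P004M.TE.crv_map (algebraMap (L (Gamma l)) FF) (map_ratCast _ _) (map_ratCast _ _),
      show (x : FF) = algebraMap (L (Gamma l)) FF x from rfl,
      show (y : FF) = algebraMap (L (Gamma l)) FF y from rfl,
      WeierstrassCurve.Affine.map_nonsingular _ (algebraMap (L (Gamma l)) FF).injective] at this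
  obtain ⟨Q, hQ⟩ := exists_pole (Dc.jL_ne (Gamma l))
  have jQ : jL (Gamma l) ∉ Q.1 := fun m => ((mem_iff_ord _ _).1 m).elim
    (fun e => Dc.jL_ne _ 0 (e.trans (map_zero _).symm)) hQ.not_ge
  have xQ : x ∉ Q.1 :=
    ((Pu.itg_map (algebraMap (L (Gamma l)) FF)).1 (p.itgF r Dc.cv_jF)).pole Q jQ
  have pe (S : P004M.TE.Pt A B) (Q) : pm (a := (A : ℤ)) (b := (B : ℤ)) x y S Q = Rc.pb x y S Q := by
    cases S <;> rfl
  exact H _ _ (fd h V) σ _ _ x y u v nn z J s q W R t R' f Av (Ah.emb_AA ι)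
    (fun k => by
      obtain ⟨c, rfl⟩ := Pu.alg_const k
      exact xQ (Q.2.1 _)) ⟨Q, jQ⟩
    (fun g => ⟨Subtype.ext ((ga g x).trans (Pu.Rq.gal p.xq X g)),
      Subtype.ext ((ga g y).trans (Pu.Rq.gal p.yq X g))⟩)
    ((Dr.Hm_open lv.pos.ne').mem_nhds (one_mem _))
    (fun g m => Dr.Hm_le nl m _ (Sy.ex_prim' n).pow_eq_one) (kz hD σ x y u v nn ga rfl rfl rfl rfl)
    tr iv mR mt t0 t1 hR hf.ne hf.fx hf.inv hf.cu fun Q m => by rw [pe, pe]; exact hf.dv Q m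

open Rc.Pq Dc Ts in
theorem plq : ∀ (X : Mdl) ι P (h : Ah.Ind ι P) (D : Subgroup GQ) (le : D ≤ dec P) (N l : ℕ) [CFF Qb (L (Gamma l))]
  (σ : GQ →* SL Qb (L (Gamma l))) (A B : ℤ) (x y f : L (Gamma l)) (R t : Pt A B) μ n, Lv l →
  N ∣ l → Ga X σ → (∀ g, X.gal g x = x ∧ X.gal g y = y) → R ∈ Fx A B D →
  t ∈ Fx A B D → Rp ι N μ n → Iq h D μ → Hc N x y R t f n →
  ∃ Av, Ab X ι N l μ Av ∧ Hf σ D x y R t f Av := by
  intro X ι P h D le N l _ σ A B x y f R t μ n hl d s xy hR ht rp iq hc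
  have hN : 0 < N := Nat.pos_of_dvd_of_pos d hl.pos
  have f0 : f ≠ 0 := fun e => hc.ne (by rw [e]; rfl)
  obtain ⟨Av, av⟩ : ∃ Av : Plk Qb (L (Gamma l)) →₀ ℤ, ∀ Q, Av Q =
      if jL _ ∈ Q.1 then ord Q f + (pb x y (t + R) Q - pb x y t Q) else 0 :=
    ⟨(dv Qb f + (pv x y (t + R) - pv x y t)).filter fun Q => jL _ ∈ Q.1, fun Q => by
      rw [Finsupp.filter_apply, Finsupp.add_apply, Finsupp.sub_apply, dv_apply, pv_eq, pv_eq]⟩
  have a1 : ∀ Q τ, jL _ ∈ Q.1 → Ac τ Q → Av Q = n τ := fun Q τ m k => by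
    rw [av, if_pos m, k.ord, hc.dv, pb_pc k, pb_pc k, sub_add_cancel]
  have a2 : ∀ Q q, Up ι N q Q → Av Q = μ q := fun Q q u => by
    obtain ⟨τ, k⟩ := (pt l hl).1 Q u.mem
    rw [a1 Q τ u.mem k, rp.eq q τ (u.sm d k)]
  have a3 : ∀ Q, Av Q ≠ 0 → ∃ q, Up ι N q Q := fun Q e => by
    have m : jL _ ∈ Q.1 := by_contra fun m => e (by rw [av, if_neg m])
    obtain ⟨τ, k⟩ := (pt l hl).1 Q m
    exact (rp.sup τ (a1 Q τ m k ▸ e)).imp fun q u => up_of_sm u k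
  have a4 : ∀ g ∈ D, ∀ Q, Av Q ≠ 0 → Av (σ g • Q) = Av Q := fun g hg Q e => by
    obtain ⟨q, u⟩ := a3 Q e
    rw [a2 _ _ (u.gal hN s h (le hg)), a2 _ _ u, iq g hg]
  have a5 : ∀ g ∈ D, ∀ Q, Av (σ g • Q) = Av Q := fun g hg Q => by
    by_cases e : Av (σ g • Q) = 0
    · by_contra k
      exact k (a4 g hg Q fun c => k (e.trans c.symm))
    · have := a4 g⁻¹ (inv_mem hg) _ e
      rw [map_inv, inv_smul_smul] at this
      exact this.symm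
  have cu : ∀ Q : Plk Qb (L (Gamma l)), jL _ ∉ Q.1 → Val Q f 1 := fun Q m => hc.cu l f Q hl d rfl m
  have dv' : ∀ Q, jL _ ∈ Q.1 → ord Q f = Av Q - (pb x y (t + R) Q - pb x y t Q) := fun Q m => by
    rw [av, if_pos m, add_sub_cancel_right]
  refine ⟨Av, ⟨fun Q m => ?_, fun Q r γ m k a => ?_⟩, f0, fun g hg => ?_, a5,
    fun Q m => ⟨cu Q m, by rw [av, if_neg m]⟩, dv'⟩
  · obtain ⟨q, u⟩ := a3 Q (Finsupp.mem_support_iff.1 m)
    refine ⟨q, Finsupp.mem_support_iff.2 (a2 Q q u ▸ Finsupp.mem_support_iff.1 m), ?_⟩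
    rintro r rfl
    exact u.at X hl d
  · obtain ⟨τ, u⟩ := rp.ex _ k
    obtain ⟨h0, h1⟩ := rt hl.pos u.ne u.lt
    exact a2 _ _ (up_of_at hl.pos h0 h1 m a)
  · have hx : (σ g).1 x = x := Subtype.ext ((s g x).trans (xy g).1)
    have hy : (σ g).1 y = y := Subtype.ext ((s g y).trans (xy g).2)
    have g0 : (σ g).1 f ≠ 0 := (map_ne_zero _).2 f0
    have c' : ∀ Q : Plk Qb (L (Gamma l)), jL _ ∉ Q.1 → Val Q ((σ g).1 f) 1 := fun Q m => by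
      obtain ⟨W, rfl⟩ := MulAction.surjective (σ g) Q
      have := (val_sm (s.cst g) W f 1).2 (cu W fun k => m ((s.j g W).2 k))
      rwa [map_one] at this
    have e : ∀ Q : Plk Qb (L (Gamma l)), ord Q ((σ g).1 f) = ord Q f := fun Q => by
      by_cases m : jL _ ∈ Q.1
      · obtain ⟨W, rfl⟩ := MulAction.surjective (σ g) Q
        change jL _ ∈ (σ g • W).1 at m
        show ord (σ g • W) _ = ord (σ g • W) _
        rw [ord_sm, dv' _ m, dv' W ((s.j g W).1 m), a5 g hg,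
          pb_sm (s.cst g) hx hy ((add_mem ht hR) g hg), pb_sm (s.cst g) hx hy (ht g hg)]
      · rw [((c' Q m).unit one_ne_zero).2, ((cu Q m).unit one_ne_zero).2]
    obtain ⟨c, k⟩ := (dv_eq_zero_iff (k := Qb) (mul_ne_zero g0 (inv_ne_zero f0))).1
      (Finsupp.ext fun Q => by
        rw [dv_apply, ord_mul Q g0 (inv_ne_zero f0), ord_inv, e, add_neg_cancel]; rfl)
    obtain ⟨Q, m⟩ := exists_pole (jL_ne (Gamma l))
    have m' : jL _ ∉ Q.1 := fun k => ((mem_iff_ord _ _).1 k).elim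
      (fun z => by rw [z, ord_zero] at m; exact m.false) fun z => (z.trans_lt m).false
    rw [mul_inv_eq_iff_eq_mul₀ f0] at k
    have := (c' Q m').unique (k ▸ (P027M.K.Val.const Q c).mul (cu Q m'))
    rw [k, mul_one] at *
    rw [← this, map_one, one_mul]

open Ah Dc Sy Sy.Fd

namespace Fv

open Rc.Fv hiding Tt w0 mem_u

variable {ι : Qb →+* ℂ_[2]} {P : Ideal (𝓞 Qb)} {l N : ℕ} [NeZero l] {g j : GQ}
  (h : Ind ι P) (V : Sd P) (μ : ℂ_[2] →₀ ℤ) (t : ℂ_[2] → ℂ_[2])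

variable (l) in
/-- the divisor with the roots of its points -/
structure Tt : Prop where
  ok : Ok μ
  iq : Iq h V.D μ
  rt : ∀ q ∈ μ.support, t q ^ l = q

variable {h V μ t} {q : ℂ_[2]}

theorem Tt.mem (T : Tt l h V μ t) (hg : g ∈ V.D) (m : q ∈ μ.support) : h.ro g q ∈ μ.support := by
  rwa [Finsupp.mem_support_iff, T.iq g hg, ← Finsupp.mem_support_iff]

theorem Tt.tq (T : Tt l h V μ t) (m : q ∈ μ.support) :
    t q ≠ 0 ∧ ‖t q‖ < 1 ∧ t q ∈ AA ∧ Gd (t q) := by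
  have a := T.ok q m
  rw [← T.rt q m] at a
  exact ⟨(Rc.Pq.rt (NeZero.pos l) a.1 a.2.1).1, (Rc.Pq.rt (NeZero.pos l) a.1 a.2.1).2,
    AA_rt (NeZero.pos l) a.2.2.1, a.2.2.2.root (NeZero.pos l)⟩

theorem Tt.b (T : Tt l h V μ t) (hg : g ∈ V.D) (m : q ∈ μ.support) :
    h.ro g (t q) = zt ι (lz ι l (h.ro g (t q) / t (h.ro g q))) * t (h.ro g q) := by
  have m' := T.mem hg m
  rw [zt_lz, div_mul_cancel₀ _ (T.tq m').1]
  rw [div_pow, ← map_pow, T.rt q m, T.rt _ m', div_self (T.ok _ m').1]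

theorem Tt.xx (T : Tt l h V μ t) (hg : g ∈ V.D) (m : q ∈ μ.support) (v : Rw l) :
    xx t ι (h.ro g q) (ar h t g q v) = h.ro g (xx t ι q v) := by
  rw [Rc.Fv.xx, Rc.Fv.xx, map_mul, map_pow, T.b hg m, zt.eq_1 ι v.2, map_pow, ar, sh, Rc.Fv.zt_add,
    Rc.Fv.zt_mul, Rc.Fv.zt_mul,
    zt_lz (by rw [← map_pow, z_prim.pow_eq_one, map_one]), mul_pow, mul_assoc]

theorem Tt.inj (T : Tt l h V μ t) (m : q ∈ μ.support) {v w : Rw l} (e : v.1 = w.1)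
    (e' : Rc.Fv.xx t ι q v = Rc.Fv.xx t ι q w) : v = w := by
  rw [Rc.Fv.xx, Rc.Fv.xx, e] at e'
  exact Prod.ext e (zt_inj (mul_right_cancel₀ (pow_ne_zero _ (T.tq m).1) e'))

theorem Tt.ds (T : Tt l h V μ t) (γ : SL(2, ℤ)) : Ds V.D (ac h t) (μ.support ×ˢ Rs N l γ) := by
  refine ⟨fun g hg r m => ?_, fun r m => ?_, fun g hg j hj r m => ?_, fun r m => ?_⟩ <;>
    rw [mem_product] at m
  · obtain ⟨k, c, y⟩ := (serg l (NeZero.pos l) g).1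
    refine mem_product.2 ⟨T.mem hg m.1, mem_Rs.2 ⟨?_, (mem_Rs.1 m.2).2⟩⟩
    have : dt (ac h t g r).2 = k * dt r.2 := by
      simp only [dt, Rc.Fv.ac, ar, sh, kz h (V.le hg) y]
      ring
    exact this ▸ ((ZMod.coe_int_isUnit_iff_isCoprime _ _).2 c.symm).mul (mem_Rs.1 m.2).1
  · have e (v) : ar h t 1 r.1 v = v := T.inj m.1 rfl (by
      simpa only [h.ro_one] using T.xx (one_mem _) m.1 v)
    simp only [Rc.Fv.ac, e, h.ro_one]
  · have e (v) : ar h t (g * j) r.1 v = ar h t g (h.ro j r.1) (ar h t j r.1 v) :=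
      T.inj (T.mem (mul_mem hg hj) m.1) rfl (by
        rw [T.xx (mul_mem hg hj) m.1, h.ro_mul (V.le hg) (V.le hj), h.ro_mul (V.le hg) (V.le hj), T.xx hg (T.mem hj m.1),
          T.xx hj m.1])
    simp only [Rc.Fv.ac, e, h.ro_mul (V.le hg) (V.le hj)]
  · exact lc_le V.le <| (((h.ro_lc (T.ok _ m.1).2.2.1).two (h.ro_lc (T.tq m.1).2.2.1) Prod.mk).two
      (h.ro_lc (emb_AA ι (E (1 / l)))) fun a b => (a.1, sh (lz ι l b) (lz ι l (a.2 / t a.1)) r.2.1,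
        sh (lz ι l b) (lz ι l (a.2 / t a.1)) r.2.2))

theorem Tt.gg (T : Tt l h V μ t) (R : Finset (Rw l × Rw l)) :
    (fun r : ℂ_[2] × Rw l × Rw l => t r.1 ^ l) ∈ (fd h V).G (ac h t) (μ.support ×ˢ R) ∧
    (fun r : ℂ_[2] × Rw l × Rw l => Rc.Fv.xx t ι r.1 r.2.1) ∈ (fd h V).G (ac h t) (μ.support ×ˢ R) ∧
    (fun r : ℂ_[2] × Rw l × Rw l => Rc.Fv.xx t ι r.1 r.2.2) ∈ (fd h V).G (ac h t) (μ.support ×ˢ R) := by
  have a {q} (m : q ∈ μ.support) (v : Rw l) : Rc.Fv.xx t ι q v ≠ 0 ∧ Rc.Fv.xx t ι q v ∈ AA :=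
    ⟨mul_ne_zero (zt_ne _) (pow_ne_zero _ (T.tq m).1),
      mul_mem (pow_mem (emb_AA ι _) _) (pow_mem (T.tq m).2.2.1 _)⟩
  refine ⟨fun r m => ?_, fun r m => ?_, fun r m => ?_⟩ <;> replace m := (mem_product.1 m).1
  · exact ⟨pow_ne_zero _ (T.tq m).1, pow_mem (T.tq m).2.2.1 _, fun g hg =>
      (congrArg _ (T.rt _ m)).trans (T.rt _ (T.mem hg m)).symm⟩
  · exact ⟨(a m _).1, (a m _).2, fun g hg => (T.xx hg m _).symm⟩
  · exact ⟨(a m _).1, (a m _).2, fun g hg => (T.xx hg m _).symm⟩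

variable [CFF Qb (L (Gamma l))] {X : Mdl} {σ : GQ →* SL Qb (L (Gamma l))} {J : Type} {s : J → GQ}
  {p : GQ → J → J} {κ : J → ℤ} {w : ZMod l → ℤ} {γ : SL(2, ℤ)} {Av : Plk Qb (L (Gamma l)) →₀ ℤ}
  {r r' : ℂ_[2] × Rw l × Rw l} {x x' : Plk Qb (L (Gamma l)) × J} {c n : ℕ} {u : L (Gamma l)}

theorem w0 (W : Wt l V.D s p κ w) (i : J) : IsUnit (κ i : ZMod l) :=
  (ZMod.coe_int_isUnit_iff_isCoprime _ _).2 (Sb.cyc_cop (NeZero.pos l) (W.cyc i)).symm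

theorem rl_un (W : Wt l V.D s p κ w) (a : Rl ι t X κ γ r x) (b : Rl ι t X κ γ r x') : x = x' := by
  have e := Sb.wt_inj (NeZero.pos l) W.tr W.cyc (a.dt.symm.trans b.dt)
  obtain ⟨δ, a1, a2⟩ := a
  obtain ⟨δ', b1, b2⟩ := b
  rw [← b1, ← e, b4 (w0 W _)] at a1
  rw [← eg_left X a1, inv_mul_cancel_right] at b2
  exact Prod.ext (a2.uniq (NeZero.pos l) b2) e

theorem rl_av (T : Tt l h V μ t) (d : N ∣ l) (A : Ab X ι N l μ Av) (m : r ∈ μ.support ×ˢ Rs N l γ)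
    (a : Rl ι t X κ γ r x) : Av x.1 = μ r.1 := by
  obtain ⟨m1, m2⟩ := mem_product.1 m
  have u := a.dt ▸ (mem_Rs.1 m2).1
  obtain ⟨δ, a1, a2⟩ := a
  rw [A.eq _ _ δ ((b2 d u).1 (a1 ▸ m2)) (by rwa [T.rt _ m1]) a2, T.rt _ m1]

theorem rl_gal (T : Tt l h V μ t) (hl : Lv l) (G : Ga X σ) (W : Wt l V.D s p κ w) (hg : g ∈ V.D)
    (m : r.1 ∈ μ.support) (a : Rl ι t X κ γ r x) :
    Rl ι t X κ γ (ac h t g r) (σ g • x.1, p g x.2) := by
  obtain ⟨k, c, y⟩ := (serg l hl.pos g).1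
  obtain ⟨δ, a1, a2⟩ := a
  obtain ⟨δ', tw, e⟩ := b5 δ (lz ι l (h.ro g (t r.1) / t (h.ro g r.1))).val c
  refine ⟨_, (congrArg (mt γ _) (Sb.wt_act hl.pos W.tr W.cyc y _)).trans
    ((congrArg₂ Prod.mk (e γ _ 0) (e γ _ 1)).trans ?_), ?_⟩
  · simp only [Rc.Fv.mt, Rc.Fv.ac, ar, kz h (V.le hg) y, ← a1, Int.cast_natCast, ZMod.natCast_zmod_val]
  have := a2.conj (e' := eg X δ' _) X hl.pos (h.ro g) (h.ro_nrm g) (h.ro_emb (V.le hg)) (σ g).1 (G.cst g)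
    (fun z => by rw [eg_apply, eg_apply, G g, (x_shim X l hl g _ y).2 δ δ' tw _ ((L_Gt X l).ge z.2)])
    (Ts.sm_mem (σ g) x.1)
  rw [T.b hg m, zt_E] at this
  rw [← eg_comp]
  exact this.tr X hl.pos _

theorem rl_fib (T : Tt l h V μ t) (hl : Lv l) (W : Wt l V.D s p κ w) (m : r.1 ∈ μ.support)
    (m' : r'.1 ∈ μ.support) (a : Rl ι t X κ γ r x) :
    Rl ι t X κ γ r' x ↔ r' = r ∨ r' = (r.1, -r.2) := by
  obtain ⟨δ, a1, a2⟩ := a
  refine ⟨fun ⟨δ', b1, b2⟩ => ?_, fun e => e.elim (fun e => e ▸ ⟨δ, a1, a2⟩) fun e =>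
    e ▸ ⟨-δ, by rw [mt_neg, a1], by rwa [eg_neg]⟩⟩
  obtain ⟨y, c1, c2⟩ := a2.j hl.pos (T.tq m).1 (T.tq m).2.1 (eg_j X δ)
  obtain ⟨y', d1, d2⟩ := b2.j hl.pos (T.tq m').1 (T.tq m').2.1 (eg_j X δ')
  rw [T.rt _ m, c2.unique d2, d1, T.rt _ m'] at c1
  have e := jv_inj (T.ok _ m').1 (T.ok _ m').2.1 (T.ok _ m).1 (T.ok _ m).2.1 c1
  rw [e, fib_iff X hl le_rfl (T.tq m).1 (T.tq m).2.1 a2, ← neg_mul, ← b4 (γ := γ) (w0 W x.2),
    ← b4 (γ := γ) (w0 W x.2), mt_neg, a1, b1] at b2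
  exact b2.imp (fun k => Prod.ext e k.symm) fun k => Prod.ext e k.symm

section unit

variable (hl : Lv l) (G : Ga X σ) (W : Wt l V.D s p κ w) (hc : c ^ 2 % 24 = 1)
  (cl : c.Coprime l) {i : Fin 2} (hu : (u : FF) = sF c (rg l γ i))
include hl G hc cl hu

include W

theorem rl_val (T : Tt l h V μ t) (m : r.1 ∈ μ.support) (a : Rl ι t X κ γ r x) :
    ∃ y, Val x.1 ((σ (s x.2)).1 u) y ∧ ι y ≠ 0 ∧
      Vf ι l (t r.1) (sF c (rw l (![r.2.1, r.2.2] i))) (ι y) := by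
  obtain ⟨δ, a1, a2⟩ := a
  obtain ⟨n, e⟩ := gal_u hl G hc cl hu (W.cyc x.2)
  have k := b7 (l := l) γ δ (κ x.2) i
  have n' := (n.vg δ).congr k
  obtain ⟨y, e1, e2⟩ := a2.sF X hc (T.tq m).1 (T.tq m).2.1 n e (ZMod.val_lt _) k
  refine ⟨y, e2, e1 ▸ sv_ne (T.tq m).1 (T.tq m).2.1 (ZMod.val_lt _) n', ?_⟩
  rw [e1, show ![r.2.1, r.2.2] i = mr γ δ (κ x.2) i by rw [← a1]; fin_cases i <;> rfl]
  exact vf_sF hc (ZMod.val_lt _) n' (T.tq m).1 (T.tq m).2.1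

theorem mem_u (T : Tt l h V μ t) {S : Finset (Plk Qb (L (Gamma l)) × J)}
    (su : ∀ x ∈ S, ∃ r, r.1 ∈ μ.support ∧ Rl ι t X κ γ r x) :
    (fun y => ι (P025H492.vl y.1 ((σ (s y.2)).1 u))) ∈
      (fd h V).G (fun g y => (σ g • y.1, p g y.2)) S := fun x hx => by
  obtain ⟨r, m, a⟩ := su x hx
  obtain ⟨y, v, y0, -⟩ := rl_val hl G W hc cl hu T m a
  simp only [P025H492.vl_eq v]
  refine ⟨y0, emb_AA ι y, fun g hg => (h.ro_emb (V.le hg) y).trans (congrArg ι (P025H492.vl_eq ?_).symm)⟩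
  have e : (σ (Kc.ta s p g x.2)).1 u = u := Subtype.ext (by
    rw [(gal_u hl G hc cl hu (cyc1 (W.tr.ta_mem trivial x.2))).2, hu, Int.cast_one, one_mul, ← eta])
  have := (Rc.Pq.val_sm (G.cst g) _ _ _).2 v
  rwa [← Ts.sl_mul, ← map_mul, ← Kc.ta_eq (r := s) (p := p), map_mul, Ts.sl_mul, e] at this

end unit

end Fv

open Fv in
open Rc.Fv hiding Tt w0 mem_u in
theorem fev : ∀ (X : Mdl) ι P (h : Ind ι P) (V : Sd P) (evl : EVL h V) (M n l : ℕ) [NeZero l] [CFF Qb (L (Gamma l))],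
  l = M * 2 ^ n → 0 < n → 2 ∣ M → ∃ e' : ℤ, Odd e' ∧ ∀ (σ : GQ →* SL Qb (L (Gamma l))) (N c d : ℕ)
    γ (u v : L (Gamma l)) (J : Type) [Fintype J] s p (κ : J → ℤ) w μ Av (t : ℂ_[2] → ℂ_[2]) (e : ℤ),
    Ga X σ → N ∣ l → Ad N l c d γ → (u : FF) = sF c (rg l γ 0) → (v : FF) = sF d (rg l γ 1) →
    Wt l V.D s p κ w → Ok μ → Iq h V.D μ → (∀ q ∈ μ.support, ∃ a, jv q = ι a) →
    Ab X ι N l μ Av → (∀ q ∈ μ.support, t q ^ l = q) →
    ∃ θ : K, am θ = V.tr (∑ q ∈ μ.support, μ q * Lm (t q)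
        (FS c d l (ι (E (1 / l))) (Ph N (γ 1 0) (γ 1 1) fun x => (w x : ℂ_[2])))) ∧
      4 • sy2 h V σ s p (fun i => w (κ i)) Av n e u v = mq (2 * (e * e') * θ / (M * 4 ^ n)) := by
  intro X ι P h V evl M n l _ _ e0 n0 M2
  have l0 := NeZero.pos l
  have M0 : 0 < M := Nat.pos_of_ne_zero fun c => l0.ne' (by rw [e0, c, zero_mul])
  have d2 : 2 ^ n ∣ l := e0 ▸ dvd_mul_left _ _
  have hl : Lv l := ⟨l0, e0 ▸ mul_dvd_mul M2 (dvd_pow_self 2 n0.ne')⟩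
  obtain ⟨e', o, H⟩ := evl M n l e0 n0 M0 M2
  refine ⟨e', o, fun σ N c d γ u v J _ s p κ w μ Av t e G dN A hu hv W ok iq al B rt => ?_⟩
  have T : Tt l h V μ t := ⟨ok, iq, rt⟩
  have := nonempty_Plk Qb (L (Gamma l))
  have := W.ne
  have f1 {r : ℂ_[2] × Rw l × Rw l} (m : r ∈ μ.support ×ˢ Rs N l γ) := (mem_product.1 m).1
  have su : ∀ x ∈ Av.support ×ˢ (univ : Finset J), ∃ r ∈ μ.support ×ˢ Rs N l γ,
      Rl ι t X κ γ r x := fun x m => by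
    obtain ⟨q, m, k⟩ := B.sup _ (mem_product.1 m).1
    obtain ⟨δ, m', a⟩ := k _ (rt q m)
    exact ⟨(q, mt γ δ (κ x.2)), mem_product.2 ⟨m, (b2 dN (w0 W _)).2 m'⟩, δ, rfl, a⟩
  obtain ⟨ds, π, mp, hπ⟩ := cover (α := fun g y => (σ g • y.1, p g y.2)) (Rl ι t X κ γ) (T.ds γ)
    (fun r m => by
      obtain ⟨i, a⟩ := Sb.wt_onto l0 W.tr W.cyc (mem_Rs.1 (mem_product.1 m).2).1
      obtain ⟨δ, b⟩ := b3 γ (mem_Rs.1 (mem_product.1 m).2).1
      obtain ⟨y, k⟩ := al _ (f1 m)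
      obtain ⟨Q, k, -⟩ := ex_fib X l0 le_rfl (T.tq (f1 m)).1 (T.tq (f1 m)).2.1
        (by rwa [rt _ (f1 m)]) δ
      have z : Rl ι t X κ γ r (Q, i) := ⟨δ, a ▸ b, k⟩
      exact ⟨_, mem_product.2 ⟨Finsupp.mem_support_iff.2 (rl_av T dN B m z ▸
        Finsupp.mem_support_iff.1 (f1 m)), mem_univ _⟩, z⟩)
    (fun _ _ _ _ => rl_un W) (fun g hg r m x => rl_gal T hl G W hg (f1 m)) su
  have z (r) (m) := (hπ r m _).1 rfl
  have su' := fun x m => (su x m).imp fun r k => And.intro (f1 k.1) k.2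
  have gu := mem_u hl G W A.c24 A.cl hu T su'
  have gv := mem_u hl G W A.d24 A.dl hv T su'
  let τ : Plk Qb (L (Gamma l)) × J → K := fun y => (Av y.1 * w (κ y.2) : ℤ) * (cy (s y.2))⁻¹
  have tw : Tw V.D (fun g y => (σ g • y.1, p g y.2)) (Av.support ×ˢ univ) n τ := by
    refine ⟨fun x _ => O_mul (O_z _) (O_cyi _), fun g hg x m => ?_⟩
    obtain ⟨r, m, a⟩ := su x m
    have k : Av (σ g • x.1) = Av x.1 := (rl_av T dN B
      ((T.ds γ).mem g hg r m) (rl_gal T hl G W hg (f1 m) a)).trans ((iq g hg _).trans (rl_av T dN B m a).symm)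
    refine O_of (O_mul (O_mul (O_z (Av x.1 * w (κ x.2))) (O_cyi (s x.2)))
      (Sb.cyk l0 d2 (cyc1 (W.tr.ta_mem (x := g) trivial x.2)))) ?_
    have := cy0 (s x.2)
    simp only [τ, k, W.inv g hg, Kc.ta, map_mul, map_inv]
    field_simp
    push_cast
    ring
  obtain ⟨g1, g2, g3⟩ := T.gg (Rs N l γ)
  obtain ⟨θ, a1, a2⟩ := H c d _ _ _ (τ ∘ π) (fun r => μ r.1 * w (dt r.2)) (·.2.1) (·.2.2)
    (fun r => t r.1) _ _ A.c24 A.d24 A.cl A.dl (T.ds γ) (tw.pull mp) (G_pull gu mp) (G_pull gv mp)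
    g1 g2 g3 (fun g hg r m => ⟨by
      rw [(rl_gal T hl G W hg (f1 m) (z r m)).dt, W.inv g hg, (z r m).dt]
      exact congrArg (· * _) (iq g hg _), rfl, rfl⟩) fun r m => by
      obtain ⟨y, v1, -, k1⟩ := rl_val hl G W A.c24 A.cl hu T (f1 m) (z r m)
      obtain ⟨y', v2, -, k2⟩ := rl_val hl G W A.d24 A.dl hv T (f1 m) (z r m)
      have b := b6 dN A.g0 A.g1 (mem_product.1 m).2
      refine ⟨(T.tq (f1 m)).2.1, (T.tq (f1 m)).2.2.2, b.1, b.2, (mem_Rs.1 (mem_product.1 m).2).1, ?_,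
        by rwa [Function.comp, P025H492.vl_eq v1], by rwa [Function.comp, P025H492.vl_eq v2]⟩
      obtain ⟨k, e1⟩ := (Int.natCast_dvd_natCast.2 d2).trans
        ((ZMod.intCast_eq_intCast_iff_dvd_sub (κ (π r).2) (dt r.2).val l).1 (by simp [(z r m).dt]))
      have e2 := congrArg (Int.cast (R := K)) e1
      refine O_of (O_mul (O_mul (O_z (μ r.1 * w (dt r.2))) (O_cyi (s (π r).2)))
        (sub_mem (O_z k) (Sb.cyk l0 d2 (W.cyc (π r).2)))) ?_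
      have := cy0 (s (π r).2)
      have e3 := P004F.Rc.hn_mul n
      change hn n * (τ (π r) * (dt r.2).val - _) = _
      simp only [τ, rl_av T dN B m (z r m), ← (z r m).dt]
      push_cast at e2 ⊢
      field_simp
      linear_combination (μ r.1 * w (dt r.2) : K) * (hn n * e2 + k * e3)
  refine ⟨θ, ?_, ?_⟩
  · rw [a1, sum_product]
    refine congrArg _ <| sum_congr rfl fun q m => ?_
    refine .trans ?_ (congrArg _ (Sb.lin two_C (T.tq m).2.1 z_prim.pow_eq_one A.cl A.dl _ _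
      W.un (fun _ => mem_Rs) fun _ => b6 dN A.g0 A.g1).symm)
    rw [mul_sum]
    exact sum_congr rfl fun Y _ => by rw [Int.cast_mul, mul_assoc]; rfl
  · rw [pull (F := fd h V) (m := 2) mp ds (T.ds γ) tw gu gv fun x m => ?_, smul_smul, two_mul] at a2
    · rw [sy2, show (fun y : Plk Qb (L (Gamma l)) × J => ((e * Av y.1 * w (κ y.2) : ℤ) : K) *
        (cy (s y.2))⁻¹) = fun y => e * τ y from funext fun y => by simp only [τ]; push_cast; ring,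
        sym_smul (F := fd h V) (m := e) ds tw gu gv (O_z e) (by simp), smul_comm, show 4 = 2 + 2 from rfl, a2,
        ← map_zsmul]
      congr 1
      rw [zsmul_eq_mul]
      ring
    obtain ⟨r, k, a⟩ := su x m
    obtain ⟨k1, k2⟩ := mem_product.1 k
    refine card_eq_two.2 ⟨r, (r.1, -r.2), fun c =>
      neg_ne hl.four (mem_Rs.1 k2).1 (congrArg Prod.snd c).symm, Finset.ext fun r' => ?_⟩
    rw [mem_filter, mem_insert, mem_singleton]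
    refine ⟨fun c => (rl_fib T hl W k1 (f1 c.1) a).1 ((hπ _ c.1 _).1 c.2), fun c => ?_⟩
    have k' : r' ∈ μ.support ×ˢ Rs N l γ :=
      c.elim (· ▸ k) (· ▸ mem_product.2 ⟨k1, neg_mem dN k2⟩)
    exact ⟨k', (hπ _ k' _).2 ((rl_fib T hl W k1 (f1 k') a).2 c)⟩

end Vale.Agent.P014W.Rd
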