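import Vale.Agent.P014W.Rd0
import Vale.Agent.P014T.Rc.Fev
import Vale.Agent.P014T.Rc.Eval
import Vale.Agent.P014T.Rk.Alg

/-!
# P014W, block A1: corestriction, induced sets, the value of the symbol over a subgroup
-/

set_option autoImplicit false
set_option linter.all false

open scoped Classical MatrixGroups
open CongruenceSubgroup NumberField Finset Topology Filter

noncomputable section

namespace Vale.Agent.P014W.Rd

open Vale.Agent.P022 (Qb GQ)
open Vale.Agent.P022D.W (dec)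
open Vale.Agent.P004S.Ga (K O d2 d3 Z2 B2)
open Vale.Agent.P004S.Aq (cy O_of O_mul O_cy cy_cont)
open Vale.Agent.P004F.Rc (mq hn)
open Vale.Agent.P027M.M (Mdl Cyc serg)
open Vale.Agent.P022K.QT.Cu (E)
open P014T P014T.Rc
open Ah Sy Sy.Fd
open Kc (Tr ta ta_eq)
open Sb (Gd Lm)

variable {D D' : Subgroup GQ} {X Y : Type} {r : X → GQ} {p : GQ → X → X} {g h : GQ}
  {α : GQ → Y → Y} {S : Finset Y} {n : ℕ}

theorem cy_ta (g : GQ) (i : X) : cy (r (p g i)) * cy (ta r p g i) = cy g * cy (r i) := by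
  rw [← map_mul, ta_eq, map_mul]

/-- the induced action -/
def ia (r : X → GQ) (p : GQ → X → X) (α : GQ → Y → Y) (g : GQ) (x : X × Y) : X × Y :=
  (p g x.1, α (ta r p g x.1) x.2)

variable [Fintype X]

/-- corestriction of two cochains -/
def co (r : X → GQ) (p : GQ → X → X) (z : GQ → GQ → K) (g h : GQ) : K :=
  ∑ i, cy (r (p g (p h i))) * z (ta r p g (p h i)) (ta r p h i)

section tr

variable (t : Tr D D' r p) (o : (D' : Set GQ) ∈ 𝓝[D] (1 : GQ))
include t o

theorem p_lc (i : X) : Lc D fun g => p g i := by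
  have c : Continuous fun w : GQ => (r i)⁻¹ * w * r i := by fun_prop
  refine Lc.of_nhds (W := {w | (r i)⁻¹ * w * r i ∈ D → (r i)⁻¹ * w * r i ∈ D'})
    (c.continuousAt.eventually (p := fun g => g ∈ D → g ∈ D')
      (by simpa using eventually_nhdsWithin_iff.1 (show ∀ᶠ g in 𝓝[D] 1, g ∈ D' from o))) fun g hg w hw k => ?_
  rw [t.mul hg hw, t.fix hw (k (mul_mem (mul_mem (inv_mem (t.mem i)) hw) (t.mem i)))]

theorem ta_cont (i : X) : ContinuousOn (fun g => ta r p g i) D :=
  ((((p_lc t o i).two (p_lc t o i) fun j _ => (r j)⁻¹).cont).mul continuousOn_id).mul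
    continuousOn_const

theorem cr_cont (i : X) : ContinuousOn (fun g => cy (r (p g i))) D :=
  ((p_lc t o i).two (p_lc t o i) fun j _ => cy (r j)).cont

theorem co_z2 {z : GQ → GQ → K} (a : Z2 cy D' z) : Z2 cy D (co r p z) := by
  refine ⟨continuousOn_finsetSum _ fun i _ => ?_, fun g hg h hh j hj => ?_⟩
  · refine sel (F := fun (q : GQ × GQ) j => cy (r (p q.1 j)) * z (ta r p q.1 j) (ta r p q.2 i))
      (s := fun q => p q.2 i) (S := univ) (fun q hq => ?_) (fun _ _ => mem_univ _) fun j _ =>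
        (c_fst (cr_cont t o j)).mul (a.cont.comp
          (((ta_cont t o j).comp continuousOn_fst fun _ m => m.1).prodMk
            ((ta_cont t o i).comp continuousOn_snd fun _ m => m.2))
          fun q m => ⟨t.ta_mem m.1 j, t.ta_mem m.2 i⟩)
    exact (continuousWithinAt_snd.tendsto_nhdsWithin fun _ m => m.2).eventually (p_lc t o i _ hq.2)
  · unfold d3 co
    rw [← t.sum hj fun i => cy (r (p g (p h i))) * z (ta r p g (p h i)) (ta r p h i), mul_sum,
      ← sum_sub_distrib, ← sum_add_distrib, ← sum_sub_distrib]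
    refine sum_mem fun i _ => O_of (O_mul (O_cy (r (p g (p h (p j i)))))
      (a.coc _ (t.ta_mem hg (p h (p j i))) _ (t.ta_mem hh (p j i)) _ (t.ta_mem hj i))) ?_
    simp only [d3, t.mul hg hh, t.mul hh hj, t.ta_mul hg hh, t.ta_mul hh hj]
    linear_combination -z (ta r p h (p j i)) (ta r p j i) * cy_ta (r := r) (p := p) g (p h (p j i))

theorem co_b2 {z : GQ → GQ → K} (a : B2 cy D' z) : B2 cy D (co r p z) := by
  obtain ⟨θ, c, e⟩ := a
  refine ⟨fun g => ∑ i, cy (r (p g i)) * θ (ta r p g i), continuousOn_finsetSum _ fun i _ =>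
    (cr_cont t o i).mul (c.comp (ta_cont t o i) fun _ m => t.ta_mem m i), fun g hg h hh => ?_⟩
  simp only [d2, co]
  rw [← t.sum hh fun i => cy (r (p g i)) * θ (ta r p g i), mul_sum, ← sum_sub_distrib,
    ← sum_add_distrib, ← sum_sub_distrib]
  refine sum_mem fun i _ => O_of (O_mul (O_cy (r (p g (p h i))))
    (e _ (t.ta_mem hg (p h i)) _ (t.ta_mem hh i))) ?_
  simp only [d2, t.mul hg hh, t.ta_mul hg hh]
  linear_combination θ (ta r p h i) * cy_ta (r := r) (p := p) g (p h i)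

theorem iv_co {j : (GQ → GQ → K) → K ⧸ O} (a : Sy.Iv D j) : Sy.Iv D' fun z => j (co r p z) :=
  ⟨fun z w hz hw => by
    rw [← a.add _ _ (co_z2 t o hz) (co_z2 t o hw)]
    exact congrArg j (funext₂ fun g h => by simp only [co, mul_add, sum_add_distrib]),
    fun z hz b => a.cob _ (co_z2 t o hz) (co_b2 t o b)⟩

theorem ia_ds (d : Ds D' α S) : Ds D (ia r p α) (univ ×ˢ S) := by
  refine ⟨fun g hg x m => mem_product.2 ⟨mem_univ _, d.mem _ (t.ta_mem hg _) _ (mem_product.1 m).2⟩,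
    fun x m => ?_, fun g hg j hj x m => ?_, fun x m g hg => ?_⟩ <;>
    replace m := (mem_product.1 m).2
  · rw [ia, ta, t.one, mul_one, inv_mul_cancel, d.one _ m]
  · simp only [ia, t.mul hg hj, t.ta_mul hg hj, d.mul _ (t.ta_mem hg _) _ (t.ta_mem hj _) _ m]
  · filter_upwards [p_lc t o x.1 g hg, ((ta_cont t o x.1 g hg).tendsto_nhdsWithin
      fun _ k => t.ta_mem k x.1).eventually (d.lc _ m _ (t.ta_mem hg x.1))] with j a b
    exact Prod.ext a b

omit o in
theorem ia_tw {τ : Y → K} (w : Tw D' α S n τ) :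
    Tw D (ia r p α) (univ ×ˢ S) n fun x => τ x.2 * (cy (r x.1))⁻¹ := by
  refine ⟨fun x m => O_mul (w.mem _ (mem_product.1 m).2) (Fv.O_cyi _), fun g hg x m =>
    O_of (O_mul (Fv.O_cyi (r x.1)) (w.eq _ (t.ta_mem hg x.1) _ (mem_product.1 m).2)) ?_⟩
  have a := Fv.cy0 (r x.1)
  have b := Fv.cy0 (r (p g x.1))
  simp only [ia]
  field_simp
  linear_combination -hn n * τ (α (ta r p g x.1) x.2) * cy_ta (r := r) (p := p) g x.1

end tr

variable {ι : Qb →+* ℂ_[2]} {P : Ideal (𝓞 Qb)} (H : Ind ι P) (t : Tr (dec P) D' r p)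
  (o : (D' : Set GQ) ∈ 𝓝[dec P] (1 : GQ))

/-- **the subgroup with the corestriction and the trace** -/
def sd : Sd P where
  D := D'
  le := t.le
  i z := Iv.iv P (co r p z)
  iv := iv_co t o (iv_iv H.ov)
  tr := ∑ i, (H.ro (r i)).toAddMonoidHom

theorem sd_tr (x : ℂ_[2]) : (sd H t o).tr x = ∑ i, H.ro (r i) x := by
  simp [sd]

variable (r) in
/-- the induced function -/
def up (a : Y → ℂ_[2]) (x : X × Y) : ℂ_[2] := H.ro (r x.1) (a x.2)

variable {H t o} {a b : Y → ℂ_[2]} {τ : Y → K}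

include t in
theorem ro_ta (hg : g ∈ dec P) (i : X) (x : ℂ_[2]) :
    H.ro g (H.ro (r i) x) = H.ro (r (p g i)) (H.ro (ta r p g i) x) := by
  rw [← H.ro_mul hg (t.mem i), ← ta_eq (p := p), H.ro_mul (t.mem _) (t.le (t.ta_mem hg i))]

theorem up_G (ha : a ∈ (fd H (sd H t o)).G α S) : up r H a ∈ H.fd.G (ia r p α) (univ ×ˢ S) :=
  fun x m => let k := ha _ (mem_product.1 m).2
    ⟨(map_ne_zero _).2 k.1, H.ro_AA _ k.2.1, fun g hg =>
      (ro_ta (t := t) hg _ _).trans (congrArg _ (k.2.2 _ (t.ta_mem hg _)))⟩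

theorem up_ku {k : GQ → Y → K} (c : (fd H (sd H t o)).Ku α S n a k) :
    H.fd.Ku (ia r p α) (univ ×ˢ S) n (up r H a)
      fun g x => cy (r (p g x.1)) * k (ta r p g x.1) x.2 := by
  obtain ⟨β, h1, h2, h3⟩ := c
  refine ⟨up r H β, fun x m => by rw [up, ← map_pow, h1 _ (mem_product.1 m).2, up], fun x m =>
    (cr_cont t o x.1).mul ((h2 _ (mem_product.1 m).2).comp (ta_cont t o x.1)
      fun _ k => t.ta_mem k x.1), fun g hg x m => (ro_ta (t := t) hg _ _).trans ?_⟩
  refine (congrArg _ (h3 _ (t.ta_mem hg x.1) _ (mem_product.1 m).2)).trans ((map_mul _ _ _).trans ?_)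
  exact congrArg (· * _) (H.fd.ex_act (t.mem _) _)

/-- **the symbol over the subgroup is the symbol over the induced set** -/
theorem sym_ind (d : Ds D' α S) (w : Tw D' α S n τ) (ha : a ∈ (fd H (sd H t o)).G α S)
    (hb : b ∈ (fd H (sd H t o)).G α S) : (fd H (sd H t o)).sym α S n τ a b =
      H.fd.sym (ia r p α) (univ ×ˢ S) n (fun x => τ x.2 * (cy (r x.1))⁻¹) (up r H a) (up r H b) := by
  obtain ⟨k, hk⟩ := ex_ku (F := fd H (sd H t o)) d ha n
  obtain ⟨l, hl⟩ := ex_ku (F := fd H (sd H t o)) d hb n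
  rw [sym_eq (F := fd H (sd H t o)) d w ha hb hk hl, sym_eq (F := H.fd) (ia_ds t o d) (ia_tw t w)
    (up_G ha) (up_G hb) (up_ku hk) (up_ku hl)]
  refine congrArg (Iv.iv P) (funext₂ fun g h => ?_)
  simp only [co, cup, sum_product, mul_sum, ia]
  refine sum_congr rfl fun i _ => sum_congr rfl fun y _ => ?_
  have := Fv.cy0 (r (p g (p h i)))
  field_simp
  linear_combination τ (α (ta r p g (p h i)) (α (ta r p h i) y)) *
    k (ta r p g (p h i)) (α (ta r p h i) y) * l (ta r p h i) y * cy_ta (r := r) (p := p) g (p h i)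

end Vale.Agent.P014W.Rd
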