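import Vale.Agent.P014W.Par
import Vale.Agent.P014T.Sb.Cnt
import Vale.Agent.P014T.Dr.Cy

/-! # P014W: the values are integral against equivariant families of points -/

set_option linter.all false

open scoped Classical
open NumberField Filter Topology

noncomputable section

namespace Vale.Agent.P014W.Rect

open Vale.Agent.P022 (Qb GQ)
open Vale.Agent.P022D.W (dec)
open Vale.Agent.P004M.TE (Cv Pt pa ga pa_some ga_some)
open P179W (KerV)
open Vale.Agent.P027M.M (Cyc)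
open Vale.Agent.P022K.QT.Cu (E E_nat)
open Vale.Agent.P014T
open Ah (Ind)
open Lc (nv zf Lg)
open Wm (Fx)
open Dr (Hm)

variable {A B : ℤ} {ι : Qb →+* ℂ_[2]} {P : Ideal (𝓞 Qb)} {g : GQ}

/-- **the logarithm is equivariant** -/
theorem lg_ga (hD : 4 * A ^ 3 + 27 * B ^ 2 ≠ 0) (h : Ind ι P) (hg : g ∈ dec P)
    {L : (Cv ℂ_[2] (A : ℚ) (B : ℚ)).Point →+ ℂ_[2]} (k : Lg 2 _ L) (T : Pt A B) :
    L (pa ι.toRatAlgHom (ga g T)) = h.ro g (L (pa ι.toRatAlgHom T)) := by
  have hc := Lc.cfs ℂ_[2] A B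
  have t2 : ‖((2 : ℕ) : ℂ_[2])‖ = 1 / 2 := by exact_mod_cast Ah.two_C
  have a (S : Pt A B) : zf (pa ι.toRatAlgHom (ga g S)) = h.ro g (zf (pa ι.toRatAlgHom S)) ∧
      (KerV (nv _) (pa ι.toRatAlgHom S) → KerV (nv _) (pa ι.toRatAlgHom (ga g S))) := by
    rcases S with _ | ⟨c, d, n⟩
    · exact ⟨(map_zero (h.ro g)).symm, id⟩
    rw [ga_some, pa_some, pa_some]
    refine ⟨?_, fun e c' => e ((h.nrm hg c).symm.trans_le c')⟩
    change -ι (g c) / ι (g d) = h.ro g (-ι c / ι d)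
    rw [map_div₀, map_neg, h.ro_emb hg, h.ro_emb hg]
  obtain ⟨m, m0, m1, m2⟩ := Par.small hD ι T (show (0 : ℝ) < 1 / 4 by norm_num)
  have m3 := m2.trans_lt (show _ < ‖((2 : ℕ) : ℂ_[2])‖ by rw [t2]; norm_num)
  have t1 := k.tendsto hc (by rw [t2]; norm_num) m1 m3
  have t3 := k.tendsto hc (by rw [t2]; norm_num) ((a _).2 m1) (by rwa [(a _).1, h.ro_nrm])
  have := tendsto_nhds_unique t3 ((((h.ro_iso g).continuous.tendsto _).comp t1).congr fun n => by
    rw [Function.comp, map_div₀, map_pow, map_natCast, ← map_nsmul, ← (a _).1, map_nsmul,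
      map_nsmul])
  simp only [map_nsmul, nsmul_eq_mul, map_mul, map_natCast] at this
  exact mul_left_cancel₀ (Nat.cast_ne_zero.2 m0.ne') this

theorem sum_cos {G C : Type} [CommGroup G] [Fintype G] [AddCommMonoid C] (H : Subgroup G)
    (t : G → C) : ∑ u, t u = ∑ c : G ⧸ H, ∑ i : H, t (i * c.out) := by
  rw [← Fintype.sum_prod_type']
  refine (Function.Bijective.sum_comp (e := fun p : (G ⧸ H) × H => (p.2 : G) * p.1.out)
    ⟨fun a b e => ?_, fun u => ?_⟩ t).symm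
  · have f (p : (G ⧸ H) × H) : (((p.2 : G) * p.1.out : G) : G ⧸ H) = p.1 := by
      rw [mul_comm, QuotientGroup.mk_mul_of_mem _ p.2.2, QuotientGroup.out_eq']
    have e1 : a.1 = b.1 := (f a).symm.trans ((congrArg _ e).trans (f b))
    beta_reduce at e
    rw [e1] at e
    exact Prod.ext e1 (Subtype.ext (mul_right_cancel e))
  · obtain ⟨i, e⟩ := QuotientGroup.mk_out_eq_mul H u
    exact ⟨(u, i⁻¹), by simp [e, mul_comm u]⟩

/-- **the values are integral** -/
theorem rect (loc : LOC) (rec : RECI) (gal : GAL) : RECT := by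
  intro N G a A B w I x y ι P h L r p k γ c0 M c _ gs vol c00 M2 sc
  have M0 := NeZero.pos M
  obtain ⟨b, b1, b2, b3⟩ := gal N G a A B w I _ _ r p γ c0 M c vol c00 sc
  refine ⟨b, b1, fun R hR => ?_⟩
  let χ := (Sb.E_prim M0).autToPow ℚ
  have cy (g : GQ) : Cyc M g ((χ g : ZMod M).val : ℕ) := Sb.cyc_E.2 (by
    rw [← (Sb.E_prim M0).autToPow_spec ℚ g, ← E_nat, mul_one_div, Int.cast_natCast])
  have un {g : GQ} {j : ℤ} (e : Cyc M g j) : (j : ZMod M) = χ g := by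
    rw [(Sb.E_iff M0).1 ((Sb.cyc_E.1 e).symm.trans (Sb.cyc_E.1 (cy g)))]
    simp
  have hm (g : GQ) : g ∈ Hm M ↔ χ g = 1 := by
    rw [Sb.hm_iff M0, Sb.cyc_E.1 (cy g), ← Int.cast_one (R := ℚ), Sb.E_iff M0, Units.ext_iff]
    simp
  let H := (dec P).map χ
  choose s s1 s2 using fun i : H => i.2
  obtain ⟨q, tr⟩ := Kc.Tr.of (Γ := dec P) (Γ' := dec P ⊓ Hm M) (r := s) inf_le_left s1
    (fun g hg => ⟨⟨χ g, g, hg, rfl⟩, (dec P).mul_mem ((dec P).inv_mem (s1 _)) hg, (hm _).2 (by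
      rw [map_mul, map_inv, s2, inv_mul_cancel])⟩)
    fun i j e => Subtype.ext (by
      have := (hm _).1 e.2
      rwa [map_mul, map_inv, s2, s2, inv_mul_eq_one] at this)
  obtain ⟨V, vd, vt, ve⟩ := loc ι P h (Hm M) H s q (Dr.Hm_open M0.ne') tr
  rw [← Fintype.sum_of_injective Units.val Units.val_injective
    (fun u => ι (b u) * L (pa ι.toRatAlgHom (R u))) _
    (fun z m => by rw [b2 z m, map_zero, zero_mul]) fun _ => rfl, sum_cos H]
  refine IsUltrametricDist.norm_sum_le_of_forall_le_of_nonneg zero_le_one fun z _ => ?_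
  have e : ∑ i : H, ι (b ((i * z.out : (ZMod M)ˣ) : ZMod M)) *
      L (pa ι.toRatAlgHom (R ((i * z.out : (ZMod M)ˣ) : ZMod M))) =
      V.tr (ι (b (z.out : (ZMod M)ˣ)) * L (pa ι.toRatAlgHom (R (z.out : (ZMod M)ˣ)))) := by
    rw [vt]
    refine Finset.sum_congr rfl fun i _ => ?_
    rw [map_mul, h.ro_emb (s1 i), ← lg_ga p.disc h (s1 i) k, b3 _ _ (cy _), hR _ (s1 i) _ (cy _),
      un (cy _), s2, Units.val_mul]
  rw [e]
  generalize ((z.out : (ZMod M)ˣ) : ZMod M) = v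
  by_cases l0 : L (pa ι.toRatAlgHom (R v)) = 0
  · rw [l0, mul_zero, map_zero, norm_zero]
    exact zero_le_one
  have o {g : GQ} (hg : g ∈ V.D) {j : ℤ} (e : Cyc M g j) : (j : ZMod M) = 1 := by
    rw [un e, (hm g).1 (vd ▸ hg : g ∈ dec P ⊓ Hm M).2, Units.val_one]
  have m : R v ∈ Fx A B V.D := fun g hg => by
    rw [hR g (V.le hg) _ (cy g), o hg (cy g), one_mul]
  obtain ⟨t, S, j, h1, h2, h3⟩ := Par.pard N G a A B w I x y ι P h V.D L r p k V.le _ m
  exact rec N G a A B w I x y ι P h V r p ve t S _ _ j _ h1 h2 m h3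
    (by rw [← map_sub, ← map_sub, ← h3, map_nsmul, map_nsmul, nsmul_eq_mul])
    (fun i i0 e => by
      have := congrArg (fun T => L (pa ι.toRatAlgHom T)) e
      simp only [map_zsmul, map_zero, zsmul_eq_mul] at this
      exact mul_ne_zero (Int.cast_ne_zero.2 i0) l0 this)
    γ c0 M c _ _ gs vol c00 M0 M2 sc (fun g hg i e z => by rw [o hg e, one_mul]) (b1 v)

end Vale.Agent.P014W.Rect
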