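import Vale.Agent.P014W.Hn
import Vale.Agent.P014W.Span

/-!
# P014W, block C: the span argument on classes
-/

set_option autoImplicit false
set_option linter.all false

open Finset IsUltrametricDist

noncomputable section

namespace Vale.Agent.P014W.Sp

open Vale.Agent.P014T

theorem pv {C : Type} [Monoid C] {m : ℕ} [NeZero m] {ζ : C} (h : ζ ^ m = 1) (k : ℕ) (y : ZMod m) :
    ζ ^ ((k : ZMod m) * y).val = (ζ ^ y.val) ^ k := by
  rw [ZMod.val_mul, ← pow_eq_pow_mod _ h, ZMod.val_natCast, pow_mul, ← pow_eq_pow_mod _ h,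
    pow_right_comm]

theorem hn {a κ : ℤ} {F : ℂ_[2] → ℂ_[2]} (h : P014W.Hn a κ F) : Hn (a : ℂ_[2]) κ F := by
  intro ω n hω h2
  obtain ⟨γ, g1, g0, gn, gs⟩ := h.2 ω hω n (by omega)
  refine ⟨γ, g1, g0, ?_, gs⟩
  obtain ⟨n, rfl⟩ := Nat.exists_eq_add_of_le h2
  have e : γ (2 + n) - ω = 2 * (-(a * 2 ^ n * ω ^ 2) + κ * (4 * 4 ^ n) * ω ^ 4) := by
    apply mul_left_cancel₀ (two_ne_zero (α := ℂ_[2]))
    linear_combination gn
  have i : ∀ (j : ℤ) (k : ℕ), ‖(j : ℂ_[2]) * ω ^ k‖ ≤ 1 := fun j k => by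
    rw [norm_mul, norm_pow]
    exact mul_le_one₀ (norm_intCast_le_one _ j) (by positivity) (pow_le_one₀ (norm_nonneg _) hω)
  rw [e, norm_mul]
  refine mul_le_of_le_one_right (norm_nonneg _) (Sb.nadd ?_ ?_)
  · rw [norm_neg]
    exact_mod_cast i (a * 2 ^ n) 2
  · exact_mod_cast i (κ * (4 * 4 ^ n)) 4

/-- **the span argument on classes** -/
theorem spz {m J : ℕ} [NeZero m] (hm : Odd m) {ζ η : ℂ_[2]} (hζ : IsPrimitiveRoot ζ m)
    (hη : η ^ 2 ^ J = 1) {a κ : ℤ} {F : ℂ_[2] → ℂ_[2]} (hH : P014W.Hn a κ F) {ι : Type} [Fintype ι]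
    (b : ι → ℂ_[2]) (v : ι → ℕ)
    (hb : ∀ y n, 2 ≤ n → ‖∑ i, b i * F (ζ ^ (v i * y) * (η ^ v i - 1) ^ n)‖ ≤ 1) :
    ∃ G : ZMod m → ZMod (2 ^ J) → ℂ_[2], ∀ y z,
      2 * G y z - a * G (2 * y) (2 * z) + κ * G (4 * y) (4 * z) =
        2 * (∑ i, b i * (ζ ^ (v i * y.val) * η ^ (v i * z.val)) - ∑ i, b i * ζ ^ (v i * y.val)) ∧
      ‖G y z + G y (-z)‖ ≤ 1 := by
  obtain ⟨G, h1, h2⟩ := span Ah.two_lt two_ne_zero hζ (Sb.n_odd Ah.two_C hm) hη hH.1 (hn hH) b v hb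
  refine ⟨fun y z => G (ζ ^ y.val) (η ^ z.val), fun y z => ⟨?_, h2 _ _ _ ?_⟩⟩
  · have a2 := pv hζ.pow_eq_one 2 y
    have a4 := pv hζ.pow_eq_one 4 y
    have b2 := pv hη 2 z
    have b4 := pv hη 4 z
    push_cast at a2 a4 b2 b4
    beta_reduce
    rw [a2, a4, b2, b4, h1, ← sum_sub_distrib]
    congr 1
    exact sum_congr rfl fun i _ => by ring
  · rw [← ZMod.natCast_eq_zero_iff]
    push_cast
    simp

end Vale.Agent.P014W.Sp
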