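import Vale.Agent.P014W.Ky0

/-! # P014W, row KEY: the functional equation along the tower -/

set_option autoImplicit false
set_option linter.all false

noncomputable section

namespace Vale.Agent.P014W.Tw

open Vale.Agent.P022 (Qb)
open Vale.Agent.P027M.M (io)

variable {Γ : Type} [CommGroup Γ]

/-- a translation -/
def tr (k : Γ) : Module.End ℂ (Γ → ℂ) := LinearMap.funLeft ℂ ℂ (k * ·)

/-- the involution -/
def st (n : Γ) : Module.End ℂ (Γ → ℂ) := LinearMap.funLeft ℂ ℂ (n * ·⁻¹)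

/-- one factor -/
def fa (x : Qb × Γ) : Module.End ℂ (Γ → ℂ) := 1 - io x.1 • tr x.2

/-- a product of factors -/
def op (L : List (Qb × Γ)) : Module.End ℂ (Γ → ℂ) := (L.map fa).prod

/-- the dual product -/
def du (L : List (Qb × Γ)) : List (Qb × Γ) := L.map fun x => (x.1, x.2⁻¹)

/-- the value on constants -/
def au (L : List (Qb × Γ)) : ℂ := (L.map fun x => 1 - io x.1).prod

variable {L L' : List (Qb × Γ)} {x : Qb × Γ} {n k : Γ} {H : Γ → ℂ}

theorem fa_app (x : Qb × Γ) (H : Γ → ℂ) (s : Γ) : fa x H s = H s - io x.1 * H (x.2 * s) := rfl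

theorem op_cons (x : Qb × Γ) (L : List (Qb × Γ)) : op (x :: L) = fa x * op L := List.prod_cons

theorem tr_op (k : Γ) (L : List (Qb × Γ)) : Commute (tr k) (op L) :=
  .list_prod_right _ _ fun _ h => by
    obtain ⟨y, -, rfl⟩ := List.mem_map.1 h
    exact LinearMap.ext fun H => funext fun s => by
      change H (k * s) - io y.1 * H (y.2 * (k * s)) = H (k * s) - io y.1 * H (k * (y.2 * s))
      rw [mul_left_comm k]

theorem op_op (L L' : List (Qb × Γ)) : Commute (op L) (op L') :=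
  .list_prod_left _ _ fun _ h => by
    obtain ⟨y, -, rfl⟩ := List.mem_map.1 h
    exact (Commute.one_left _).sub_left ((tr_op _ _).smul_left _)

theorem st_op (n : Γ) (L : List (Qb × Γ)) : st n * op L = op (du L) * st n := by
  induction L with
  | nil => rfl
  | cons y L h =>
    have e : st n * fa y = fa (y.1, y.2⁻¹) * st n := LinearMap.ext fun H => funext fun s => by
      change H (n * s⁻¹) - io y.1 * H (y.2 * (n * s⁻¹)) =
        H (n * s⁻¹) - io y.1 * H (n * (y.2⁻¹ * s)⁻¹)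
      rw [mul_inv, inv_inv, mul_left_comm n]
    rw [op_cons, ← mul_assoc, e, mul_assoc, h, ← mul_assoc, ← op_cons]
    rfl

theorem du_du (L : List (Qb × Γ)) : du (du L) = L := by simp [du, Function.comp_def]

theorem au_du (L : List (Qb × Γ)) : au (du L) = au L := by simp [au, du, Function.comp_def]

theorem op_const (L : List (Qb × Γ)) (y : ℂ) : op L (fun _ => y) = fun _ => au L * y := by
  induction L with
  | nil => simp [op, au]
  | cons x L h =>
    funext s
    rw [op_cons, Module.End.mul_apply, h, fa_app, au, au, List.map_cons, List.prod_cons]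
    ring

variable (ι : Qb →+* ℂ_[2]) (c : ℂ)

/-- bounded families -/
def Bd (D : ℕ → Γ → ℂ) : Prop := ∃ C : ℝ, ∀ i s, ∃ b, io b * c = D i s ∧ ‖ι b‖ ≤ C

variable {ι c} {D D' F : ℕ → Γ → ℂ}

theorem Bd.cmb (h : Bd ι c D) (h' : Bd ι c D') (u v : Qb) (f g : ℕ → ℕ) (p q : Γ → Γ) :
    Bd ι c fun i s => io u * D (f i) (p s) - io v * D' (g i) (q s) := by
  obtain ⟨C, h⟩ := h
  obtain ⟨C', h'⟩ := h'
  refine ⟨‖ι u‖ * C + ‖ι v‖ * C', fun i s => ?_⟩
  obtain ⟨b, e, k⟩ := h (f i) (p s)
  obtain ⟨b', e', k'⟩ := h' (g i) (q s)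
  refine ⟨u * b - v * b', by simp only [← e, ← e', map_sub, map_mul]; ring, ?_⟩
  rw [map_sub, map_mul, map_mul]
  refine (norm_sub_le _ _).trans ?_
  rw [norm_mul, norm_mul]
  gcongr

theorem Bd.op (h : Bd ι c D) (L : List (Qb × Γ)) : Bd ι c fun i => op L (D i) := by
  induction L with
  | nil => exact h
  | cons x L k =>
    have := k.cmb k 1 x.1 id id id (x.2 * ·)
    simp only [map_one, one_mul] at this
    rw [op_cons]
    exact this

/-- bounded solutions -/
theorem core {α β : Qb} {t : ℕ} (hα : ‖(2 : ℂ_[2])‖ < ‖ι α‖) (b : Bd ι c D)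
    (r : ∀ i s, 4 * D (i + 2) s = F i s + 2 * io (α + β) * D (i + 1) s - io (α * β) * D i s)
    (z : ∀ i, t ≤ i → F i = 0) (fl : ∀ i, ∃ τ, ∀ s, F i (τ * s) = -F i s ∧
      D (i + 1) (τ * s) = D (i + 1) s ∧ D i (τ * s) = D i s) (c0 : c ≠ 0) (s : Γ) :
    2 * D 1 s = io β * D 0 s := by
  simp only [map_add, map_mul] at r
  have a0 : io α ≠ 0 := (map_ne_zero io).2 fun e => by
    rw [e, map_zero, norm_zero] at hα
    exact (norm_nonneg _).not_gt hα
  obtain ⟨C, hC⟩ := b.cmb b 2 β (· + 1) id id id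
  simp only [id, map_ofNat] at hC
  have up : ∀ s, 2 * D (t + 1) s = io β * D t s := fun s => by
    obtain ⟨b, e, -⟩ := hC t s
    have k : ∀ k, 2 * D (t + k + 1) s - io β * D (t + k) s = io ((α / 2) ^ k * b) * c := fun k => by
      induction k with
      | zero => simp [e]
      | succ k h =>
        have := r (t + k) s
        rw [z _ le_self_add] at this
        simp only [map_mul, map_pow, map_div₀, map_ofNat, ← add_assoc, Pi.zero_apply] at h this ⊢
        linear_combination this / 2 + io α / 2 * h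
    have n2 : 0 < ‖(2 : ℂ_[2])‖ := norm_pos_iff.2 two_ne_zero
    by_contra h
    have b0 : 0 < ‖ι b‖ := norm_pos_iff.2 ((map_ne_zero ι).2 fun e' => h (by
      rw [← sub_eq_zero, ← e, e', map_zero, zero_mul]))
    obtain ⟨j, hj⟩ := pow_unbounded_of_one_lt (C / ‖ι b‖) ((one_lt_div n2).2 hα)
    obtain ⟨b', e', l⟩ := hC (t + j) s
    rw [k j, mul_left_inj' c0] at e'
    rw [(io : Qb →+* ℂ).injective e', map_mul, map_pow, map_div₀, map_ofNat, norm_mul, norm_pow,
      norm_div] at l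
    exact ((div_lt_iff₀ b0).1 hj).not_ge l
  revert s
  refine Nat.decreasingInduction (motive := fun i _ => ∀ s, 2 * D (i + 1) s = io β * D i s)
    (fun i _ h s => mul_left_cancel₀ a0 ?_) up t.zero_le
  obtain ⟨τ, fl⟩ := fl i
  obtain ⟨f1, f2, f3⟩ := fl s
  have r1 := r i (τ * s)
  have h1 := h (τ * s)
  rw [f1, f2, f3] at r1
  rw [f2] at h1
  linear_combination h s + h1 - r i s / 2 - r1 / 2

/-- one side -/
structure Sd (ι : Qb →+* ℂ_[2]) (c : ℂ) (τ : ℕ → Γ) (e κ x u : ℂ) (T G : ℕ → Γ → ℂ)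
    (L : List (Qb × Γ)) : Prop where
  bd : Bd ι c G
  t0 : T 0 = fun _ => u
  t1 : T 1 = fun _ => -x⁻¹ * u
  fl : ∀ i, tr (τ i) (T (i + 2)) = -T (i + 2)
  iv : ∀ i j, j ≤ i + 1 → tr (τ i) (T j) = T j
  g0 : ∀ s, (2 - e * x + κ * x ^ 2) * G 0 s = op L (T 0) s
  g1 : ∀ s, 2 * G 1 s = op L (T 1) s + (e - κ * x) * G 0 s
  g2 : ∀ i s, 2 * G (i + 2) s = op L (T (i + 2)) s + e * G (i + 1) s - κ * G i s
  ne : 2 - e * x + κ * x ^ 2 ≠ 0
  x0 : x ≠ 0

variable {τ : ℕ → Γ} {e κ x' u u' y : ℂ} {T T' G G' : ℕ → Γ → ℂ}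

namespace Sd

variable (h : Sd ι c τ e κ y u T G L)
include h

theorem e0 : G 0 = fun _ => au L * u / (2 - e * y + κ * y ^ 2) := funext fun s => by
  rw [eq_div_iff h.ne, mul_comm, h.g0, h.t0, op_const]

theorem e1 : G 1 = fun _ => (e - κ * y - y⁻¹) * (au L * u / (2 - e * y + κ * y ^ 2)) :=
  funext fun s => by
    have := h.g1 s
    rw [h.t1, op_const, h.e0] at this
    have a := div_mul_cancel₀ (au L * u) h.ne
    linear_combination this / 2 + y⁻¹ / 2 * a - (κ * y - e) *
      (au L * u / (2 - e * y + κ * y ^ 2)) / 2 * inv_mul_cancel₀ h.x0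

theorem e2 (i : ℕ) : G (i + 2) = (1 / 2 : ℂ) • (op L (T (i + 2)) + e • G (i + 1) - κ • G i) :=
  funext fun s => by
    simp only [Pi.smul_apply, Pi.add_apply, Pi.sub_apply, smul_eq_mul]
    linear_combination h.g2 i s / 2

theorem ivg (i j : ℕ) : j ≤ i + 1 → tr (τ i) (G j) = G j := by
  induction j using Nat.twoStepInduction with
  | zero => exact fun _ => h.e0 ▸ rfl
  | one => exact fun _ => h.e1 ▸ rfl
  | more j a b =>
    intro l
    rw [h.e2, map_smul, map_sub, map_add, map_smul, map_smul, a (by omega), b (by omega),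
      ← Module.End.mul_apply, tr_op, Module.End.mul_apply, h.iv i _ l]

end Sd

theorem tr_st {τ : Γ} {a : ℂ} (a2 : a * a = 1) (h : tr τ H = a • H) :
    tr τ (st n H) = a • st n H := funext fun s => by
  have : H (τ * (n * (τ * s)⁻¹)) = a * H (n * (τ * s)⁻¹) := congrFun h _
  rw [mul_inv, mul_left_comm n, mul_inv_cancel_left] at this
  change H (n * (τ * s)⁻¹) = a * H (n * s⁻¹)
  rw [this, ← mul_assoc, a2, one_mul, mul_inv, mul_left_comm n]

/-- **the two sides** -/
theorem tower {α β η : Qb} {t : ℕ} (h : Sd ι c τ e κ y u T G L) (h' : Sd ι c τ e κ x' u' T' G' L')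
    (hα : ‖(2 : ℂ_[2])‖ < ‖ι α‖) (h1 : io (α + β) = e) (h2 : io (α * β) = 2 * κ) (c0 : c ≠ 0)
    (l0 : au L ≠ 0) (l1 : au L' ≠ 0) (sy : ∀ i, t ≤ i → T (i + 2) = io η • st n (T' (i + 2))) :
    (2 * (e - κ * y - y⁻¹) - io β) * u * (2 - e * x' + κ * x' ^ 2) =
      io η * (2 * (e - κ * x' - x'⁻¹) - io β) * u' * (2 - e * y + κ * y ^ 2) := by
  have w : ∀ (L : List (Qb × Γ)) (H : Γ → ℂ) (k : Γ) (a : ℂ), tr k H = a • H →
      tr k (op L H) = a • op L H := fun L H k a p => by
    rw [← Module.End.mul_apply, tr_op, Module.End.mul_apply, p, map_smul]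
  have v : ∀ (H H' : Γ → ℂ) (k : Γ) (a : ℂ), a * a = 1 → tr k H = a • H → tr k H' = a • H' → ∀ s,
      (op (du L') H - io η • st n (op (du L) H')) (k * s) =
        a * (op (du L') H - io η • st n (op (du L) H')) s := fun H H' k a a2 p q s => by
    change tr k (op (du L') H - io η • st n (op (du L) H')) s = _
    rw [map_sub, map_smul, w _ _ _ _ p, tr_st a2 (w _ _ _ _ q), smul_comm, ← smul_sub]
    rfl
  have := core (D := fun i => op (du L') (G i) - io η • st n (op (du L) (G' i))) (t := t) (β := β)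
    (F := fun i => (2 : ℂ) • (op (du L') (op L (T (i + 2))) -
      io η • st n (op (du L) (op L' (T' (i + 2)))))) hα
    (by
      have := (h.bd.op (du L')).cmb (h'.bd.op (du L)) 1 η id id id (n * ·⁻¹)
      simp only [map_one, one_mul] at this
      exact this)
    (fun i s => by
      simp only [h.e2 i, h'.e2 i, h1, h2, map_smul, map_sub, map_add, Pi.smul_apply, Pi.add_apply,
        Pi.sub_apply, smul_eq_mul]
      ring)
    (fun i l => by
      simp only [sy i l, map_smul, ← Module.End.mul_apply, ← mul_assoc, st_op, du_du]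
      rw [mul_assoc (op L), st_op, ← mul_assoc, (op_op L _).eq, sub_self, smul_zero])
    (fun i => ⟨τ i, fun s => ⟨?_, ?_, ?_⟩⟩) c0 1
  · simp only [h.e0, h.e1, h'.e0, h'.e1, op_const, au_du, Pi.smul_apply, Pi.sub_apply,
      smul_eq_mul, st, LinearMap.funLeft_apply] at this
    have a := h.ne
    have b := h'.ne
    generalize e - κ * y - y⁻¹ = R at this ⊢
    generalize e - κ * x' - x'⁻¹ = R' at this ⊢
    generalize 2 - e * y + κ * y ^ 2 = P at this a ⊢
    generalize 2 - e * x' + κ * x' ^ 2 = P' at this b ⊢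
    field_simp at this
    linear_combination this
  · simp only [Pi.smul_apply, smul_eq_mul]
    rw [v _ _ _ (-1) (by ring) (w _ _ _ _ (by rw [h.fl, neg_one_smul]))
      (w _ _ _ _ (by rw [h'.fl, neg_one_smul]))]
    ring
  · rw [v _ _ _ 1 (by ring) (by rw [h.ivg i _ le_rfl, one_smul])
      (by rw [h'.ivg i _ le_rfl, one_smul]), one_mul]
  · rw [v _ _ _ 1 (by ring) (by rw [h.ivg i _ i.le_succ, one_smul])
      (by rw [h'.ivg i _ i.le_succ, one_smul]), one_mul]

end Vale.Agent.P014W.Tw
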